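import Mathlib

open Polynomial ComplexConjugate

namespace Vale.Agent.Lib.P123

variable {H : Type*} [NormedAddCommGroup H] [InnerProductSpace ℂ H]

theorem mul_app (S T : H →L[ℂ] H) (x : H) : (S * T) x = S (T x) := rfl
theorem one_app (x : H) : (1 : H →L[ℂ] H) x = x := rfl
theorem sub_app (S T : H →L[ℂ] H) (x : H) : (S - T) x = S x - T x := rfl
theorem smul_app (c : ℂ) (S : H →L[ℂ] H) (x : H) : (c • S) x = c • S x := rfl
theorem sum_apply_clm {ι : Type*} (s : Finset ι) (f : ι → H →L[ℂ] H) (x : H) :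
    (∑ i ∈ s, f i) x = ∑ i ∈ s, f i x := by
  classical
  induction s using Finset.induction_on with
  | empty => simp
  | insert a s ha ih => rw [Finset.sum_insert ha, Finset.sum_insert ha, ContinuousLinearMap.add_apply, ih]

/-- Partition of unity at the nodes of a separable polynomial. -/
theorem sum_nodal_erase (s : Finset ℂ) (hs : s.Nonempty) :
    ∑ σ ∈ s, C ((eval σ (Lagrange.nodal (s.erase σ) id))⁻¹) * Lagrange.nodal (s.erase σ) id
      = (1 : ℂ[X]) := by
  have h := Lagrange.sum_basis (s := s) (v := (id : ℂ → ℂ)) (Function.injective_id.injOn) hs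
  rw [← h]
  refine Finset.sum_congr rfl fun σ _ => ?_
  simp only [Lagrange.basis, Lagrange.basisDivisor, Lagrange.nodal, id, eval_prod, eval_sub, eval_X,
    eval_C]
  rw [Finset.prod_mul_distrib]
  congr 1
  rw [← map_prod, Finset.prod_inv_distrib]

/-- The Lagrange data attached to a value `ζ` all of whose preimages under `p` are simple. -/
theorem exists_lagrange_data (p : ℂ[X]) (hp : 0 < p.natDegree) (ζ : ℂ)
    (hsimple : ∀ σ, p.eval σ = ζ → p.derivative.eval σ ≠ 0) :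
    ∃ (s : Finset ℂ) (q : ℂ → ℂ[X]),
      (∀ σ, σ ∈ s ↔ p.eval σ = ζ) ∧
      (∀ σ ∈ s, (X - C σ) * q σ = p - C ζ) ∧
      (∀ σ ∈ s, (q σ).eval σ = p.derivative.eval σ) ∧
      ∑ σ ∈ s, C ((p.derivative.eval σ)⁻¹) * q σ = 1 := by
  classical
  set f : ℂ[X] := p - C ζ with hf
  have hfdeg : f.natDegree = p.natDegree := natDegree_sub_C
  have hf0 : f ≠ 0 := by
    intro h
    rw [h] at hfdeg
    simp at hfdeg
    omega
  have hfd : f.derivative = p.derivative := by simp [hf]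
  have hroot : ∀ σ, f.IsRoot σ ↔ p.eval σ = ζ := by
    intro σ
    simp [hf, IsRoot, sub_eq_zero]
  have hsep : f.Separable := by
    rw [separable_def, isCoprime_iff_aeval_ne_zero_of_isAlgClosed ℂ ℂ]
    intro a
    by_cases ha : f.eval a = 0
    · right
      have : p.eval a = ζ := (hroot a).1 ha
      simpa [hfd] using hsimple a this
    · left
      simpa using ha
  have hnd : f.roots.Nodup := nodup_roots hsep
  set s : Finset ℂ := f.roots.toFinset with hs
  have hmem : ∀ σ, σ ∈ s ↔ p.eval σ = ζ := by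
    intro σ
    rw [hs, Multiset.mem_toFinset, mem_roots hf0, hroot]
  have hprod : f = C f.leadingCoeff * Lagrange.nodal s id := by
    have h1 := (IsAlgClosed.splits f).eq_prod_roots
    have h2 : (f.roots.map fun a => X - C a).prod = Lagrange.nodal s id := by
      rw [Lagrange.nodal, hs, Finset.prod_eq_multiset_prod]
      simp only [id]
      rw [Multiset.toFinset_val, Multiset.dedup_eq_self.2 hnd]
    rw [← h2]
    exact h1
  have hlc : f.leadingCoeff ≠ 0 := leadingCoeff_ne_zero.2 hf0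
  have hnonempty : s.Nonempty := by
    have hd : f.degree ≠ 0 := by
      rw [degree_eq_natDegree hf0, hfdeg]
      exact_mod_cast hp.ne'
    obtain ⟨a, ha⟩ := IsAlgClosed.exists_root f hd
    exact ⟨a, (hmem a).2 ((hroot a).1 ha)⟩
  have hfac : ∀ σ ∈ s, (X - C σ) * (C f.leadingCoeff * Lagrange.nodal (s.erase σ) id) = f := by
    intro σ hσ
    conv_rhs => rw [hprod, Lagrange.nodal_eq_mul_nodal_erase (v := id) hσ]
    simp only [id]
    ring
  have heval : ∀ σ ∈ s, (C f.leadingCoeff * Lagrange.nodal (s.erase σ) id).eval σ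
      = p.derivative.eval σ := by
    intro σ hσ
    have := congrArg (fun g => (derivative g).eval σ) (hfac σ hσ)
    simp only [derivative_mul, derivative_sub, derivative_X, derivative_C, sub_zero, one_mul,
      eval_add, eval_mul, eval_sub, eval_X, eval_C, sub_self, zero_mul, add_zero] at this
    rw [← hfd]
    simpa using this
  refine ⟨s, fun σ => C f.leadingCoeff * Lagrange.nodal (s.erase σ) id, hmem, hfac, heval, ?_⟩
  rw [← sum_nodal_erase s hnonempty]
  refine Finset.sum_congr rfl fun σ hσ => ?_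
  rw [← heval σ hσ]
  simp only [eval_mul, eval_C]
  have h4 : (f.leadingCoeff * eval σ (Lagrange.nodal (s.erase σ) id))⁻¹ * f.leadingCoeff
      = (eval σ (Lagrange.nodal (s.erase σ) id))⁻¹ := by
    rw [mul_inv, mul_comm f.leadingCoeff⁻¹, mul_assoc, inv_mul_cancel₀ hlc, mul_one]
  rw [← mul_assoc, ← C_mul, h4]

/-- Key sum-of-squares inequality: tangent half-plane conditions at all preimages of `ζ` give a
half-plane bound for the numerical range of `p(A)`. -/
theorem re_inner_le_of_halfplanes (A : H →L[ℂ] H) (p : ℂ[X]) (hp : 0 < p.natDegree) (ζ : ℂ)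
    (hsimple : ∀ σ, p.eval σ = ζ → p.derivative.eval σ ≠ 0)
    (hhalf : ∀ σ, p.eval σ = ζ → ∀ u : H,
      0 ≤ (conj ζ * p.derivative.eval σ * (σ * (‖u‖ : ℂ) ^ 2 - inner ℂ u (A u))).re)
    (x : H) :
    (conj ζ * inner ℂ x ((aeval A p) x)).re ≤ ‖ζ‖ ^ 2 * ‖x‖ ^ 2 := by
  classical
  obtain ⟨s, q, hmem, hfac, heval, hsum⟩ := exists_lagrange_data p hp ζ hsimple
  set u : ℂ → H := fun σ => (aeval A (q σ)) x with hu
  set g : H := ζ • x - (aeval A p) x with hg
  have hx : x = ∑ σ ∈ s, (p.derivative.eval σ)⁻¹ • u σ := by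
    have h1 : (aeval A (∑ σ ∈ s, C ((p.derivative.eval σ)⁻¹) * q σ)) x = x := by
      rw [hsum, map_one]
      rfl
    have h2 : (aeval A (∑ σ ∈ s, C ((p.derivative.eval σ)⁻¹) * q σ)) x
        = ∑ σ ∈ s, (p.derivative.eval σ)⁻¹ • u σ := by
      rw [map_sum, sum_apply_clm]
      refine Finset.sum_congr rfl fun σ _ => ?_
      rw [map_mul, aeval_C, Algebra.algebraMap_eq_smul_one, mul_app, smul_app, one_app]
    rw [← h2, h1]
  have hg' : ∀ σ ∈ s, σ • u σ - A (u σ) = g := by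
    intro σ hσ
    have h1 : (aeval A ((X - C σ) * q σ)) x = (aeval A (p - C ζ)) x := by rw [hfac σ hσ]
    rw [map_mul, map_sub, map_sub, aeval_X, aeval_C, aeval_C, mul_app, sub_app, sub_app,
      Algebra.algebraMap_eq_smul_one, Algebra.algebraMap_eq_smul_one, smul_app, smul_app, one_app,
      one_app] at h1
    rw [hg]
    have h5 : σ • u σ - A (u σ) = -(A (u σ) - σ • u σ) := by abel
    rw [h5]
    simp only [hu]
    rw [h1]
    abel
  have hmain : inner ℂ x g = ∑ σ ∈ s, conj ((p.derivative.eval σ)⁻¹) * inner ℂ (u σ) g := by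
    conv_lhs => rw [hx]
    rw [sum_inner]
    refine Finset.sum_congr rfl fun σ _ => ?_
    rw [inner_smul_left]
  have hterm : ∀ σ ∈ s, 0 ≤ (conj ζ * (conj ((p.derivative.eval σ)⁻¹) * inner ℂ (u σ) g)).re := by
    intro σ hσ
    have hσ' : p.eval σ = ζ := (hmem σ).1 hσ
    have hd := hsimple σ hσ'
    have h2 := hhalf σ hσ' (u σ)
    have h3 : inner ℂ (u σ) g = σ * (‖u σ‖ : ℂ) ^ 2 - inner ℂ (u σ) (A (u σ)) := by
      rw [← hg' σ hσ, inner_sub_right, inner_smul_right, inner_self_eq_norm_sq_to_K]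
      simp
    rw [h3]
    set d := p.derivative.eval σ with hdd
    have h4 : conj (d⁻¹) = ((‖d‖ ^ 2)⁻¹ : ℝ) * d := by
      have hd0 : (‖d‖ : ℂ) ≠ 0 := by simpa using hd
      rw [map_inv₀]
      have hc : conj d ≠ 0 := by simpa using hd
      have h6 : d * conj d = (‖d‖ : ℂ) ^ 2 := by
        rw [Complex.mul_conj, Complex.normSq_eq_norm_sq]
        simp
      push_cast
      field_simp
      rw [← h6]
      ring
    have h5 : conj ζ * (((‖d‖ ^ 2)⁻¹ : ℝ) * d * (σ * (‖u σ‖ : ℂ) ^ 2 - inner ℂ (u σ) (A (u σ))))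
        = ((‖d‖ ^ 2)⁻¹ : ℝ) * (conj ζ * d * (σ * (‖u σ‖ : ℂ) ^ 2 - inner ℂ (u σ) (A (u σ)))) := by
      ring
    rw [h4, h5, Complex.re_ofReal_mul]
    exact mul_nonneg (by positivity) h2
  have hsumre : 0 ≤ (conj ζ * inner ℂ x g).re := by
    rw [hmain, Finset.mul_sum, Complex.re_sum]
    exact Finset.sum_nonneg hterm
  have hexp : (conj ζ * inner ℂ x g).re
      = ‖ζ‖ ^ 2 * ‖x‖ ^ 2 - (conj ζ * inner ℂ x ((aeval A p) x)).re := by
    have h8 : inner ℂ x x = ((‖x‖ : ℂ)) ^ 2 := by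
      rw [inner_self_eq_norm_sq_to_K]; simp
    have h7 : conj ζ * (ζ * ((‖x‖ : ℂ)) ^ 2) = ((‖ζ‖ ^ 2 * ‖x‖ ^ 2 : ℝ) : ℂ) := by
      rw [← mul_assoc, Complex.conj_mul']; push_cast; ring
    rw [hg, inner_sub_right, inner_smul_right, h8, mul_sub, Complex.sub_re, h7, Complex.ofReal_re]
  linarith

/-- Three-direction polarization: a bound for the numerical range in three directions at mutual
angle `2π/3` bounds the operator norm by twice the constant. -/
theorem opNorm_le_of_three_directions (T : H →L[ℂ] H) (M : ℝ) (hM : 0 ≤ M) (c₀ c₁ c₂ : ℂ)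
    (h0 : ‖c₀‖ = 1) (h1 : ‖c₁‖ = 1) (h2 : ‖c₂‖ = 1)
    (hsum : c₀ + c₁ + c₂ = 0) (hsum2 : c₀ ^ 2 + c₁ ^ 2 + c₂ ^ 2 = 0)
    (hT : ∀ k : Fin 3, ∀ x : H,
      (conj (![c₀, c₁, c₂] k) * inner ℂ x (T x)).re ≤ M * ‖x‖ ^ 2) :
    ‖T‖ ≤ 2 * M := by
  have key : ∀ x y : H, (inner ℂ x (T y)).re ≤ M * (‖x‖ ^ 2 + ‖y‖ ^ 2) := by
    intro x y
    have hexp : ∀ c : ℂ, ‖c‖ = 1 → conj c * inner ℂ (x + c • y) (T (x + c • y))
        = conj c * inner ℂ x (T x) + inner ℂ x (T y) + conj c ^ 2 * inner ℂ y (T x)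
          + conj c * inner ℂ y (T y) := by
      intro c hc
      have hcc : conj c * c = 1 := by
        rw [Complex.conj_mul', hc]; simp
      rw [map_add, map_smul, inner_add_left, inner_add_right, inner_add_right, inner_smul_left,
        inner_smul_right, inner_smul_left, inner_smul_right]
      linear_combination (inner ℂ x (T y) + conj c * inner ℂ y (T y)) * hcc
    have hnorm : ∀ c : ℂ, ‖c‖ = 1 → ‖x + c • y‖ ^ 2 = ‖x‖ ^ 2 + ‖y‖ ^ 2 + 2 * (c * inner ℂ x y).re := by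
      intro c hc
      rw [@norm_add_sq ℂ, norm_smul, hc, one_mul, inner_smul_right]
      simp only [RCLike.re_to_complex]
      ring
    have e0 := hT 0 (x + c₀ • y)
    have e1 := hT 1 (x + c₁ • y)
    have e2 := hT 2 (x + c₂ • y)
    simp only [Matrix.cons_val_zero, Matrix.cons_val_one, Matrix.cons_val] at e0 e1 e2
    rw [hexp c₀ h0, hnorm c₀ h0] at e0
    rw [hexp c₁ h1, hnorm c₁ h1] at e1
    rw [hexp c₂ h2, hnorm c₂ h2] at e2
    have hs1 : conj c₀ + conj c₁ + conj c₂ = 0 := by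
      rw [← map_add, ← map_add, hsum, map_zero]
    have hs2 : conj c₀ ^ 2 + conj c₁ ^ 2 + conj c₂ ^ 2 = 0 := by
      rw [← map_pow, ← map_pow, ← map_pow, ← map_add, ← map_add, hsum2, map_zero]
    have hsumC : (conj c₀ * inner ℂ x (T x) + inner ℂ x (T y) + conj c₀ ^ 2 * inner ℂ y (T x)
          + conj c₀ * inner ℂ y (T y))
        + (conj c₁ * inner ℂ x (T x) + inner ℂ x (T y) + conj c₁ ^ 2 * inner ℂ y (T x)
          + conj c₁ * inner ℂ y (T y))
        + (conj c₂ * inner ℂ x (T x) + inner ℂ x (T y) + conj c₂ ^ 2 * inner ℂ y (T x)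
          + conj c₂ * inner ℂ y (T y)) = 3 * inner ℂ x (T y) := by
      linear_combination (inner ℂ x (T x) + inner ℂ y (T y)) * hs1 + inner ℂ y (T x) * hs2
    have hre := congrArg Complex.re hsumC
    simp only [Complex.add_re] at hre
    have h3 : ((3 : ℂ) * inner ℂ x (T y)).re = 3 * (inner ℂ x (T y)).re := by
      simp
    have hs3 : (c₀ * inner ℂ x y).re + (c₁ * inner ℂ x y).re + (c₂ * inner ℂ x y).re = 0 := by
      rw [← Complex.add_re, ← Complex.add_re, ← add_mul, ← add_mul, hsum]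
      simp
    simp only [Complex.add_re] at e0 e1 e2
    rw [h3] at hre
    nlinarith
  refine ContinuousLinearMap.opNorm_le_bound _ (by positivity) fun y => ?_
  by_cases hy : T y = 0
  · rw [hy, norm_zero]
    positivity
  by_cases hy0 : y = 0
  · rw [hy0, map_zero, norm_zero]
    simp
  have hTy : 0 < ‖T y‖ := norm_pos_iff.2 hy
  have hy' : 0 < ‖y‖ := norm_pos_iff.2 hy0
  have h3 := key (((‖y‖ / ‖T y‖ : ℝ) : ℂ) • T y) y
  rw [inner_smul_left, inner_self_eq_norm_sq_to_K, norm_smul] at h3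
  simp only [Complex.conj_ofReal, Complex.norm_real, Real.norm_eq_abs] at h3
  rw [abs_of_nonneg (by positivity), div_mul_cancel₀ _ hTy.ne'] at h3
  have h4 : (((‖y‖ / ‖T y‖ : ℝ) : ℂ) * ((‖T y‖ : ℝ) : ℂ) ^ 2).re = ‖y‖ * ‖T y‖ := by
    norm_cast
    field_simp
  simp only [Complex.coe_algebraMap] at h3
  rw [h4] at h3
  have h5 : ‖T y‖ * ‖y‖ ≤ (2 * M * ‖y‖) * ‖y‖ := by nlinarith
  exact le_of_mul_le_mul_right h5 hy'

/-- Elementary real inequality behind the tangent half-plane property of Cassini ovals. -/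
theorem real_key (a b e f M t : ℝ) (hM : 0 < M) (ha : M ^ 2 ≤ 2 * a)
    (h : e ^ 2 + f ^ 2 + 2 * M ^ 2 * e ≤ 0) (ht0 : 0 ≤ t)
    (ht : t ^ 2 = (a ^ 2 + b ^ 2) * ((a + e) ^ 2 + (b + f) ^ 2)) :
    t ≤ a ^ 2 + b ^ 2 - a * e + b * f := by
  have hM2 : 0 < M ^ 2 := by positivity
  have he : e ≤ 0 := by
    by_contra hcon
    push_neg at hcon
    nlinarith [sq_nonneg e, sq_nonneg f, mul_pos hM2 hcon]
  have ha0 : 0 < a := by linarith
  have h1 : 4 * a * e + e ^ 2 + f ^ 2 ≤ 0 := by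
    have : (2 * a - M ^ 2) * e ≤ 0 := mul_nonpos_of_nonneg_of_nonpos (by linarith) he
    nlinarith
  have hN : 0 ≤ a ^ 2 + b ^ 2 - a * e + b * f := by
    nlinarith [sq_nonneg (b + f / 2), sq_nonneg e, sq_nonneg a]
  by_contra hcon
  push_neg at hcon
  have h2 : (a ^ 2 + b ^ 2 - a * e + b * f) ^ 2 < t ^ 2 := by
    exact pow_lt_pow_left₀ hcon hN (by norm_num)
  rw [ht] at h2
  have h3 : (a ^ 2 + b ^ 2 - a * e + b * f) ^ 2 - (a ^ 2 + b ^ 2) * ((a + e) ^ 2 + (b + f) ^ 2)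
      = (a * e - b * f) ^ 2 - (a ^ 2 + b ^ 2) * (4 * a * e + e ^ 2 + f ^ 2) := by ring
  have h4 : 0 ≤ (a ^ 2 + b ^ 2) * -(4 * a * e + e ^ 2 + f ^ 2) :=
    mul_nonneg (by positivity) (by linarith)
  nlinarith [sq_nonneg (a * e - b * f)]

theorem two_re_sq (w : ℂ) : 2 * w.re ^ 2 = ‖w‖ ^ 2 + (w ^ 2).re := by
  rw [← Complex.normSq_eq_norm_sq, Complex.normSq_apply, pow_two w, Complex.mul_re]
  ring

/-- Tangent half-plane property of (possibly non-convex) Cassini ovals in the directions `ζ` with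
`2 Re(ζ̄ (-β)) ≤ M²`. -/
theorem cassini_halfplane (β ζ σ z : ℂ) (M : ℝ) (hM : 0 < M) (hζ : ‖ζ‖ = M)
    (hσ : σ ^ 2 = ζ + β) (hz : ‖z ^ 2 - β‖ ≤ M) (hcond : 0 ≤ M ^ 2 + 2 * (conj ζ * β).re) :
    0 ≤ (conj ζ * σ * (σ - z)).re := by
  set q : ℂ := conj ζ * (ζ + β) with hq
  set r : ℂ := conj ζ * z ^ 2 with hr
  set w : ℂ := conj ζ * σ * z with hw
  have hcz : conj ζ * ζ = ((M ^ 2 : ℝ) : ℂ) := by
    rw [Complex.conj_mul', hζ]; push_cast; ring
  have hq' : q = ((M ^ 2 : ℝ) : ℂ) + conj ζ * β := by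
    rw [hq, mul_add, hcz]
  have hqre : q.re = M ^ 2 + (conj ζ * β).re := by
    rw [hq', Complex.add_re, Complex.ofReal_re]
  have hqim : q.im = (conj ζ * β).im := by
    rw [hq', Complex.add_im, Complex.ofReal_im, zero_add]
  have hw2 : w ^ 2 = q * r := by
    rw [hw, hq, hr, ← hσ]
    ring
  have hnw : ‖w‖ ^ 2 = ‖q‖ * ‖r‖ := by
    have h1 : ‖σ‖ ^ 2 = ‖ζ + β‖ := by rw [← norm_pow, hσ]
    have h2 : ‖z‖ ^ 2 = ‖z ^ 2‖ := by rw [norm_pow]
    rw [hw, hq, hr, norm_mul, norm_mul, norm_mul, norm_mul, mul_pow, mul_pow, h1, h2,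
      RCLike.norm_conj]
    ring
  have hrb : ‖r - conj ζ * β‖ ≤ M ^ 2 := by
    have : r - conj ζ * β = conj ζ * (z ^ 2 - β) := by rw [hr]; ring
    rw [this, norm_mul, RCLike.norm_conj, hζ]
    have := mul_le_mul_of_nonneg_left hz hM.le
    nlinarith
  have hEF : (r.re - q.re) ^ 2 + (r.im - q.im) ^ 2 + 2 * M ^ 2 * (r.re - q.re) ≤ 0 := by
    have h1 : ‖r - conj ζ * β‖ ^ 2 ≤ (M ^ 2) ^ 2 := by
      exact pow_le_pow_left₀ (norm_nonneg _) hrb 2
    rw [← Complex.normSq_eq_norm_sq, Complex.normSq_apply] at h1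
    have h2 : (r - conj ζ * β).re = (r.re - q.re) + M ^ 2 := by
      rw [Complex.sub_re, hqre]; ring
    have h3 : (r - conj ζ * β).im = r.im - q.im := by
      rw [Complex.sub_im, hqim]
    rw [h2, h3] at h1
    nlinarith
  have hM2a : M ^ 2 ≤ 2 * q.re := by
    rw [hqre]; linarith
  have hnq : ‖q‖ ^ 2 = q.re ^ 2 + q.im ^ 2 := by
    rw [← Complex.normSq_eq_norm_sq, Complex.normSq_apply]; ring
  have hnr : ‖r‖ ^ 2 = (q.re + (r.re - q.re)) ^ 2 + (q.im + (r.im - q.im)) ^ 2 := by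
    rw [← Complex.normSq_eq_norm_sq, Complex.normSq_apply]; ring
  have hkey := real_key q.re q.im (r.re - q.re) (r.im - q.im) M (‖q‖ * ‖r‖) hM hM2a hEF
    (by positivity) (by rw [mul_pow, hnq, hnr])
  have hre2 : 2 * w.re ^ 2 = ‖w‖ ^ 2 + (w ^ 2).re := two_re_sq w
  have hqr : (q * r).re = q.re * r.re - q.im * r.im := by
    rw [Complex.mul_re]
  have hwa : w.re ^ 2 ≤ q.re ^ 2 := by
    rw [hnw, hw2, hqr] at hre2
    nlinarith
  have ha0 : 0 < q.re := by
    have : 0 < M ^ 2 := by positivity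
    linarith
  have hwle : w.re ≤ q.re := by
    by_contra hcon
    push_neg at hcon
    nlinarith
  have hfinal : conj ζ * σ * (σ - z) = q - w := by
    rw [hq, hw, ← hσ]; ring
  rw [hfinal, Complex.sub_re]
  linarith

/-- Tangent half-plane property of convex lemniscates. -/
theorem convex_halfplane (p : ℂ[X]) (M : ℝ) (hconv : Convex ℝ {z : ℂ | ‖p.eval z‖ ≤ M}) (σ z : ℂ)
    (hσ : ‖p.eval σ‖ = M) (hz : ‖p.eval z‖ ≤ M) :
    0 ≤ (conj (p.eval σ) * p.derivative.eval σ * (σ - z)).re := by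
  set h : ℂ := z - σ with hh
  have hle : ∀ t : ℝ, 0 ≤ t → t ≤ 1 → ‖p.eval (σ + (t : ℂ) * h)‖ ^ 2 ≤ ‖p.eval σ‖ ^ 2 := by
    intro t ht0 ht1
    have hmem : σ + (t : ℂ) * h ∈ {z : ℂ | ‖p.eval z‖ ≤ M} := by
      have := hconv (show σ ∈ {z : ℂ | ‖p.eval z‖ ≤ M} from hσ.le)
        (show z ∈ {z : ℂ | ‖p.eval z‖ ≤ M} from hz)
        (sub_nonneg.2 ht1) ht0 (by ring)
      convert this using 1
      rw [hh]
      simp only [Complex.real_smul]
      push_cast
      ring
    rw [hσ]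
    exact pow_le_pow_left₀ (norm_nonneg _) hmem 2
  -- the curve and its derivative at zero
  have hF : HasDerivAt (fun t : ℝ => p.eval (σ + (t : ℂ) * h)) (p.derivative.eval σ * h) 0 := by
    have h1 : HasDerivAt (fun w : ℂ => σ + w * h) h 0 := by
      simpa using ((hasDerivAt_id (0 : ℂ)).mul_const h).const_add σ
    have h2 : HasDerivAt p.eval (p.derivative.eval (σ + (0 : ℂ) * h)) (σ + (0 : ℂ) * h) :=
      p.hasDerivAt _
    have h3 := h2.comp (0 : ℂ) h1
    have h4 := h3.comp_ofReal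
    simpa using h4
  have hG := hF.norm_sq
  have hslope := (hasDerivAt_iff_tendsto_slope_zero.1 hG)
  have hfil : Filter.Tendsto (fun t : ℝ => t⁻¹ • (‖p.eval (σ + ((0 + t : ℝ) : ℂ) * h)‖ ^ 2
      - ‖p.eval (σ + ((0 : ℝ) : ℂ) * h)‖ ^ 2)) (nhdsWithin 0 (Set.Ioi 0))
      (nhds (2 * inner ℝ (p.eval (σ + ((0 : ℝ) : ℂ) * h)) (p.derivative.eval σ * h))) :=
    hslope.mono_left (nhdsWithin_mono _ (fun t ht => ne_of_gt ht))
  have hnonpos : 2 * inner ℝ (p.eval (σ + ((0 : ℝ) : ℂ) * h)) (p.derivative.eval σ * h) ≤ 0 := by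
    refine le_of_tendsto hfil ?_
    have : Set.Ioo (0 : ℝ) 1 ∈ nhdsWithin (0 : ℝ) (Set.Ioi 0) :=
      Ioo_mem_nhdsGT (by norm_num)
    filter_upwards [this] with t ht
    have h5 := hle t ht.1.le ht.2.le
    simp only [zero_add, Complex.ofReal_zero, zero_mul, add_zero]
    rw [smul_eq_mul]
    exact mul_nonpos_of_nonneg_of_nonpos (inv_nonneg.2 ht.1.le) (sub_nonpos.2 h5)
  simp only [Complex.ofReal_zero, zero_mul, add_zero] at hnonpos
  have h6 : inner ℝ (p.eval σ) (p.derivative.eval σ * h)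
      = (conj (p.eval σ) * (p.derivative.eval σ * h)).re := by
    rw [Complex.inner, mul_comm]
  rw [h6] at hnonpos
  have h7 : conj (p.eval σ) * p.derivative.eval σ * (σ - z)
      = -(conj (p.eval σ) * (p.derivative.eval σ * h)) := by
    rw [hh]; ring
  rw [h7, Complex.neg_re]
  linarith

/-- Density of the non-critical values on a circle, in the form needed for a numerical radius. -/
theorem norm_le_of_directions (V : Finset ℂ) (t : ℂ) (M C : ℝ) (hM : 0 < M) (hC : 0 ≤ C)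
    (h : ∀ ζ : ℂ, ‖ζ‖ = M → ζ ∉ V → (conj ζ * t).re ≤ M ^ 2 * C) : ‖t‖ ≤ M * C := by
  by_contra hcon
  push_neg at hcon
  have hMC : 0 ≤ M * C := by positivity
  have ht : 0 < ‖t‖ := lt_of_le_of_lt hMC hcon
  have ht0 : t ≠ 0 := norm_pos_iff.1 ht
  set κ : ℝ := (‖t‖ - M * C) / ‖t‖ with hκ
  have hκ0 : 0 < κ := div_pos (by linarith) ht
  -- the points on the circle
  let e : ℝ → ℂ := fun s => ((1 + Complex.I * s) / (1 - Complex.I * s)) * (M / ‖t‖ * t)
  have hden : ∀ s : ℝ, (1 - Complex.I * s) ≠ 0 := by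
    intro s h0
    have := congrArg Complex.re h0
    simp at this
  have hinj : Set.InjOn e (Set.Ioo 0 (min 1 (κ / 2))) := by
    intro s _ s' _ hss
    have hc : ((M / ‖t‖ * t : ℂ)) ≠ 0 := by
      refine mul_ne_zero (div_ne_zero ?_ ?_) ht0
      · exact_mod_cast hM.ne'
      · exact_mod_cast ht.ne'
    have h1 := mul_right_cancel₀ hc hss
    rw [div_eq_div_iff (hden s) (hden s')] at h1
    have h2 : Complex.I * ((2 : ℂ) * ((s : ℂ) - s')) = 0 := by linear_combination h1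
    have h3 : ((s : ℂ) - s') = 0 := by
      simpa using h2
    have h4 : (s : ℂ) = s' := sub_eq_zero.1 h3
    exact_mod_cast h4
  have hinf : (e '' Set.Ioo 0 (min 1 (κ / 2))).Infinite :=
    (Set.Ioo_infinite (lt_min (by norm_num) (by positivity))).image hinj
  obtain ⟨ζ, ⟨s, hs, rfl⟩, hζV⟩ := hinf.exists_notMem_finset V
  have hs1 : s < 1 := lt_of_lt_of_le hs.2 (min_le_left _ _)
  have hs2 : s < κ / 2 := lt_of_lt_of_le hs.2 (min_le_right _ _)
  have hs0 : 0 < s := hs.1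
  have hnum : ‖1 + Complex.I * (s : ℂ)‖ = ‖1 - Complex.I * (s : ℂ)‖ := by
    have h1 : (1 - Complex.I * (s : ℂ)) = conj (1 + Complex.I * (s : ℂ)) := by
      simp [sub_eq_add_neg]
    rw [h1, RCLike.norm_conj]
  have hnorm : ‖e s‖ = M := by
    simp only [e]
    rw [norm_mul, norm_div, hnum, div_self (by simpa using hden s), one_mul, norm_mul, norm_div]
    simp only [Complex.norm_real, Real.norm_eq_abs, abs_norm, abs_of_pos hM]
    field_simp
  have hval := h (e s) hnorm hζV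
  have hre : (conj (e s) * t).re = M * ‖t‖ * ((1 - s ^ 2) / (1 + s ^ 2)) := by
    have hphase : conj ((1 + Complex.I * (s : ℂ)) / (1 - Complex.I * s))
        = (1 - Complex.I * (s : ℂ)) / (1 + Complex.I * s) := by
      rw [map_div₀]
      simp only [map_add, map_sub, map_mul, map_one, Complex.conj_I, Complex.conj_ofReal]
      congr 1 <;> ring
    have hphre : ((1 - Complex.I * (s : ℂ)) / (1 + Complex.I * s)).re = (1 - s ^ 2) / (1 + s ^ 2) := by
      simp only [Complex.div_re, Complex.normSq_apply, Complex.sub_re, Complex.add_re, Complex.one_re,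
        Complex.mul_re, Complex.I_re, Complex.I_im, Complex.ofReal_re, Complex.ofReal_im,
        Complex.sub_im, Complex.add_im, Complex.one_im, Complex.mul_im]
      have hd : (1 + s ^ 2) ≠ 0 := by positivity
      have hd2 : (1 + (0 * s - 1 * 0)) * (1 + (0 * s - 1 * 0)) + (0 + (0 * 0 + 1 * s)) * (0 + (0 * 0 + 1 * s)) = 1 + s ^ 2 := by ring
      rw [hd2]
      field_simp
      ring
    have htt : conj t * t = ((‖t‖ ^ 2 : ℝ) : ℂ) := by
      rw [Complex.conj_mul']; push_cast; ring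
    have hcalc : conj (e s) * t = ((1 - Complex.I * (s : ℂ)) / (1 + Complex.I * s))
        * ((M * ‖t‖ : ℝ) : ℂ) := by
      simp only [e]
      rw [map_mul, hphase, map_mul, map_div₀, Complex.conj_ofReal, Complex.conj_ofReal]
      push_cast at htt ⊢
      have hne : ((‖t‖ : ℝ) : ℂ) ≠ 0 := by exact_mod_cast ht.ne'
      have h9 : (M : ℂ) / (‖t‖ : ℂ) * conj t * t = (M : ℂ) * (‖t‖ : ℂ) := by
        rw [mul_assoc, htt]
        field_simp
      rw [mul_assoc ((1 - Complex.I * (s : ℂ)) / (1 + Complex.I * s)), h9]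
    rw [hcalc, Complex.mul_re, Complex.ofReal_re, Complex.ofReal_im, hphre]
    ring
  rw [hre] at hval
  have hd : 0 < 1 + s ^ 2 := by positivity
  have h1 : 1 - 2 * s ^ 2 ≤ (1 - s ^ 2) / (1 + s ^ 2) := by
    rw [le_div_iff₀ hd]
    nlinarith [sq_nonneg s, sq_nonneg (s ^ 2)]
  have hss : s ^ 2 ≤ s := by nlinarith
  have h2 : 1 - κ < (1 - s ^ 2) / (1 + s ^ 2) := by linarith
  have h3 : (1 - κ) * ‖t‖ = M * C := by
    rw [hκ]; field_simp; ring
  have h4 : M * C < ‖t‖ * ((1 - s ^ 2) / (1 + s ^ 2)) := by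
    calc M * C = (1 - κ) * ‖t‖ := h3.symm
      _ < ((1 - s ^ 2) / (1 + s ^ 2)) * ‖t‖ := mul_lt_mul_of_pos_right h2 ht
      _ = _ := mul_comm _ _
  have h5 : M * (M * C) < M * (‖t‖ * ((1 - s ^ 2) / (1 + s ^ 2))) :=
    mul_lt_mul_of_pos_left h4 hM
  nlinarith

end Vale.Agent.Lib.P123
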