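import Vale.Agent.Lib.P123.Pg20

open Complex ComplexConjugate MeasureTheory Set Filter Topology
open scoped Interval InnerProductSpace

set_option linter.unusedSectionVars false

namespace Vale.Agent.Lib.P123

variable {H : Type*} [NormedAddCommGroup H] [InnerProductSpace ℂ H]

theorem re_rot (w : ℂ) (φ : ℝ) : |w.re * Real.cos φ + w.im * Real.sin φ| ≤ ‖w‖ := by
  have h1 : (w * exp (((- φ : ℝ) : ℂ) * I)).re = w.re * Real.cos φ + w.im * Real.sin φ := by
    rw [mul_re, Complex.exp_ofReal_mul_I_re, Complex.exp_ofReal_mul_I_im, Real.cos_neg, Real.sin_neg]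
    ring
  rw [← h1]
  refine (Complex.abs_re_le_norm _).trans (le_of_eq ?_)
  rw [norm_mul, Complex.norm_exp_ofReal_mul_I, mul_one]

/-- a bilinear bound in the plane -/
theorem re_bil (a v : ℂ) : |a.re * v.re + a.im * v.im| ≤ ‖a‖ * ‖v‖ := by
  have h1 : (a * conj v).re = a.re * v.re + a.im * v.im := by
    simp [mul_re]
  rw [← h1]
  refine (Complex.abs_re_le_norm _).trans (le_of_eq ?_)
  rw [norm_mul, Complex.norm_conj]

/-- support function of the numerical range -/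
noncomputable def supp (A : H →L[ℂ] H) (φ : ℝ) : ℝ :=
  sSup ((fun w : ℂ => w.re * Real.cos φ + w.im * Real.sin φ) '' Wset A)

theorem Wset_norm (A : H →L[ℂ] H) {w : ℂ} (hw : w ∈ Wset A) : ‖w‖ ≤ ‖A‖ := by
  obtain ⟨x, hx, rfl⟩ := hw
  refine (norm_inner_le_norm _ _).trans ?_
  rw [hx, one_mul]
  have := A.le_opNorm x
  rwa [hx, mul_one] at this

theorem supp_bdd (A : H →L[ℂ] H) (φ : ℝ) :
    BddAbove ((fun w : ℂ => w.re * Real.cos φ + w.im * Real.sin φ) '' Wset A) := by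
  refine ⟨‖A‖, ?_⟩
  rintro _ ⟨w, hw, rfl⟩
  exact (le_abs_self _).trans ((re_rot w φ).trans (Wset_norm A hw))

theorem le_supp (A : H →L[ℂ] H) (φ : ℝ) {w : ℂ} (hw : w ∈ Wset A) :
    w.re * Real.cos φ + w.im * Real.sin φ ≤ supp A φ :=
  le_csSup (supp_bdd A φ) ⟨w, hw, rfl⟩

theorem supp_le (A : H →L[ℂ] H) (φ : ℝ) (hne : (Wset A).Nonempty) {C : ℝ}
    (h : ∀ w ∈ Wset A, w.re * Real.cos φ + w.im * Real.sin φ ≤ C) : supp A φ ≤ C := by
  apply csSup_le (hne.image _)
  rintro _ ⟨w, hw, rfl⟩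
  exact h w hw

theorem supp_add_two_pi (A : H →L[ℂ] H) (φ : ℝ) : supp A (φ + 2 * Real.pi) = supp A φ := by
  unfold supp
  simp only [Real.cos_add_two_pi, Real.sin_add_two_pi]

theorem supp_conv (A : H →L[ℂ] H) (hne : (Wset A).Nonempty) (φ : ℝ) {D : ℝ} (hD : 0 < Real.cos D) :
    2 * supp A φ * Real.cos D ≤ supp A (φ + D) + supp A (φ - D) := by
  have h : supp A φ ≤ (supp A (φ + D) + supp A (φ - D)) / (2 * Real.cos D) := by
    apply supp_le A φ hne
    intro w hw
    rw [le_div_iff₀ (by positivity)]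
    have h1 := le_supp A (φ + D) hw
    have h2 := le_supp A (φ - D) hw
    rw [Real.cos_add, Real.sin_add] at h1
    rw [Real.cos_sub, Real.sin_sub] at h2
    linarith
  rw [le_div_iff₀ (by positivity)] at h
  linarith

/-- The circumscribed polygon of the numerical range. -/
noncomputable def mkP (A : H →L[ℂ] H) {x₀ : H} (hx₀ : ‖x₀‖ = 1) (m : ℕ) (hm : 8 ≤ m) (η : ℝ) (hη : 0 < η) : Pgn where
  m := m
  hm := hm
  b := fun j => supp A ((j : ℝ) * (2 * Real.pi / m)) + η
  per := by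
    intro j
    have hm0 : (m : ℝ) ≠ 0 := by
      have : (8 : ℝ) ≤ m := by exact_mod_cast hm
      linarith
    have e : ((j + (m : ℤ) : ℤ) : ℝ) * (2 * Real.pi / m) = (j : ℝ) * (2 * Real.pi / m) + 2 * Real.pi := by
      push_cast
      field_simp
    simp only [e, supp_add_two_pi]
  conv := by
    intro j
    have hm8 : (8 : ℝ) ≤ m := by exact_mod_cast hm
    have hpi := Real.pi_pos
    set D := 2 * Real.pi / (m : ℝ) with hD
    have hD0 : 0 < D := by positivity
    have hD1 : D ≤ Real.pi / 4 := by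
      rw [hD, div_le_div_iff₀ (by linarith) (by norm_num)]
      nlinarith
    have hcos : 0 < Real.cos D :=
      Real.cos_pos_of_mem_Ioo ⟨by linarith, by linarith⟩
    have hcos1 : Real.cos D < 1 := by
      have := Real.cos_lt_cos_of_nonneg_of_le_pi_div_two (x := 0) (y := D) le_rfl (by linarith) hD0
      rwa [Real.cos_zero] at this
    have hne : (Wset A).Nonempty := ⟨_, x₀, hx₀, rfl⟩
    have h := supp_conv A hne ((j : ℝ) * D) hcos
    have e1 : ((j + 1 : ℤ) : ℝ) * D = (j : ℝ) * D + D := by push_cast; ring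
    have e2 : ((j - 1 : ℤ) : ℝ) * D = (j : ℝ) * D - D := by push_cast; ring
    rw [e1, e2]
    nlinarith
  z₀ := ⟪x₀, A x₀⟫_ℂ
  hz₀ := by
    intro j
    have := le_supp A ((j : ℝ) * (2 * Real.pi / m)) (⟨x₀, hx₀, rfl⟩ : ⟪x₀, A x₀⟫_ℂ ∈ Wset A)
    linarith

section mk

variable (A : H →L[ℂ] H) {x₀ : H} (hx₀ : ‖x₀‖ = 1) (m : ℕ) (hm : 8 ≤ m) (η : ℝ) (hη : 0 < η)

theorem mkP_b (j : ℤ) : (mkP A hx₀ m hm η hη).b j = supp A ((mkP A hx₀ m hm η hη).θ j) + η := rfl

theorem mkP_h_wset {w : ℂ} (hw : w ∈ Wset A) (j : ℤ) : η ≤ (mkP A hx₀ m hm η hη).h j w := by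
  unfold Pgn.h
  rw [mkP_b]
  have := le_supp A ((mkP A hx₀ m hm η hη).θ j) hw
  linarith

theorem mkP_adm [CompleteSpace H] : Adm (mkP A hx₀ m hm η hη) A η :=
  ⟨hη, fun x hx j => mkP_h_wset A hx₀ m hm η hη ⟨x, hx, rfl⟩ j⟩

theorem supp_le_norm (φ : ℝ) (hne : (Wset A).Nonempty) : supp A φ ≤ ‖A‖ :=
  supp_le A φ hne (fun w hw => (le_abs_self _).trans ((re_rot w φ).trans (Wset_norm A hw)))

theorem mkP_norm {z : ℂ} (hz : z ∈ (mkP A hx₀ m hm η hη).Ob) (hη1 : η ≤ 1) : ‖z‖ ≤ 2 * ‖A‖ + 2 := by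
  set P := mkP A hx₀ m hm η hη with hP
  obtain ⟨j, hj⟩ := P.exists_nearest z
  have hne : (Wset A).Nonempty := ⟨_, x₀, hx₀, rfl⟩
  have h1 := hz j
  rw [P.h_eq_dot, hP, mkP_b, ← hP] at h1
  have h2 := supp_le_norm A (P.θ j) hne
  have hD := P.D_pos
  have hD1 := P.D_le
  have hpi := Real.pi_le_four
  have hcos := Real.one_sub_sq_div_two_le_cos (x := P.D)
  have hcos2 : 1 / 2 ≤ Real.cos P.D := by
    have : P.D ^ 2 ≤ 1 := by
      apply pow_le_one₀ hD.le
      linarith
    linarith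
  have hn := norm_nonneg z
  have h3 : ‖z‖ * (1 / 2) ≤ ‖z‖ * Real.cos P.D := mul_le_mul_of_nonneg_left hcos2 hn
  linarith

/-- Every point of the polygon is close to the closed numerical range. -/
theorem mkP_close (hη1 : η ≤ 1) {z : ℂ} (hz : z ∈ (mkP A hx₀ m hm η hη).Ob) :
    ∃ w ∈ closure (Wset A), ‖z - w‖ ≤ η + (mkP A hx₀ m hm η hη).D * (3 * ‖A‖ + 2) := by
  set P := mkP A hx₀ m hm η hη with hP
  have hne : (Wset A).Nonempty := ⟨_, x₀, hx₀, rfl⟩
  set K := closure (Wset A) with hK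
  have hKne : K.Nonempty := hne.closure
  have hKbd : ∀ w ∈ K, ‖w‖ ≤ ‖A‖ := by
    intro w hw
    have hc : IsClosed {w : ℂ | ‖w‖ ≤ ‖A‖} := isClosed_le continuous_norm continuous_const
    exact closure_minimal (fun w hw => Wset_norm A hw) hc hw
  have hKcomp : IsCompact K := by
    apply Metric.isCompact_of_isClosed_isBounded isClosed_closure
    rw [isBounded_iff_forall_norm_le]
    exact ⟨‖A‖, hKbd⟩
  have hKconv : Convex ℝ K := (toeplitz_hausdorff A).closure
  obtain ⟨p₀, hp₀, hmin⟩ := exists_norm_eq_iInf_of_complete_convex hKne hKcomp.isComplete hKconv z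
  have hvar := (norm_eq_iInf_iff_real_inner_le_zero hKconv hp₀).1 hmin
  refine ⟨p₀, hp₀, ?_⟩
  have hD := P.D_pos
  set d := ‖z - p₀‖ with hd
  have hRHS : 0 ≤ η + P.D * (3 * ‖A‖ + 2) := by positivity
  by_cases hd0 : d = 0
  · rw [hd0]; exact hRHS
  have hdpos : 0 < d := lt_of_le_of_ne (norm_nonneg _) (Ne.symm hd0)
  set e : ℂ := (z - p₀) / (d : ℂ) with he
  have hdc : (d : ℂ) ≠ 0 := by exact_mod_cast hd0
  have hen : ‖e‖ = 1 := by
    rw [he, norm_div, Complex.norm_real, Real.norm_eq_abs, abs_of_pos hdpos]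
    exact div_self hd0
  have hzp : z - p₀ = (d : ℂ) * e := by
    rw [he]
    field_simp
  -- the linear functional of `e`
  set de : ℂ → ℝ := fun v => e.re * v.re + e.im * v.im with hde
  have hmax : ∀ w ∈ K, de w ≤ de p₀ := by
    intro w hw
    have h1 := hvar w hw
    rw [Complex.inner, hzp] at h1
    simp only [mul_re, mul_im, conj_re, conj_im, ofReal_re, ofReal_im, sub_re, sub_im, zero_mul, sub_zero,
      zero_add, mul_neg] at h1
    have h2 : d * (de w - de p₀) ≤ 0 := by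
      simp only [hde]
      nlinarith
    have h3 : de w - de p₀ ≤ 0 := by
      by_contra hcon
      push_neg at hcon
      have := mul_pos hdpos hcon
      linarith
    linarith
  have hdz : de z - de p₀ = d := by
    have h1 : de z - de p₀ = d * (e.re ^ 2 + e.im ^ 2) := by
      simp only [hde]
      have e1 : z.re - p₀.re = d * e.re := by
        have := congrArg Complex.re hzp
        simpa using this
      have e2 : z.im - p₀.im = d * e.im := by
        have := congrArg Complex.im hzp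
        simpa using this
      have e3 : e.re * z.re + e.im * z.im - (e.re * p₀.re + e.im * p₀.im) =
          e.re * (z.re - p₀.re) + e.im * (z.im - p₀.im) := by ring
      rw [e3, e1, e2]
      ring
    have h2 : e.re ^ 2 + e.im ^ 2 = 1 := by
      have := Complex.sq_norm e
      rw [hen, Complex.normSq_apply] at this
      nlinarith
    rw [h1, h2, mul_one]
  -- the nearest normal
  obtain ⟨j, hj⟩ := P.exists_nearest e
  rw [hen, one_mul] at hj
  have hcl : ‖e - P.n j‖ ≤ P.D := by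
    have h1 : ‖e - P.n j‖ ^ 2 ≤ P.D ^ 2 := by
      have e1 : ‖e - P.n j‖ ^ 2 = 2 - 2 * P.dot j e := by
        have h2 : e.re ^ 2 + e.im ^ 2 = 1 := by
          have := Complex.sq_norm e
          rw [hen, Complex.normSq_apply] at this
          nlinarith
        rw [Complex.sq_norm, Complex.normSq_apply]
        simp only [sub_re, sub_im, Pgn.n_re, Pgn.n_im, Pgn.dot]
        have h3 := Real.sin_sq_add_cos_sq (P.θ j)
        nlinarith
      rw [e1]
      have := Real.one_sub_sq_div_two_le_cos (x := P.D)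
      linarith
    exact (pow_le_pow_iff_left₀ (norm_nonneg _) hD.le (by norm_num)).1 h1
  have hcomp : ∀ v : ℂ, |de v - P.dot j v| ≤ P.D * ‖v‖ := by
    intro v
    have h1 := re_bil (e - P.n j) v
    simp only [sub_re, sub_im, Pgn.n_re, Pgn.n_im] at h1
    have e1 : de v - P.dot j v = (e.re - Real.cos (P.θ j)) * v.re + (e.im - Real.sin (P.θ j)) * v.im := by
      simp only [hde, Pgn.dot]
      ring
    rw [e1]
    exact h1.trans (mul_le_mul_of_nonneg_right hcl (norm_nonneg _))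
  have hs : supp A (P.θ j) ≤ de p₀ + P.D * ‖A‖ := by
    apply supp_le A _ hne
    intro w hw
    have h1 := (abs_le.1 (hcomp w)).1
    have h2 := hmax w (subset_closure hw)
    have h3 : P.D * ‖w‖ ≤ P.D * ‖A‖ := mul_le_mul_of_nonneg_left (Wset_norm A hw) hD.le
    have e1 : w.re * Real.cos (P.θ j) + w.im * Real.sin (P.θ j) = P.dot j w := rfl
    rw [e1]
    linarith
  have hzO := hz j
  rw [P.h_eq_dot, hP, mkP_b, ← hP] at hzO
  have h4 := (abs_le.1 (hcomp z)).2
  have h5 := mkP_norm A hx₀ m hm η hη hz hη1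
  have h6 : P.D * ‖z‖ ≤ P.D * (2 * ‖A‖ + 2) := mul_le_mul_of_nonneg_left h5 hD.le
  have e5 : P.D * (3 * ‖A‖ + 2) = P.D * (2 * ‖A‖ + 2) + P.D * ‖A‖ := by ring
  rw [e5]
  linarith

end mk

/-- Sup norm of a polynomial on circumscribed polygons. -/
theorem poly_bound [CompleteSpace H] (A : H →L[ℂ] H) {x₀ : H} (hx₀ : ‖x₀‖ = 1) (p : Polynomial ℂ) {M : ℝ}
    (hp : ∀ x : H, ‖x‖ = 1 → ‖p.eval ⟪x, A x⟫_ℂ‖ ≤ M) {ε : ℝ} (hε : 0 < ε) :
    ∃ (P : Pgn) (c : ℝ), Adm P A c ∧ ∀ z ∈ P.Ob, ‖p.eval z‖ ≤ M + ε := by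
  set R := 2 * ‖A‖ + 2 with hR
  have hR0 : 0 ≤ R := by positivity
  have hcomp : IsCompact (Metric.closedBall (0 : ℂ) R) := isCompact_closedBall _ _
  have hcont : Continuous (fun z : ℂ => p.eval z) := p.continuous
  have huc := hcomp.uniformContinuousOn_of_continuous hcont.continuousOn
  rw [Metric.uniformContinuousOn_iff] at huc
  obtain ⟨δ, hδ, hu⟩ := huc ε hε
  set η := min 1 (δ / 4) with hη
  have hη0 : 0 < η := lt_min one_pos (by positivity)
  have hη1 : η ≤ 1 := min_le_left _ _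
  have hη2 : η ≤ δ / 4 := min_le_right _ _
  have hpi := Real.pi_pos
  obtain ⟨n, hn⟩ := exists_nat_gt (2 * Real.pi * (3 * ‖A‖ + 2) / (δ / 4))
  set m := max 8 n with hm
  have hm8 : 8 ≤ m := le_max_left _ _
  have hmn : (n : ℝ) ≤ m := by exact_mod_cast le_max_right 8 n
  have hmpos : (0 : ℝ) < m := by
    have : (8 : ℝ) ≤ m := by exact_mod_cast hm8
    linarith
  refine ⟨mkP A hx₀ m hm8 η hη0, η, mkP_adm A hx₀ m hm8 η hη0, ?_⟩
  intro z hz
  obtain ⟨w, hw, hzw⟩ := mkP_close A hx₀ m hm8 η hη0 hη1 hz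
  have hDdef : (mkP A hx₀ m hm8 η hη0).D = 2 * Real.pi / m := rfl
  have hDsmall : (mkP A hx₀ m hm8 η hη0).D * (3 * ‖A‖ + 2) < δ / 4 := by
    rw [hDdef, div_mul_eq_mul_div, div_lt_iff₀ hmpos]
    rw [div_lt_iff₀ (by positivity)] at hn
    have : (n : ℝ) * (δ / 4) ≤ (m : ℝ) * (δ / 4) := mul_le_mul_of_nonneg_right hmn (by positivity)
    linarith
  have hdist : dist z w < δ := by
    rw [dist_eq_norm]
    linarith
  have hzb : z ∈ Metric.closedBall (0 : ℂ) R := by
    rw [mem_closedBall_zero_iff]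
    exact mkP_norm A hx₀ m hm8 η hη0 hz hη1
  have hwn : ‖w‖ ≤ ‖A‖ := by
    have hc : IsClosed {w : ℂ | ‖w‖ ≤ ‖A‖} := isClosed_le continuous_norm continuous_const
    exact closure_minimal (fun w hw => Wset_norm A hw) hc hw
  have hwb : w ∈ Metric.closedBall (0 : ℂ) R := by
    rw [mem_closedBall_zero_iff]
    have := norm_nonneg A
    linarith
  have h1 := hu z hzb w hwb hdist
  rw [dist_eq_norm] at h1
  have hwM : ‖p.eval w‖ ≤ M := by
    have hc : IsClosed {w : ℂ | ‖p.eval w‖ ≤ M} := isClosed_le hcont.norm continuous_const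
    refine closure_minimal ?_ hc hw
    rintro w' ⟨x, hx, rfl⟩
    exact hp x hx
  have h2 : ‖p.eval z‖ ≤ ‖p.eval z - p.eval w‖ + ‖p.eval w‖ := by
    have : p.eval z = (p.eval z - p.eval w) + p.eval w := by ring
    conv_lhs => rw [this]
    exact norm_add_le _ _
  linarith

/-- The uniform strict improvement of the Crouzeix Palencia constant. -/
theorem strict_bound.{u} : ∃ C : ℝ, C < 1 + Real.sqrt 2 ∧ ∀ (H : Type u) [NormedAddCommGroup H]
    [InnerProductSpace ℂ H] [CompleteSpace H] (A : H →L[ℂ] H) (p : Polynomial ℂ) (M : ℝ), 0 ≤ M →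
    (∀ x : H, ‖x‖ = 1 → ‖p.eval ⟪x, A x⟫_ℂ‖ ≤ M) → ‖Polynomial.aeval A p‖ ≤ C * M := by
  obtain ⟨ε₀, hε₀, hmain⟩ := main_bound.{u}
  have hs := Real.sqrt_nonneg 2
  refine ⟨1 + Real.sqrt 2 - min ε₀ 1, by
    have : 0 < min ε₀ 1 := lt_min hε₀ one_pos
    linarith, ?_⟩
  intro H _ _ _ A p M hM hp
  set C := 1 + Real.sqrt 2 - min ε₀ 1 with hC
  have hC0 : 0 < C := by
    have : min ε₀ 1 ≤ 1 := min_le_right _ _
    have h2 : 0 < Real.sqrt 2 := Real.sqrt_pos.2 (by norm_num)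
    linarith
  by_cases hnt : Nontrivial H
  · obtain ⟨v, hv⟩ := exists_ne (0 : H)
    have hvn : ‖v‖ ≠ 0 := norm_ne_zero_iff.2 hv
    have hvc : ((‖v‖ : ℝ) : ℂ) ≠ 0 := by exact_mod_cast hvn
    have hx₀ : ‖((‖v‖ : ℝ) : ℂ)⁻¹ • v‖ = 1 := by
      rw [norm_smul, norm_inv, Complex.norm_real, norm_norm]
      field_simp
    apply le_of_forall_pos_le_add
    intro ε hε
    have hε' : 0 < ε / C := by positivity
    obtain ⟨P, c, hA, hb⟩ := poly_bound A hx₀ p hp hε'
    have hcalc : IsCalc P A (fun z => p.eval z) (Polynomial.aeval A p) := IsCalc.poly p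
    have hpos : 0 < M + ε / C := by positivity
    have h1 := hA.le_KK' hcalc hpos hb
    have h2 := hmain H P A c hA
    have h3 : KK P A ≤ C := by
      have : min ε₀ 1 ≤ ε₀ := min_le_left _ _
      linarith
    have h4 : KK P A * (M + ε / C) ≤ C * (M + ε / C) := mul_le_mul_of_nonneg_right h3 hpos.le
    have e : C * (M + ε / C) = C * M + ε := by
      field_simp
    linarith
  · rw [not_nontrivial_iff_subsingleton] at hnt
    have h0 : Polynomial.aeval A p = 0 := Subsingleton.elim _ _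
    rw [h0, norm_zero]
    positivity

end Vale.Agent.Lib.P123
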