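import Vale.Agent.Lib.P123.Basic

open Polynomial ComplexConjugate

namespace Vale.Agent.Lib.P123

variable {H : Type*} [NormedAddCommGroup H] [InnerProductSpace ℂ H]

/-- From unit vectors to arbitrary vectors. -/
theorem halfplane_scale (A : H →L[ℂ] H) (c σ : ℂ)
    (h : ∀ x : H, ‖x‖ = 1 → 0 ≤ (c * (σ - inner ℂ x (A x))).re) (u : H) :
    0 ≤ (c * (σ * (‖u‖ : ℂ) ^ 2 - inner ℂ u (A u))).re := by
  by_cases hu : u = 0
  · subst hu
    simp
  have hn : 0 < ‖u‖ := norm_pos_iff.2 hu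
  have hne : ((‖u‖ : ℝ) : ℂ) ≠ 0 := by exact_mod_cast hn.ne'
  set x : H := ((‖u‖ : ℝ) : ℂ)⁻¹ • u with hx
  have hx1 : ‖x‖ = 1 := by
    rw [hx, norm_smul, norm_inv, Complex.norm_real, norm_norm]
    exact inv_mul_cancel₀ hn.ne'
  have hux : u = ((‖u‖ : ℝ) : ℂ) • x := by
    rw [hx, smul_smul, mul_inv_cancel₀ hne, one_smul]
  have h1 := h x hx1
  have h2 : inner ℂ u (A u) = ((‖u‖ : ℝ) : ℂ) ^ 2 * inner ℂ x (A x) := by
    conv_lhs => rw [hux]
    rw [map_smul, inner_smul_left, inner_smul_right, Complex.conj_ofReal]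
    ring
  have h3 : c * (σ * (‖u‖ : ℂ) ^ 2 - inner ℂ u (A u))
      = ((‖u‖ ^ 2 : ℝ) : ℂ) * (c * (σ - inner ℂ x (A x))) := by
    rw [h2]; push_cast; ring
  rw [h3, Complex.re_ofReal_mul]
  exact mul_nonneg (by positivity) h1

theorem inner_bound_of_unit (T : H →L[ℂ] H) (M : ℝ)
    (h : ∀ x : H, ‖x‖ = 1 → ‖inner ℂ x (T x)‖ ≤ M) (x : H) :
    ‖inner ℂ x (T x)‖ ≤ M * ‖x‖ ^ 2 := by
  by_cases hu : x = 0
  · subst hu
    simp
  have hn : 0 < ‖x‖ := norm_pos_iff.2 hu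
  have hne : ((‖x‖ : ℝ) : ℂ) ≠ 0 := by exact_mod_cast hn.ne'
  set y : H := ((‖x‖ : ℝ) : ℂ)⁻¹ • x with hy
  have hy1 : ‖y‖ = 1 := by
    rw [hy, norm_smul, norm_inv, Complex.norm_real, norm_norm]
    exact inv_mul_cancel₀ hn.ne'
  have hxy : x = ((‖x‖ : ℝ) : ℂ) • y := by
    rw [hy, smul_smul, mul_inv_cancel₀ hne, one_smul]
  have h2 : inner ℂ x (T x) = ((‖x‖ : ℝ) : ℂ) ^ 2 * inner ℂ y (T y) := by
    conv_lhs => rw [hxy]
    rw [map_smul, inner_smul_left, inner_smul_right, Complex.conj_ofReal]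
    ring
  rw [h2, norm_mul, norm_pow, Complex.norm_real, norm_norm, mul_comm]
  exact mul_le_mul_of_nonneg_right (h y hy1) (by positivity)

/-- The primitive cube root of unity. -/
theorem exists_omega : ∃ ω : ℂ, ‖ω‖ = 1 ∧ 1 + ω + ω ^ 2 = 0 ∧ ω.re = -1 / 2 ∧ (ω ^ 2).re = -1 / 2 := by
  refine ⟨⟨-1 / 2, √3 / 2⟩, ?_, ?_, rfl, ?_⟩
  · have h3 : (√3) ^ 2 = 3 := Real.sq_sqrt (by norm_num)
    have h4 : ‖(⟨-1 / 2, √3 / 2⟩ : ℂ)‖ ^ 2 = 1 := by
      rw [← Complex.normSq_eq_norm_sq, Complex.normSq_apply]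
      simp only
      nlinarith
    have h5 : 0 ≤ ‖(⟨-1 / 2, √3 / 2⟩ : ℂ)‖ := norm_nonneg _
    nlinarith
  · have h3 : (√3) ^ 2 = 3 := Real.sq_sqrt (by norm_num)
    apply Complex.ext
    · simp only [pow_two, Complex.add_re, Complex.one_re, Complex.mul_re, Complex.zero_re]
      nlinarith
    · simp only [pow_two, Complex.add_im, Complex.one_im, Complex.mul_im, Complex.zero_im]
      ring
  · have h3 : (√3) ^ 2 = 3 := Real.sq_sqrt (by norm_num)
    simp only [pow_two, Complex.mul_re]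
    nlinarith

/-- Numerical radius version: convex lemniscates. -/
theorem convex_lemniscate (A : H →L[ℂ] H) (p : ℂ[X]) (M : ℝ) (hp : 0 < p.natDegree) (hM : 0 < M)
    (hconv : Convex ℝ {z : ℂ | ‖p.eval z‖ ≤ M})
    (hW : ∀ x : H, ‖x‖ = 1 → ‖p.eval (inner ℂ x (A x))‖ ≤ M) (x : H) :
    ‖inner ℂ x ((aeval A p) x)‖ ≤ M * ‖x‖ ^ 2 := by
  classical
  have hd0 : p.derivative ≠ 0 := by
    intro h
    have := natDegree_eq_zero_of_derivative_eq_zero h
    omega
  set V : Finset ℂ := p.derivative.roots.toFinset.image p.eval with hV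
  refine norm_le_of_directions V _ M _ hM (by positivity) fun ζ hζ hζV => ?_
  have hsimple : ∀ σ, p.eval σ = ζ → p.derivative.eval σ ≠ 0 := by
    intro σ hσ h0
    apply hζV
    rw [hV, Finset.mem_image]
    exact ⟨σ, by rw [Multiset.mem_toFinset, mem_roots hd0]; exact h0, hσ⟩
  have hhalf : ∀ σ, p.eval σ = ζ → ∀ u : H,
      0 ≤ (conj ζ * p.derivative.eval σ * (σ * (‖u‖ : ℂ) ^ 2 - inner ℂ u (A u))).re := by
    intro σ hσ u
    refine halfplane_scale A _ σ (fun y hy => ?_) u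
    have h1 := convex_halfplane p M hconv σ (inner ℂ y (A y)) (by rw [hσ, hζ]) (hW y hy)
    rwa [hσ] at h1
  have h2 := re_inner_le_of_halfplanes A p hp ζ hsimple hhalf x
  rwa [hζ] at h2

/-- Tangential criterion in three directions, for every degree. -/
theorem three_direction_general (A : H →L[ℂ] H) (p : ℂ[X]) (M : ℝ) (hp : 0 < p.natDegree)
    (hM : 0 < M) (c₀ c₁ c₂ : ℂ) (h0 : ‖c₀‖ = 1) (h1 : ‖c₁‖ = 1) (h2 : ‖c₂‖ = 1)
    (hsum : c₀ + c₁ + c₂ = 0) (hsum2 : c₀ ^ 2 + c₁ ^ 2 + c₂ ^ 2 = 0)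
    (hsimple : ∀ k : Fin 3, ∀ σ, p.eval σ = (M : ℂ) * ![c₀, c₁, c₂] k → p.derivative.eval σ ≠ 0)
    (hhalf : ∀ k : Fin 3, ∀ σ, p.eval σ = (M : ℂ) * ![c₀, c₁, c₂] k → ∀ x : H, ‖x‖ = 1 →
      0 ≤ (conj (![c₀, c₁, c₂] k) * p.derivative.eval σ * (σ - inner ℂ x (A x))).re) :
    ‖aeval A p‖ ≤ 2 * M := by
  refine opNorm_le_of_three_directions _ M hM.le c₀ c₁ c₂ h0 h1 h2 hsum hsum2 fun k x => ?_
  have hk : ‖![c₀, c₁, c₂] k‖ = 1 := by
    fin_cases k
    · exact h0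
    · exact h1
    · exact h2
  set c := ![c₀, c₁, c₂] k with hc
  have hhalf' : ∀ σ, p.eval σ = (M : ℂ) * c → ∀ u : H,
      0 ≤ (conj ((M : ℂ) * c) * p.derivative.eval σ * (σ * (‖u‖ : ℂ) ^ 2 - inner ℂ u (A u))).re := by
    intro σ hσ u
    have h3 := halfplane_scale A _ σ (hhalf k σ hσ) u
    have h4 : conj ((M : ℂ) * c) * p.derivative.eval σ * (σ * (‖u‖ : ℂ) ^ 2 - inner ℂ u (A u))
        = (M : ℂ) * (conj c * p.derivative.eval σ * (σ * (‖u‖ : ℂ) ^ 2 - inner ℂ u (A u))) := by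
      rw [map_mul, Complex.conj_ofReal]; ring
    rw [h4, Complex.re_ofReal_mul]
    exact mul_nonneg hM.le h3
  have h5 := re_inner_le_of_halfplanes A p hp ((M : ℂ) * c) (hsimple k) hhalf' x
  have h6 : conj ((M : ℂ) * c) * inner ℂ x ((aeval A p) x)
      = (M : ℂ) * (conj c * inner ℂ x ((aeval A p) x)) := by
    rw [map_mul, Complex.conj_ofReal]; ring
  rw [h6, Complex.re_ofReal_mul, norm_mul, Complex.norm_real, Real.norm_eq_abs, abs_of_pos hM, hk,
    mul_one] at h5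
  have h7 : M * (conj c * inner ℂ x ((aeval A p) x)).re ≤ M * (M * ‖x‖ ^ 2) := by
    calc _ ≤ M ^ 2 * ‖x‖ ^ 2 := h5
      _ = _ := by ring
  exact le_of_mul_le_mul_left h7 hM

theorem quad_form (P : ℂ[X]) (hP : P.natDegree = 2) (z₀ : ℂ) (hc : P.derivative.eval z₀ = 0) :
    ∃ a : ℂ, a ≠ 0 ∧ (∀ z, P.eval z = a * (z - z₀) ^ 2 + P.eval z₀) ∧
      ∀ z, P.derivative.eval z = 2 * a * (z - z₀) := by
  have hdeg : P.degree ≤ 2 := by
    rw [degree_eq_natDegree (by rintro rfl; simp at hP), hP]; rfl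
  have hq := eq_quadratic_of_degree_le_two hdeg
  set a := P.coeff 2 with ha
  set b := P.coeff 1
  set c := P.coeff 0
  have ha0 : a ≠ 0 := by
    rw [ha, ← hP]
    exact leadingCoeff_ne_zero.2 (by rintro rfl; simp at hP)
  have hev : ∀ z, P.eval z = a * z ^ 2 + b * z + c := by
    intro z
    conv_lhs => rw [hq]
    simp
  have hder : ∀ z, P.derivative.eval z = 2 * a * z + b := by
    intro z
    conv_lhs => rw [hq]
    simp [derivative_add, derivative_mul, derivative_X_pow]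
    ring
  have hb : b = -(2 * a * z₀) := by
    have := hder z₀
    rw [hc] at this
    linear_combination -this
  refine ⟨a, ha0, fun z => ?_, fun z => ?_⟩
  · rw [hev z, hev z₀, hb]; ring
  · rw [hder z, hb]; ring

/-- The half-plane bound for `P(A)`, `P` quadratic, in the directions allowed by the critical
value. -/
theorem quad_direction (A : H →L[ℂ] H) (P : ℂ[X]) (z₀ : ℂ) (M : ℝ) (hP : P.natDegree = 2)
    (hc : P.derivative.eval z₀ = 0) (hM : 0 < M)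
    (hW : ∀ x : H, ‖x‖ = 1 → ‖P.eval (inner ℂ x (A x))‖ ≤ M) (ζ : ℂ) (hζ : ‖ζ‖ = M)
    (hcond : 2 * (conj ζ * P.eval z₀).re ≤ M ^ 2) (x : H) :
    (conj ζ * inner ℂ x ((aeval A P) x)).re ≤ M ^ 2 * ‖x‖ ^ 2 := by
  obtain ⟨a, ha, hev, hder⟩ := quad_form P hP z₀ hc
  set v := P.eval z₀ with hv
  have hsimple : ∀ σ, P.eval σ = ζ → P.derivative.eval σ ≠ 0 := by
    intro σ hσ h0
    rw [hder σ] at h0
    have h1 : σ - z₀ = 0 := by
      rcases mul_eq_zero.1 h0 with h2 | h2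
      · exfalso
        rcases mul_eq_zero.1 h2 with h3 | h3
        · norm_num at h3
        · exact ha h3
      · exact h2
    have h2 : ζ = v := by
      rw [← hσ, hev σ, h1]; ring
    have h3 : conj ζ * v = ((M ^ 2 : ℝ) : ℂ) := by
      rw [← h2, Complex.conj_mul', hζ]; push_cast; ring
    rw [h3, Complex.ofReal_re] at hcond
    have : 0 < M ^ 2 := by positivity
    linarith
  have hna : 0 < ‖a‖ := norm_pos_iff.2 ha
  have hhalf : ∀ σ, P.eval σ = ζ → ∀ u : H,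
      0 ≤ (conj ζ * P.derivative.eval σ * (σ * (‖u‖ : ℂ) ^ 2 - inner ℂ u (A u))).re := by
    intro σ hσ u
    refine halfplane_scale A _ σ (fun y hy => ?_) u
    set z := inner ℂ y (A y) with hz
    have hσ' : (σ - z₀) ^ 2 = ζ / a + -v / a := by
      rw [← hσ, hev σ]; field_simp; ring
    have hz' : ‖(z - z₀) ^ 2 - -v / a‖ ≤ M / ‖a‖ := by
      have h1 : (z - z₀) ^ 2 - -v / a = P.eval z / a := by
        rw [hev z]; field_simp; ring
      rw [h1, norm_div]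
      exact div_le_div_of_nonneg_right (hW y hy) hna.le
    have hcond' : 0 ≤ (M / ‖a‖) ^ 2 + 2 * (conj (ζ / a) * (-v / a)).re := by
      have h1 : conj (ζ / a) * (-v / a) = ((-(1 / ‖a‖ ^ 2) : ℝ) : ℂ) * (conj ζ * v) := by
        have h2 : conj a * a = ((‖a‖ ^ 2 : ℝ) : ℂ) := by
          rw [Complex.conj_mul']; push_cast; ring
        have h3 : conj a ≠ 0 := by simpa using ha
        have h4 : ((‖a‖ : ℝ) : ℂ) ≠ 0 := by exact_mod_cast hna.ne'
        rw [map_div₀]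
        push_cast at h2 ⊢
        field_simp
        linear_combination (conj ζ * v) * h2
      rw [h1, Complex.re_ofReal_mul]
      have h2 : (M / ‖a‖) ^ 2 = M ^ 2 * (1 / ‖a‖ ^ 2) := by field_simp
      have h3 : 0 < 1 / ‖a‖ ^ 2 := by positivity
      rw [h2]
      nlinarith
    have hkey := cassini_halfplane (-v / a) (ζ / a) (σ - z₀) (z - z₀) (M / ‖a‖) (by positivity)
      (by rw [norm_div, hζ]) hσ' hz' hcond'
    have h1 : conj ζ * P.derivative.eval σ * (σ - z)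
        = ((2 * ‖a‖ ^ 2 : ℝ) : ℂ) * (conj (ζ / a) * (σ - z₀) * (σ - z₀ - (z - z₀))) := by
      have h2 : conj a * a = ((‖a‖ ^ 2 : ℝ) : ℂ) := by
        rw [Complex.conj_mul']; push_cast; ring
      have h3 : conj a ≠ 0 := by simpa using ha
      rw [hder σ, map_div₀]
      push_cast at h2 ⊢
      rw [← h2]
      field_simp
      ring
    rw [h1, Complex.re_ofReal_mul]
    exact mul_nonneg (by positivity) hkey
  have hp : 0 < P.natDegree := by omega
  have h2 := re_inner_le_of_halfplanes A P hp ζ hsimple hhalf x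
  rwa [hζ] at h2

/-- Crouzeix's inequality for every quadratic whose critical value is at most `M` in modulus. -/
theorem quad_norm (A : H →L[ℂ] H) (P : ℂ[X]) (z₀ : ℂ) (M : ℝ) (hP : P.natDegree = 2)
    (hc : P.derivative.eval z₀ = 0) (hM : 0 < M)
    (hW : ∀ x : H, ‖x‖ = 1 → ‖P.eval (inner ℂ x (A x))‖ ≤ M)
    (hv : ‖P.eval z₀‖ ≤ M) : ‖aeval A P‖ ≤ 2 * M := by
  obtain ⟨ω, hω, hω1, hωre, hω2re⟩ := exists_omega
  set v := P.eval z₀ with hvdef
  -- a unit vector opposite to the critical value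
  obtain ⟨c, hc1, hcv⟩ : ∃ c : ℂ, ‖c‖ = 1 ∧ conj c * v = -(‖v‖ : ℂ) := by
    by_cases hv0 : v = 0
    · exact ⟨1, by simp, by simp [hv0]⟩
    · have hn : 0 < ‖v‖ := norm_pos_iff.2 hv0
      have hne : ((‖v‖ : ℝ) : ℂ) ≠ 0 := by exact_mod_cast hn.ne'
      refine ⟨-v / ‖v‖, ?_, ?_⟩
      · rw [norm_div, norm_neg, Complex.norm_real, norm_norm, div_self hn.ne']
      · rw [map_div₀, map_neg, Complex.conj_ofReal]
        have h2 : conj v * v = ((‖v‖ : ℝ) : ℂ) ^ 2 := by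
          rw [Complex.conj_mul']
        field_simp
        rw [h2]
  have hdir : ∀ d : ℂ, ‖d‖ = 1 → -1 / 2 ≤ d.re → ∀ x : H,
      (conj (c * d) * inner ℂ x ((aeval A P) x)).re ≤ M * ‖x‖ ^ 2 := by
    intro d hd hdre x
    have hn : ‖(M : ℂ) * (c * d)‖ = M := by
      rw [norm_mul, norm_mul, hc1, hd, Complex.norm_real, Real.norm_eq_abs, abs_of_pos hM]
      ring
    have hcond : 2 * (conj ((M : ℂ) * (c * d)) * v).re ≤ M ^ 2 := by
      have h1 : conj ((M : ℂ) * (c * d)) * v = ((-(M * ‖v‖) : ℝ) : ℂ) * conj d := by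
        rw [map_mul, map_mul, Complex.conj_ofReal]
        push_cast
        linear_combination ((M : ℂ) * conj d) * hcv
      rw [h1, Complex.re_ofReal_mul, Complex.conj_re]
      have h2 : 0 ≤ M * ‖v‖ := by positivity
      nlinarith [mul_le_mul_of_nonneg_left hv hM.le]
    have h3 := quad_direction A P z₀ M hP hc hM hW _ hn hcond x
    have h4 : conj ((M : ℂ) * (c * d)) * inner ℂ x ((aeval A P) x)
        = (M : ℂ) * (conj (c * d) * inner ℂ x ((aeval A P) x)) := by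
      rw [map_mul ((starRingEnd ℂ)) (M : ℂ), Complex.conj_ofReal]; ring
    rw [h4, Complex.re_ofReal_mul] at h3
    have h7 : M * (conj (c * d) * inner ℂ x ((aeval A P) x)).re ≤ M * (M * ‖x‖ ^ 2) := by
      calc _ ≤ M ^ 2 * ‖x‖ ^ 2 := h3
        _ = _ := by ring
    exact le_of_mul_le_mul_left h7 hM
  refine opNorm_le_of_three_directions _ M hM.le (c * 1) (c * ω) (c * ω ^ 2) ?_ ?_ ?_ ?_ ?_ ?_
  · rw [norm_mul, hc1]; simp
  · rw [norm_mul, hc1, hω]; simp
  · rw [norm_mul, hc1, norm_pow, hω]; simp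
  · linear_combination c * hω1
  · linear_combination c ^ 2 * (ω ^ 2 - ω + 1) * hω1
  · intro k x
    fin_cases k
    · exact hdir 1 (by simp) (by simp; norm_num) x
    · exact hdir ω hω (by rw [hωre]) x
    · exact hdir (ω ^ 2) (by rw [norm_pow, hω]; simp) (by rw [hω2re]) x

/-- If the critical value is at most `M / 2`, the numerical radius of `P(A)` is at most `M`. -/
theorem quad_radius (A : H →L[ℂ] H) (P : ℂ[X]) (z₀ : ℂ) (M : ℝ) (hP : P.natDegree = 2)
    (hc : P.derivative.eval z₀ = 0) (hM : 0 < M)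
    (hW : ∀ x : H, ‖x‖ = 1 → ‖P.eval (inner ℂ x (A x))‖ ≤ M)
    (hv : 2 * ‖P.eval z₀‖ ≤ M) (x : H) : ‖inner ℂ x ((aeval A P) x)‖ ≤ M * ‖x‖ ^ 2 := by
  refine norm_le_of_directions ∅ _ M _ hM (by positivity) fun ζ hζ _ => ?_
  refine quad_direction A P z₀ M hP hc hM hW ζ hζ ?_ x
  have h1 : (conj ζ * P.eval z₀).re ≤ ‖conj ζ * P.eval z₀‖ := Complex.re_le_norm _
  rw [norm_mul, RCLike.norm_conj, hζ] at h1
  nlinarith [mul_le_mul_of_nonneg_left hv hM.le]

end Vale.Agent.Lib.P123
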