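import Mathlib

open Complex ComplexConjugate

namespace Vale.Agent.Lib.P123

/-- Convex polygon with `m` sides whose outward normals are at the angles `j * (2 π / m)`. -/
structure Pgn where
  m : ℕ
  hm : 8 ≤ m
  b : ℤ → ℝ
  per : ∀ j : ℤ, b (j + m) = b j
  conv : ∀ j : ℤ, 2 * b j * Real.cos (2 * Real.pi / m) < b (j + 1) + b (j - 1)
  z₀ : ℂ
  hz₀ : ∀ j : ℤ, z₀.re * Real.cos ((j : ℝ) * (2 * Real.pi / m)) +
      z₀.im * Real.sin ((j : ℝ) * (2 * Real.pi / m)) < b j

namespace Pgn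

variable (P : Pgn)

/-- angle step -/
noncomputable def D : ℝ := 2 * Real.pi / P.m

/-- normal angle -/
noncomputable def θ (j : ℤ) : ℝ := (j : ℝ) * P.D

/-- outward unit normal -/
noncomputable def n (j : ℤ) : ℂ := Complex.exp ((P.θ j : ℂ) * I)

/-- unit tangent -/
noncomputable def t (j : ℤ) : ℂ := I * P.n j

/-- height above the line of side `j`. -/
noncomputable def h (j : ℤ) (z : ℂ) : ℝ :=
  P.b j - (z.re * Real.cos (P.θ j) + z.im * Real.sin (P.θ j))

/-- side length -/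
noncomputable def ℓ (j : ℤ) : ℝ :=
  (P.b (j + 1) + P.b (j - 1) - 2 * P.b j * Real.cos P.D) / Real.sin P.D

/-- tangential coordinate of the vertex -/
noncomputable def y (j : ℤ) : ℝ := (P.b j * Real.cos P.D - P.b (j - 1)) / Real.sin P.D

/-- vertex between sides `j - 1` and `j` -/
noncomputable def v (j : ℤ) : ℂ := ((P.b j : ℂ) + (P.y j : ℂ) * I) * P.n j

/-- parametrization of side `j` -/
noncomputable def σ (j : ℤ) (s : ℝ) : ℂ := P.v j + (s : ℂ) * P.t j

/-- open polygon -/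
def Om : Set ℂ := {z | ∀ j : ℤ, 0 < P.h j z}

/-- closed polygon -/
def Ob : Set ℂ := {z | ∀ j : ℤ, 0 ≤ P.h j z}

theorem m_pos : 0 < (P.m : ℝ) := by
  have := P.hm
  have h8 : (8 : ℝ) ≤ P.m := by exact_mod_cast this
  linarith

theorem m_ge : (8 : ℝ) ≤ P.m := by exact_mod_cast P.hm

theorem D_pos : 0 < P.D := div_pos (by positivity) P.m_pos

theorem D_le : P.D ≤ Real.pi / 4 := by
  unfold D
  rw [div_le_div_iff₀ P.m_pos (by norm_num)]
  have := P.m_ge
  nlinarith [Real.pi_pos]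

theorem D_mul_m : P.D * P.m = 2 * Real.pi := by
  unfold D
  field_simp [P.m_pos.ne']

theorem sinD_pos : 0 < Real.sin P.D :=
  Real.sin_pos_of_pos_of_lt_pi P.D_pos (by linarith [P.D_le, Real.pi_pos])

theorem cosD_pos : 0 < Real.cos P.D :=
  Real.cos_pos_of_mem_Ioo ⟨by linarith [P.D_pos, Real.pi_pos], by linarith [P.D_le, Real.pi_pos]⟩

theorem θ_add (j k : ℤ) : P.θ (j + k) = P.θ j + P.θ k := by
  unfold θ; push_cast; ring

theorem θ_add_m (j : ℤ) : P.θ (j + P.m) = P.θ j + 2 * Real.pi := by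
  unfold θ; push_cast
  rw [add_mul, mul_comm (P.m : ℝ) P.D, P.D_mul_m]

theorem θ_succ (j : ℤ) : P.θ (j + 1) = P.θ j + P.D := by
  unfold θ; push_cast; ring

theorem θ_pred (j : ℤ) : P.θ (j - 1) = P.θ j - P.D := by
  unfold θ; push_cast; ring

theorem cos_θ_add_m (j : ℤ) : Real.cos (P.θ (j + P.m)) = Real.cos (P.θ j) := by
  rw [θ_add_m, Real.cos_add_two_pi]

theorem sin_θ_add_m (j : ℤ) : Real.sin (P.θ (j + P.m)) = Real.sin (P.θ j) := by
  rw [θ_add_m, Real.sin_add_two_pi]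

@[simp] theorem n_re (j : ℤ) : (P.n j).re = Real.cos (P.θ j) := by
  unfold n; exact Complex.exp_ofReal_mul_I_re _

@[simp] theorem n_im (j : ℤ) : (P.n j).im = Real.sin (P.θ j) := by
  unfold n; exact Complex.exp_ofReal_mul_I_im _

@[simp] theorem t_re (j : ℤ) : (P.t j).re = - Real.sin (P.θ j) := by
  simp [t]

@[simp] theorem t_im (j : ℤ) : (P.t j).im = Real.cos (P.θ j) := by
  simp [t]

theorem n_norm (j : ℤ) : ‖P.n j‖ = 1 := by
  unfold n; exact Complex.norm_exp_ofReal_mul_I _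

theorem t_norm (j : ℤ) : ‖P.t j‖ = 1 := by
  simp [t, n_norm]

theorem n_add_m (j : ℤ) : P.n (j + P.m) = P.n j := by
  apply Complex.ext <;> simp [cos_θ_add_m, sin_θ_add_m]

theorem t_add_m (j : ℤ) : P.t (j + P.m) = P.t j := by
  simp [t, n_add_m]

theorem h_add_m (j : ℤ) (z : ℂ) : P.h (j + P.m) z = P.h j z := by
  simp [h, P.per, cos_θ_add_m, sin_θ_add_m]

theorem ℓ_add_m (j : ℤ) : P.ℓ (j + P.m) = P.ℓ j := by
  have h1 : j + (P.m : ℤ) + 1 = (j + 1) + P.m := by ring
  have h2 : j + (P.m : ℤ) - 1 = (j - 1) + P.m := by ring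
  simp only [ℓ, h1, h2, P.per]

theorem y_add_m (j : ℤ) : P.y (j + P.m) = P.y j := by
  have h2 : j + (P.m : ℤ) - 1 = (j - 1) + P.m := by ring
  simp only [y, h2, P.per]

theorem v_add_m (j : ℤ) : P.v (j + P.m) = P.v j := by
  simp only [v, n_add_m, y_add_m, P.per]

theorem σ_add_m (j : ℤ) (s : ℝ) : P.σ (j + P.m) s = P.σ j s := by
  simp only [σ, t_add_m, v_add_m]

theorem ℓ_pos (j : ℤ) : 0 < P.ℓ j := by
  unfold ℓ
  apply div_pos _ P.sinD_pos
  have := P.conv j
  have hD : (2 * Real.pi / (P.m : ℝ)) = P.D := rfl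
  rw [hD] at this
  linarith

theorem ℓ_mul_sin (j : ℤ) :
    P.ℓ j * Real.sin P.D = P.b (j + 1) + P.b (j - 1) - 2 * P.b j * Real.cos P.D := by
  unfold ℓ
  field_simp [P.sinD_pos.ne']

theorem y_mul_sin (j : ℤ) : P.y j * Real.sin P.D = P.b j * Real.cos P.D - P.b (j - 1) := by
  unfold y
  field_simp [P.sinD_pos.ne']

theorem h_sub (j : ℤ) (z w : ℂ) :
    P.h j z - P.h j w = (w - z).re * Real.cos (P.θ j) + (w - z).im * Real.sin (P.θ j) := by
  simp only [h, sub_re, sub_im]; ring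

/-- inner product of a tangent with a normal -/
theorem t_inner (k l : ℤ) :
    (P.t l).re * Real.cos (P.θ k) + (P.t l).im * Real.sin (P.θ k) =
      Real.sin (((k : ℝ) - l) * P.D) := by
  have : ((k : ℝ) - l) * P.D = P.θ k - P.θ l := by unfold θ; ring
  rw [this, Real.sin_sub]
  simp only [t_re, t_im]; ring

/-- inner product of two normals -/
theorem n_inner (k l : ℤ) :
    (P.n l).re * Real.cos (P.θ k) + (P.n l).im * Real.sin (P.θ k) =
      Real.cos (((k : ℝ) - l) * P.D) := by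
  have : ((k : ℝ) - l) * P.D = P.θ k - P.θ l := by unfold θ; ring
  rw [this, Real.cos_sub]
  simp only [n_re, n_im]; ring

theorem v_re (j : ℤ) : (P.v j).re = P.b j * Real.cos (P.θ j) - P.y j * Real.sin (P.θ j) := by
  simp [v]

theorem v_im (j : ℤ) : (P.v j).im = P.b j * Real.sin (P.θ j) + P.y j * Real.cos (P.θ j) := by
  simp [v]

@[simp] theorem σ_re (j : ℤ) (s : ℝ) :
    (P.σ j s).re = (P.v j).re - s * Real.sin (P.θ j) := by
  simp [σ]; ring

@[simp] theorem σ_im (j : ℤ) (s : ℝ) :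
    (P.σ j s).im = (P.v j).im + s * Real.cos (P.θ j) := by
  simp [σ]

theorem h_v_self (j : ℤ) : P.h j (P.v j) = 0 := by
  simp only [h, v_re, v_im]
  have := Real.sin_sq_add_cos_sq (P.θ j)
  linear_combination (-P.b j) * this

theorem h_σ_self (j : ℤ) (s : ℝ) : P.h j (P.σ j s) = 0 := by
  simp only [h, σ_re, σ_im, v_re, v_im]
  have := Real.sin_sq_add_cos_sq (P.θ j)
  linear_combination (-P.b j) * this

theorem h_pred_σ (j : ℤ) (s : ℝ) : P.h (j - 1) (P.σ j s) = s * Real.sin P.D := by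
  simp only [h, σ_re, σ_im, v_re, v_im, θ_pred, Real.cos_sub, Real.sin_sub]
  have h1 := Real.sin_sq_add_cos_sq (P.θ j)
  have h2 := P.y_mul_sin j
  linear_combination (-P.b j * Real.cos P.D + (P.y j + s) * Real.sin P.D) * h1 + h2

theorem h_succ_σ (j : ℤ) (s : ℝ) : P.h (j + 1) (P.σ j s) = (P.ℓ j - s) * Real.sin P.D := by
  simp only [h, σ_re, σ_im, v_re, v_im, θ_succ, Real.cos_add, Real.sin_add]
  have h1 := Real.sin_sq_add_cos_sq (P.θ j)
  have h2 := P.y_mul_sin j
  have h3 := P.ℓ_mul_sin j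
  linear_combination (-(P.b j * Real.cos P.D + (P.y j + s) * Real.sin P.D)) * h1 - h2 - h3

theorem σ_zero (j : ℤ) : P.σ j 0 = P.v j := by simp [σ]

/-- two points with the same heights over two consecutive sides coincide -/
theorem eq_of_h_eq (j : ℤ) {z w : ℂ} (h0 : P.h j z = P.h j w) (h1 : P.h (j + 1) z = P.h (j + 1) w) :
    z = w := by
  have e0 := P.h_sub j z w
  have e1 := P.h_sub (j + 1) z w
  rw [h0, sub_self] at e0
  rw [h1, sub_self, θ_succ, Real.cos_add, Real.sin_add] at e1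
  set a := (w - z).re
  set c := (w - z).im
  have hS := P.sinD_pos.ne'
  have hE := Real.sin_sq_add_cos_sq (P.θ j)
  have e2 : (-a * Real.sin (P.θ j) + c * Real.cos (P.θ j)) * Real.sin P.D = 0 := by
    linear_combination (Real.cos P.D) * e0 - e1
  have e3 : -a * Real.sin (P.θ j) + c * Real.cos (P.θ j) = 0 := by
    rcases mul_eq_zero.1 e2 with h | h
    · exact h
    · exact absurd h hS
  have ha : a = 0 := by linear_combination (-Real.cos (P.θ j)) * e0 - Real.sin (P.θ j) * e3 - a * hE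
  have hc : c = 0 := by linear_combination (-Real.sin (P.θ j)) * e0 + Real.cos (P.θ j) * e3 - c * hE
  have : w - z = 0 := Complex.ext ha hc
  exact (sub_eq_zero.1 this).symm

/-- the next vertex -/
theorem v_succ (j : ℤ) : P.v (j + 1) = P.σ j (P.ℓ j) := by
  apply P.eq_of_h_eq j
  · rw [h_σ_self]
    have := P.h_pred_σ (j + 1) 0
    simp only [add_sub_cancel_right, σ_zero, zero_mul] at this
    exact this
  · rw [h_succ_σ, h_v_self, sub_self, zero_mul]

/-! ### Partial sums along the boundary -/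

theorem v_add_nat (a : ℤ) (p : ℕ) :
    P.v (a + p) = P.v a + ∑ l ∈ Finset.range p, (P.ℓ (a + l) : ℂ) * P.t (a + l) := by
  induction p with
  | zero => simp
  | succ p ih =>
    have : a + ((p + 1 : ℕ) : ℤ) = (a + p) + 1 := by push_cast; ring
    rw [this, v_succ, Finset.sum_range_succ, σ, ih]
    ring

/-- dot product with the normal `k` -/
noncomputable def dot (P : Pgn) (k : ℤ) (z : ℂ) : ℝ :=
  z.re * Real.cos (P.θ k) + z.im * Real.sin (P.θ k)

theorem dot_add (k : ℤ) (z w : ℂ) : P.dot k (z + w) = P.dot k z + P.dot k w := by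
  simp [dot]; ring

theorem dot_sub (k : ℤ) (z w : ℂ) : P.dot k (z - w) = P.dot k z - P.dot k w := by
  simp [dot]; ring

theorem dot_smul (k : ℤ) (c : ℝ) (z : ℂ) : P.dot k ((c : ℂ) * z) = c * P.dot k z := by
  simp [dot]; ring

theorem dot_sum (k : ℤ) {ι : Type*} (s : Finset ι) (f : ι → ℂ) :
    P.dot k (∑ i ∈ s, f i) = ∑ i ∈ s, P.dot k (f i) := by
  classical
  induction s using Finset.induction_on with
  | empty => simp [dot]
  | insert a s ha ih => rw [Finset.sum_insert ha, Finset.sum_insert ha, dot_add, ih]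

theorem dot_t (k l : ℤ) : P.dot k (P.t l) = Real.sin (((k : ℝ) - l) * P.D) := P.t_inner k l

theorem dot_n (k l : ℤ) : P.dot k (P.n l) = Real.cos (((k : ℝ) - l) * P.D) := P.n_inner k l

theorem h_eq_dot (j : ℤ) (z : ℂ) : P.h j z = P.b j - P.dot j z := rfl

theorem h_sub_dot (j : ℤ) (z w : ℂ) : P.h j z - P.h j w = P.dot j (w - z) := by
  rw [h_eq_dot, h_eq_dot, dot_sub]; ring

theorem dot_le_norm (k : ℤ) (z : ℂ) : |P.dot k z| ≤ ‖z‖ := by
  have h1 : P.dot k z = (conj (P.n k) * z).re := by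
    simp [dot]; ring
  rw [h1]
  calc |(conj (P.n k) * z).re| ≤ ‖conj (P.n k) * z‖ := Complex.abs_re_le_norm _
    _ = ‖z‖ := by rw [norm_mul, Complex.norm_conj, n_norm, one_mul]

theorem abs_h_sub_le (j : ℤ) (z w : ℂ) : |P.h j z - P.h j w| ≤ ‖z - w‖ := by
  rw [h_sub_dot, ← norm_neg (z - w), neg_sub]
  exact P.dot_le_norm j _

theorem dot_v_sub (k a : ℤ) (p : ℕ) :
    P.dot k (P.v (a + p) - P.v a) =
      ∑ l ∈ Finset.range p, P.ℓ (a + l) * Real.sin (((k : ℝ) - ((a + l : ℤ) : ℝ)) * P.D) := by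
  rw [v_add_nat, add_sub_cancel_left, dot_sum]
  apply Finset.sum_congr rfl
  intro l _
  rw [dot_smul, dot_t]

theorem H_right (a : ℤ) (p : ℕ) :
    P.h (a + p) (P.v a) = ∑ l ∈ Finset.range p, P.ℓ (a + l) * Real.sin ((((p : ℝ) - l)) * P.D) := by
  have h1 := P.h_sub_dot (a + p) (P.v a) (P.v (a + p))
  rw [h_v_self, sub_zero, dot_v_sub] at h1
  rw [h1]
  apply Finset.sum_congr rfl
  intro l _
  congr 3
  push_cast; ring

theorem H_left (a : ℤ) (p : ℕ) :
    P.h a (P.v (a + p)) = ∑ l ∈ Finset.range p, P.ℓ (a + l) * Real.sin ((l : ℝ) * P.D) := by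
  have h1 := P.h_sub_dot a (P.v (a + p)) (P.v a)
  rw [h_v_self, sub_zero] at h1
  have h2 : P.dot a (P.v a - P.v (a + p)) = - P.dot a (P.v (a + p) - P.v a) := by
    rw [dot_sub, dot_sub]; ring
  rw [h1, h2, dot_v_sub, ← Finset.sum_neg_distrib]
  apply Finset.sum_congr rfl
  intro l _
  have : ((a : ℝ) - ((a + l : ℤ) : ℝ)) * P.D = - ((l : ℝ) * P.D) := by push_cast; ring
  rw [this, Real.sin_neg]; ring

theorem sin_mul_D_nonneg {q : ℝ} (h0 : 0 ≤ q) (h1 : q * P.D ≤ Real.pi) : 0 ≤ Real.sin (q * P.D) :=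
  Real.sin_nonneg_of_nonneg_of_le_pi (mul_nonneg h0 P.D_pos.le) h1

theorem H_right_nonneg (a : ℤ) (p : ℕ) (hp : (p : ℝ) * P.D ≤ Real.pi) : 0 ≤ P.h (a + p) (P.v a) := by
  rw [H_right]
  apply Finset.sum_nonneg
  intro l hl
  have hl' : (l : ℝ) < p := by exact_mod_cast Finset.mem_range.1 hl
  apply mul_nonneg (P.ℓ_pos _).le
  apply P.sin_mul_D_nonneg (by linarith)
  have : ((p : ℝ) - l) * P.D ≤ p * P.D := by
    apply mul_le_mul_of_nonneg_right _ P.D_pos.le
    have : (0 : ℝ) ≤ l := by positivity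
    linarith
  linarith

theorem H_left_nonneg (a : ℤ) (p : ℕ) (hp : (p : ℝ) * P.D ≤ Real.pi) : 0 ≤ P.h a (P.v (a + p)) := by
  rw [H_left]
  apply Finset.sum_nonneg
  intro l hl
  have hl' : (l : ℝ) < p := by exact_mod_cast Finset.mem_range.1 hl
  apply mul_nonneg (P.ℓ_pos _).le
  apply P.sin_mul_D_nonneg (by positivity)
  have : (l : ℝ) * P.D ≤ p * P.D := mul_le_mul_of_nonneg_right hl'.le P.D_pos.le
  linarith

theorem H_right_pos (a : ℤ) (p : ℕ) (hp0 : 1 ≤ p) (hp : (p : ℝ) * P.D ≤ Real.pi) :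
    0 < P.h (a + p) (P.v a) := by
  rw [H_right]
  apply Finset.sum_pos'
  · intro l hl
    have hl' : (l : ℝ) < p := by exact_mod_cast Finset.mem_range.1 hl
    apply mul_nonneg (P.ℓ_pos _).le
    apply P.sin_mul_D_nonneg (by linarith)
    have : ((p : ℝ) - l) * P.D ≤ p * P.D := by
      apply mul_le_mul_of_nonneg_right _ P.D_pos.le
      have : (0 : ℝ) ≤ l := by positivity
      linarith
    linarith
  · refine ⟨p - 1, Finset.mem_range.2 (by omega), mul_pos (P.ℓ_pos _) ?_⟩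
    have : (((p : ℝ) - ((p - 1 : ℕ) : ℝ))) = 1 := by
      rw [Nat.cast_sub hp0]; push_cast; ring
    rw [this, one_mul]
    exact P.sinD_pos

theorem H_left_pos (a : ℤ) (p : ℕ) (hp0 : 1 ≤ p) (hp : (p : ℝ) * P.D < Real.pi) :
    0 < P.h a (P.v (a + (p + 1 : ℕ))) := by
  rw [H_left]
  apply Finset.sum_pos'
  · intro l hl
    have hl' : (l : ℝ) < ((p + 1 : ℕ) : ℝ) := by exact_mod_cast Finset.mem_range.1 hl
    push_cast at hl'
    apply mul_nonneg (P.ℓ_pos _).le
    apply P.sin_mul_D_nonneg (by positivity)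
    have hl2 : (l : ℝ) ≤ p := by
      have : l < p + 1 := Finset.mem_range.1 hl
      exact_mod_cast Nat.lt_succ_iff.1 this
    have : (l : ℝ) * P.D ≤ p * P.D := mul_le_mul_of_nonneg_right hl2 P.D_pos.le
    linarith
  · refine ⟨p, Finset.mem_range.2 (by omega), mul_pos (P.ℓ_pos _) ?_⟩
    apply Real.sin_pos_of_pos_of_lt_pi _ hp
    have : (1 : ℝ) ≤ p := by exact_mod_cast hp0
    exact mul_pos (by linarith) P.D_pos

/-- periodic functions on the integers -/
theorem per_mul {α : Type*} {F : ℤ → α} (hF : ∀ j : ℤ, F (j + P.m) = F j) (j w : ℤ) :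
    F (j + w * P.m) = F j := by
  have : Function.Periodic F (P.m : ℤ) := hF
  exact this.int_mul w j

theorem per_sub {α : Type*} {F : ℤ → α} (hF : ∀ j : ℤ, F (j + P.m) = F j) (j : ℤ) :
    F (j - P.m) = F j := by
  have := hF (j - P.m)
  rw [sub_add_cancel] at this
  exact this.symm

theorem h_per (j w : ℤ) (z : ℂ) : P.h (j + w * P.m) z = P.h j z := by
  have := P.per_mul (F := fun k => P.h k z) (fun k => P.h_add_m k z) j w
  exact this

/-- reduce modulo `m` -/
theorem exists_rep (j : ℤ) : ∃ (q : ℕ) (w : ℤ), q < P.m ∧ j = (q : ℤ) + w * P.m := by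
  have hm : (P.m : ℤ) ≠ 0 := by
    have := P.hm
    omega
  have h0 := Int.emod_nonneg j hm
  have h1 := Int.emod_lt_of_pos j (by have := P.hm; omega : (0 : ℤ) < P.m)
  refine ⟨(j % P.m).toNat, j / P.m, ?_, ?_⟩
  · omega
  · rw [Int.toNat_of_nonneg h0]
    have := Int.emod_add_mul_ediv j P.m
    linarith [mul_comm (P.m : ℤ) (j / P.m)]

theorem h_v_nonneg (k j : ℤ) : 0 ≤ P.h k (P.v j) := by
  obtain ⟨q, w, hq, hk⟩ := P.exists_rep (k - j)
  have hkk : k = (j + q) + w * P.m := by linarith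
  rw [hkk, h_per]
  by_cases hc : (q : ℝ) * P.D ≤ Real.pi
  · exact P.H_right_nonneg j q hc
  · push_neg at hc
    -- use the other way round
    have hq' : q ≤ P.m := hq.le
    have hD := P.D_mul_m
    have hpp : ((P.m - q : ℕ) : ℝ) * P.D ≤ Real.pi := by
      rw [Nat.cast_sub hq']
      nlinarith
    have := P.H_left_nonneg (j + q - P.m) (P.m - q) hpp
    have e1 : j + (q : ℤ) - P.m + ((P.m - q : ℕ) : ℤ) = j := by
      rw [Nat.cast_sub hq']; ring
    rw [e1] at this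
    have e2 : P.h (j + q - P.m) (P.v j) = P.h (j + q) (P.v j) := by
      have := P.per_sub (F := fun k => P.h k (P.v j)) (fun k => P.h_add_m k _) (j + q)
      exact this
    rwa [e2] at this

theorem σ_eq_comb (j : ℤ) (s : ℝ) :
    P.σ j s = ((1 - s / P.ℓ j : ℝ) : ℂ) * P.v j + ((s / P.ℓ j : ℝ) : ℂ) * P.v (j + 1) := by
  rw [v_succ, σ, σ]
  have h1 : (P.ℓ j : ℂ) ≠ 0 := by exact_mod_cast (P.ℓ_pos j).ne'
  push_cast
  field_simp
  ring

theorem h_comb (k : ℤ) (u : ℝ) (z w : ℂ) :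
    P.h k (((1 - u : ℝ) : ℂ) * z + ((u : ℝ) : ℂ) * w) = (1 - u) * P.h k z + u * P.h k w := by
  simp only [h, add_re, add_im, mul_re, mul_im, ofReal_re, ofReal_im]
  ring

theorem h_σ_comb (k j : ℤ) (s : ℝ) :
    P.h k (P.σ j s) = (1 - s / P.ℓ j) * P.h k (P.v j) + (s / P.ℓ j) * P.h k (P.v (j + 1)) := by
  rw [σ_eq_comb, h_comb]

theorem h_σ_nonneg (k j : ℤ) {s : ℝ} (h0 : 0 ≤ s) (h1 : s ≤ P.ℓ j) : 0 ≤ P.h k (P.σ j s) := by
  rw [h_σ_comb]
  have hl := P.ℓ_pos j
  have hu : s / P.ℓ j ≤ 1 := (div_le_one hl).2 h1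
  have hu0 : 0 ≤ s / P.ℓ j := div_nonneg h0 hl.le
  exact add_nonneg (mul_nonneg (by linarith) (P.h_v_nonneg _ _)) (mul_nonneg hu0 (P.h_v_nonneg _ _))

theorem h_σ_pos (k j : ℤ) {s : ℝ} (h0 : 0 < s) (h1 : s < P.ℓ j) (hk : ¬ ((P.m : ℤ) ∣ k - j)) :
    0 < P.h k (P.σ j s) := by
  rw [h_σ_comb]
  have hl := P.ℓ_pos j
  have hu : s / P.ℓ j < 1 := (div_lt_one hl).2 h1
  have hu0 : 0 < s / P.ℓ j := div_pos h0 hl
  have hA := P.h_v_nonneg k j
  have hB := P.h_v_nonneg k (j + 1)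
  suffices hh : 0 < P.h k (P.v j) ∨ 0 < P.h k (P.v (j + 1)) by
    rcases hh with hh | hh
    · have := mul_pos (by linarith : 0 < 1 - s / P.ℓ j) hh
      have := mul_nonneg hu0.le hB
      linarith
    · have := mul_pos hu0 hh
      have := mul_nonneg (by linarith : 0 ≤ 1 - s / P.ℓ j) hA
      linarith
  obtain ⟨q, w, hq, hkq⟩ := P.exists_rep (k - j)
  have hkk : k = (j + q) + w * P.m := by linarith
  have hq1 : 1 ≤ q := by
    by_contra hcon
    have : q = 0 := by omega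
    subst this
    apply hk
    rw [hkq]
    simp
  by_cases hc : (q : ℝ) * P.D ≤ Real.pi
  · left
    rw [hkk, h_per]
    exact P.H_right_pos j q hq1 hc
  · right
    push_neg at hc
    have hq' : q ≤ P.m := hq.le
    have hD := P.D_mul_m
    have hpp : ((P.m - q : ℕ) : ℝ) * P.D < Real.pi := by
      rw [Nat.cast_sub hq']
      nlinarith
    have hq2 : 1 ≤ P.m - q := by omega
    have := P.H_left_pos (j + q - P.m) (P.m - q) hq2 hpp
    have e1 : j + (q : ℤ) - P.m + ((P.m - q + 1 : ℕ) : ℤ) = j + 1 := by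
      push_cast
      rw [Nat.cast_sub hq']; ring
    rw [e1] at this
    have e2 : P.h (j + q - P.m) (P.v (j + 1)) = P.h (j + q) (P.v (j + 1)) := by
      have := P.per_sub (F := fun k => P.h k (P.v (j + 1))) (fun k => P.h_add_m k _) (j + q)
      exact this
    rw [e2] at this
    rw [hkk, h_per]
    exact this

theorem σ_mem_Ob (j : ℤ) {s : ℝ} (h0 : 0 ≤ s) (h1 : s ≤ P.ℓ j) : P.σ j s ∈ P.Ob :=
  fun k => P.h_σ_nonneg k j h0 h1

theorem v_mem_Ob (j : ℤ) : P.v j ∈ P.Ob := fun k => P.h_v_nonneg k j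

theorem z₀_mem : P.z₀ ∈ P.Om := by
  intro j
  have := P.hz₀ j
  simp only [h]
  have e : P.θ j = (j : ℝ) * (2 * Real.pi / P.m) := rfl
  rw [e]
  linarith

theorem h_comb' (k : ℤ) (u : ℝ) (z w : ℂ) :
    P.h k (z + (u : ℂ) * (w - z)) = (1 - u) * P.h k z + u * P.h k w := by
  simp only [h, add_re, add_im, mul_re, mul_im, ofReal_re, ofReal_im, sub_re, sub_im]
  ring

theorem isOpen_Om : IsOpen P.Om := by
  have : P.Om = ⋂ k ∈ Finset.range P.m, {z | 0 < P.h (k : ℤ) z} := by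
    ext z
    simp only [Om, Set.mem_setOf_eq, Set.mem_iInter, Finset.mem_range]
    constructor
    · intro hz k _
      exact hz k
    · intro hz j
      obtain ⟨q, w, hq, hj⟩ := P.exists_rep j
      rw [hj, h_per]
      exact hz q hq
  rw [this]
  apply isOpen_biInter_finset
  intro k _
  apply isOpen_lt continuous_const
  unfold h
  fun_prop

theorem isClosed_Ob : IsClosed P.Ob := by
  have : P.Ob = ⋂ j : ℤ, {z | 0 ≤ P.h j z} := by
    ext z
    simp [Ob]
  rw [this]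
  apply isClosed_iInter
  intro j
  apply isClosed_le continuous_const
  unfold h
  fun_prop

theorem Om_subset_Ob : P.Om ⊆ P.Ob := fun _ hz j => (hz j).le

/-- a point of the closed polygon moved towards the interior point -/
theorem dilate_mem {z : ℂ} (hz : z ∈ P.Ob) {ρ : ℝ} (h0 : 0 ≤ ρ) (h1 : ρ < 1) :
    P.z₀ + (ρ : ℂ) * (z - P.z₀) ∈ P.Om := by
  intro j
  rw [h_comb']
  have h2 := P.z₀_mem j
  have h3 := hz j
  have := mul_pos (by linarith : 0 < 1 - ρ) h2
  have := mul_nonneg h0 h3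
  linarith

theorem closure_Om : closure P.Om = P.Ob := by
  apply Set.Subset.antisymm
  · exact closure_minimal P.Om_subset_Ob P.isClosed_Ob
  · intro z hz
    rw [mem_closure_iff_seq_limit]
    refine ⟨fun k : ℕ => P.z₀ + (((k : ℝ) + 1) / ((k : ℝ) + 2) : ℝ) * (z - P.z₀), ?_, ?_⟩
    · intro k
      apply P.dilate_mem hz
      · positivity
      · rw [div_lt_one (by positivity)]; linarith
    · have hlim : Filter.Tendsto (fun k : ℕ => ((k : ℝ) + 1) / ((k : ℝ) + 2)) Filter.atTop (nhds 1) := by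
        have h1 : Filter.Tendsto (fun k : ℕ => 1 - 1 / ((k : ℝ) + 2)) Filter.atTop (nhds (1 - 0)) := by
          apply Filter.Tendsto.sub tendsto_const_nhds
          have := tendsto_one_div_add_atTop_nhds_zero_nat (𝕜 := ℝ)
          have h2 := (Filter.tendsto_add_atTop_iff_nat 1).2 this
          refine h2.congr ?_
          intro k
          push_cast
          ring_nf
        rw [sub_zero] at h1
        refine h1.congr ?_
        intro k
        field_simp
        ring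
      have h3 : Filter.Tendsto (fun k : ℕ => (P.z₀ + ((((k : ℝ) + 1) / ((k : ℝ) + 2) : ℝ) : ℂ) * (z - P.z₀))) Filter.atTop
          (nhds (P.z₀ + ((1 : ℝ) : ℂ) * (z - P.z₀))) := by
        apply Filter.Tendsto.add tendsto_const_nhds
        apply Filter.Tendsto.mul_const
        exact (Complex.continuous_ofReal.tendsto _).comp hlim
      have e : P.z₀ + ((1 : ℝ) : ℂ) * (z - P.z₀) = z := by simp
      rwa [e] at h3

theorem mem_side_of_h_eq_zero {z : ℂ} (hz : z ∈ P.Ob) {j : ℤ} (hj : P.h j z = 0) :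
    ∃ s : ℝ, 0 ≤ s ∧ s ≤ P.ℓ j ∧ z = P.σ j s := by
  have hS := P.sinD_pos
  refine ⟨P.h (j - 1) z / Real.sin P.D, div_nonneg (hz _) hS.le, ?_, ?_⟩
  · set s := P.h (j - 1) z / Real.sin P.D with hs
    have hs1 : s * Real.sin P.D = P.h (j - 1) z := by
      rw [hs]; field_simp
    have e : z = P.σ j s := by
      apply P.eq_of_h_eq (j - 1)
      · rw [h_pred_σ, hs1]
      · simp only [sub_add_cancel]
        rw [hj, h_σ_self]
    have h2 := hz (j + 1)
    rw [e, h_succ_σ] at h2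
    have := nonneg_of_mul_nonneg_left h2 hS
    linarith
  · set s := P.h (j - 1) z / Real.sin P.D with hs
    have hs1 : s * Real.sin P.D = P.h (j - 1) z := by
      rw [hs]; field_simp
    apply P.eq_of_h_eq (j - 1)
    · rw [h_pred_σ, hs1]
    · simp only [sub_add_cancel]
      rw [hj, h_σ_self]

theorem frontier_sub {z : ℂ} (hz : z ∈ frontier P.Om) :
    ∃ (j : ℤ) (s : ℝ), 0 ≤ s ∧ s ≤ P.ℓ j ∧ z = P.σ j s := by
  have h1 : z ∈ P.Ob := by
    rw [← P.closure_Om]; exact frontier_subset_closure hz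
  have h2 : z ∉ P.Om := by
    rw [P.isOpen_Om.frontier_eq] at hz
    exact hz.2
  simp only [Om, Set.mem_setOf_eq, not_forall, not_lt] at h2
  obtain ⟨j, hj⟩ := h2
  have : P.h j z = 0 := le_antisymm hj (h1 j)
  obtain ⟨s, h3, h4, h5⟩ := P.mem_side_of_h_eq_zero h1 this
  exact ⟨j, s, h3, h4, h5⟩

end Pgn

end Vale.Agent.Lib.P123
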