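import Vale.Agent.Lib.P123.Pg9

open Complex ComplexConjugate MeasureTheory Set Filter Topology
open scoped Interval InnerProductSpace

set_option linter.unusedSectionVars false

namespace Vale.Agent.Lib.P123

/-- The Moebius map sending the chord to the positive axis. -/
noncomputable def mobU (u : ℂ) : ℂ := (1 + u) / (2 - u)

theorem mobU_im (u : ℂ) : (mobU u).im = 3 * u.im / normSq (2 - u) := by
  unfold mobU
  rw [Complex.div_im]
  simp only [add_re, add_im, sub_re, sub_im, one_re, one_im, re_ofNat, im_ofNat]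
  field_simp
  ring

theorem mobU_re (u : ℂ) : (mobU u).re = ((1 + u.re) * (2 - u.re) - u.im ^ 2) / normSq (2 - u) := by
  unfold mobU
  rw [Complex.div_re]
  simp only [add_re, add_im, sub_re, sub_im, one_re, one_im, re_ofNat, im_ofNat]
  field_simp
  ring

theorem ne_two_of_im {u : ℂ} (h : u.im ≠ 0) : 2 - u ≠ 0 := by
  intro h0
  have := congrArg Complex.im h0
  simp at this
  exact h this

/-- Lower bound for the argument. -/
theorem arg_mobU_lower {u : ℂ} {c₀ : ℝ} (hc0 : 0 < c₀) (hc1 : c₀ ≤ 1) (hu : c₀ ≤ u.im) :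
    c₀ / 4 ≤ arg (mobU u) := by
  have hY : 0 < u.im := by linarith
  have hne := ne_two_of_im (u := u) hY.ne'
  have hN : 0 < normSq (2 - u) := Complex.normSq_pos.2 hne
  have him : 0 < (mobU u).im := by
    rw [mobU_im]; positivity
  have harg0 : 0 ≤ arg (mobU u) := Complex.arg_nonneg_iff.2 him.le
  by_cases hre : (mobU u).re < 0
  · have h1 : ¬ (|arg (mobU u)| ≤ Real.pi / 2) := by
      rw [Complex.abs_arg_le_pi_div_two_iff]
      linarith
    rw [not_le, abs_of_nonneg harg0] at h1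
    have := Real.pi_gt_three
    linarith
  · push_neg at hre
    have hne0 : mobU u ≠ 0 := by
      intro h
      rw [h] at him
      simp at him
    have hs : Real.sin (arg (mobU u)) = (mobU u).im / ‖mobU u‖ := Complex.sin_arg _
    have hle : Real.sin (arg (mobU u)) ≤ arg (mobU u) := Real.sin_le harg0
    -- the real part is nonnegative so `u` is in a bounded region
    have hb : (1 + u.re) * (2 - u.re) - u.im ^ 2 ≥ 0 := by
      rw [mobU_re] at hre
      by_contra hcon
      push_neg at hcon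
      have := div_neg_of_neg_of_pos hcon hN
      linarith
    have hbox : 0 ≤ (1 + u.re) * (2 - u.re) := by nlinarith [sq_nonneg u.im]
    have hb1 : u.re ^ 2 - u.re - 2 ≤ 0 := by nlinarith
    have hb2 : u.im ^ 2 ≤ 9 / 4 := by nlinarith [sq_nonneg (2 * u.re - 1)]
    have hb3 : u.re ^ 2 ≤ u.re + 2 := by linarith
    have hb4 : u.re ≤ 2 := by nlinarith
    have hn1 : ‖(1 : ℂ) + u‖ ^ 2 ≤ 45 / 4 := by
      rw [Complex.sq_norm, Complex.normSq_apply]
      simp only [add_re, add_im, one_re, one_im, zero_add]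
      nlinarith
    have hn2 : ‖(2 : ℂ) - u‖ ^ 2 ≤ 45 / 4 := by
      rw [Complex.sq_norm, Complex.normSq_apply]
      simp only [sub_re, sub_im, re_ofNat, im_ofNat, zero_sub]
      nlinarith
    have hp : ‖(1 : ℂ) + u‖ * ‖(2 : ℂ) - u‖ ≤ 45 / 4 := by
      have h1 := norm_nonneg ((1 : ℂ) + u)
      have h2 := norm_nonneg ((2 : ℂ) - u)
      nlinarith [sq_nonneg (‖(1 : ℂ) + u‖ - ‖(2 : ℂ) - u‖)]
    have hn2pos : 0 < ‖(2 : ℂ) - u‖ := norm_pos_iff.2 hne
    have hn1pos : 0 < ‖(1 : ℂ) + u‖ := by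
      apply norm_pos_iff.2
      intro h
      have := congrArg Complex.im h
      simp at this
      linarith
    have hv : (mobU u).im / ‖mobU u‖ = 3 * u.im / (‖(1 : ℂ) + u‖ * ‖(2 : ℂ) - u‖) := by
      rw [mobU_im]
      have e1 : ‖mobU u‖ = ‖(1 : ℂ) + u‖ / ‖(2 : ℂ) - u‖ := by
        unfold mobU; rw [norm_div]
      rw [e1, Complex.normSq_eq_norm_sq]
      field_simp
    have hlow : c₀ / 4 ≤ 3 * u.im / (‖(1 : ℂ) + u‖ * ‖(2 : ℂ) - u‖) := by
      rw [le_div_iff₀ (by positivity)]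
      nlinarith
    rw [hs, hv] at hle
    linarith

theorem mobU_conj (u : ℂ) : mobU (conj u) = conj (mobU u) := by
  unfold mobU
  have h2 : conj (2 : ℂ) = 2 := by
    apply Complex.ext <;> simp
  rw [map_div₀, map_add, map_sub, map_one, h2]

/-- Upper bound for the argument in the lower half plane. -/
theorem arg_mobU_upper {u : ℂ} {c₀ : ℝ} (hc0 : 0 < c₀) (hc1 : c₀ ≤ 1) (hu : u.im ≤ - c₀) :
    arg (mobU u) ≤ - (c₀ / 4) := by
  have h1 := arg_mobU_lower (u := conj u) hc0 hc1 (by simp; linarith)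
  rw [mobU_conj, Complex.arg_conj] at h1
  split_ifs at h1 with h2
  · exfalso
    have hY : u.im < 0 := by linarith
    have hne := ne_two_of_im (u := u) hY.ne
    have hN : 0 < normSq (2 - u) := Complex.normSq_pos.2 hne
    have him : (mobU u).im < 0 := by
      rw [mobU_im]
      exact div_neg_of_neg_of_pos (by linarith) hN
    rw [Complex.arg_eq_pi_iff] at h2
    linarith [h2.2]
  · linarith

namespace Pgn

variable {P : Pgn}

/-- the trigonometric identity for the monotonicity lemma -/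
theorem trig_mono (θ' x y : ℝ) (ς : ℝ) (hς : ς = 1 ∨ ς = -1) :
    Real.sin y * Real.cos (θ' + ς * x) = Real.sin (y - x) * Real.cos θ' + Real.sin x * Real.cos (θ' + ς * y) ∧
    Real.sin y * Real.sin (θ' + ς * x) = Real.sin (y - x) * Real.sin θ' + Real.sin x * Real.sin (θ' + ς * y) := by
  rcases hς with rfl | rfl
  · constructor
    · simp only [one_mul, Real.cos_add, Real.sin_sub]; ring
    · simp only [one_mul, Real.sin_add, Real.sin_sub]; ring
  · constructor
    · simp only [neg_mul, one_mul, Real.cos_add, Real.sin_add, Real.sin_sub, Real.cos_neg, Real.sin_neg]; ring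
    · simp only [neg_mul, one_mul, Real.cos_add, Real.sin_add, Real.sin_sub, Real.cos_neg, Real.sin_neg]; ring

/-- The monotonicity lemma for heights above the sides as seen from a point of side `i`. -/
theorem h_mono {i : ℤ} {τ : ℂ} (hτ : τ ∈ P.Ob) (hi : P.h i τ = 0) (ς : ℤ) (hς : ς = 1 ∨ ς = -1) {k l : ℕ}
    (hk : 1 ≤ k) (hkl : k ≤ l) (hl : (l : ℝ) * P.D ≤ Real.pi) :
    P.h (i + ς * k) τ * Real.sin ((l : ℝ) * P.D) ≤ P.h (i + ς * l) τ * Real.sin ((k : ℝ) * P.D) := by
  set w := P.v (i + ς * k) - τ with hw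
  have hkl' : (k : ℝ) ≤ l := by exact_mod_cast hkl
  have hD := P.D_pos
  have e1 : P.dot (i + ς * k) w = P.h (i + ς * k) τ := P.dot_v_sub' _ _
  have e2 : P.dot i w ≤ 0 := by
    have := P.h_sub_dot i τ (P.v (i + ς * k))
    rw [hi, zero_sub] at this
    rw [← this]
    have := P.h_v_nonneg i (i + ς * k)
    linarith
  have e3 : P.dot (i + ς * l) w ≤ P.h (i + ς * l) τ := by
    have := P.h_sub_dot (i + ς * l) τ (P.v (i + ς * k))
    have h2 := P.h_v_nonneg (i + ς * l) (i + ς * k)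
    rw [hw]
    linarith
  have hς' : ((ς : ℤ) : ℝ) = 1 ∨ ((ς : ℤ) : ℝ) = -1 := by
    rcases hς with rfl | rfl
    · left; simp
    · right; simp
  obtain ⟨t1, t2⟩ := trig_mono (P.θ i) ((k : ℝ) * P.D) ((l : ℝ) * P.D) (ς : ℝ) hς'
  have eθk : P.θ (i + ς * k) = P.θ i + (ς : ℝ) * ((k : ℝ) * P.D) := by
    unfold θ; push_cast; ring
  have eθl : P.θ (i + ς * l) = P.θ i + (ς : ℝ) * ((l : ℝ) * P.D) := by
    unfold θ; push_cast; ring
  have key : Real.sin ((l : ℝ) * P.D) * P.dot (i + ς * k) w =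
      Real.sin (((l : ℝ) - k) * P.D) * P.dot i w + Real.sin ((k : ℝ) * P.D) * P.dot (i + ς * l) w := by
    unfold dot
    rw [eθk, eθl]
    have e : ((l : ℝ) - k) * P.D = (l : ℝ) * P.D - (k : ℝ) * P.D := by ring
    rw [e]
    linear_combination w.re * t1 + w.im * t2
  have s1 : 0 ≤ Real.sin (((l : ℝ) - k) * P.D) := by
    apply P.sin_mul_D_nonneg (by linarith)
    have : ((l : ℝ) - k) * P.D ≤ l * P.D := by
      apply mul_le_mul_of_nonneg_right _ hD.le
      have : (0 : ℝ) ≤ k := by positivity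
      linarith
    linarith
  have s2 : 0 ≤ Real.sin ((k : ℝ) * P.D) := by
    apply P.sin_mul_D_nonneg (by positivity)
    have : (k : ℝ) * P.D ≤ l * P.D := mul_le_mul_of_nonneg_right hkl' hD.le
    linarith
  rw [← e1, mul_comm, key]
  have h3 := mul_nonpos_of_nonneg_of_nonpos s1 e2
  have h4 := mul_le_mul_of_nonneg_left e3 s2
  rw [mul_comm (P.h (i + ς * l) τ)]
  linarith

/-- telescoping with one sign flip -/
theorem abel_flip (F : ℕ → ℂ) {A B m : ℕ} (hAB : A ≤ B) (hBm : B ≤ m) :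
    ∑ k ∈ Finset.range m, (if A ≤ k ∧ k < B then (-1 : ℂ) else 1) * (F (k + 1) - F k) =
      F m - F 0 + 2 * (F A - F B) := by
  set G : ℕ → ℂ := fun k => if k ≤ A then F k else if k ≤ B then 2 * F A - F k
    else F k + 2 * (F A - F B) with hG
  have hterm : ∀ k ∈ Finset.range m, (if A ≤ k ∧ k < B then (-1 : ℂ) else 1) * (F (k + 1) - F k) =
      G (k + 1) - G k := by
    intro k _
    simp only [hG]
    by_cases h1 : k < A
    · rw [if_neg (by omega), if_pos (by omega), if_pos (by omega)]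
      ring
    · by_cases h2 : k < B
      · rw [if_pos (by omega), if_neg (by omega), if_pos (by omega)]
        by_cases h3 : k ≤ A
        · have e : k = A := by omega
          subst e
          rw [if_pos le_rfl]
          ring
        · rw [if_neg h3, if_pos (by omega)]
          ring
      · rw [if_neg (by omega), if_neg (by omega), if_neg (by omega)]
        by_cases h3 : k ≤ A
        · have e1 : k = A := by omega
          have e2 : A = B := by omega
          subst e1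
          subst e2
          rw [if_pos le_rfl]
          ring
        · rw [if_neg h3]
          by_cases h4 : k ≤ B
          · have e : k = B := by omega
            subst e
            rw [if_pos le_rfl]
            ring
          · rw [if_neg h4]
            ring
  rw [Finset.sum_congr rfl hterm, Finset.sum_range_sub]
  simp only [hG]
  rw [if_pos (Nat.zero_le A)]
  by_cases h1 : m ≤ A
  · have e1 : A = m := by omega
    have e2 : B = m := by omega
    subst e1
    subst e2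
    rw [if_pos le_rfl]
    ring
  · rw [if_neg h1]
    by_cases h2 : m ≤ B
    · have e : B = m := by omega
      subst e
      rw [if_pos le_rfl]
      ring
    · rw [if_neg h2]
      ring

theorem side_norm_le {φ : ℝ → ℂ} {ψ : ℝ → ℝ} {l : ℝ} (hl : 0 ≤ l)
    (hψ : IntervalIntegrable ψ volume 0 l) (h : ∀ s ∈ Ioo 0 l, ‖φ s‖ ≤ ψ s) :
    ‖∫ s in (0 : ℝ)..l, φ s‖ ≤ ∫ s in (0 : ℝ)..l, ψ s := by
  apply intervalIntegral.norm_integral_le_of_norm_le hl _ hψ
  have hne : ∀ᵐ s : ℝ, s ≠ l := by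
    simp [ae_iff, measure_singleton]
  filter_upwards [hne] with s hs hmem
  exact h s ⟨hmem.1, lt_of_le_of_ne hmem.2 hs⟩

/-- The one sided estimate for the boundary integral with a sign flip. -/
theorem flip_estimate {f Ed E : ℂ → ℂ} (hf : DiffContOnCl ℂ f P.Om) (hEd : DiffContOnCl ℂ Ed P.Om)
    (hE : ∀ j : ℤ, ∀ s ∈ Icc 0 (P.ℓ j), HasDerivAt E (Ed (P.σ j s)) (P.σ j s))
    (i : ℤ) {τ ξ : ℂ} (hτ : τ ∈ P.Ob) (hξ : ξ ∈ P.Ob) (v : ℂ) {A B : ℕ} (hAB : A ≤ B) (hBm : B ≤ P.m)
    {C : ℝ} (hC0 : 0 ≤ C)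
    (hin : ∀ k : ℕ, A ≤ k → k < B → ∀ s ∈ Ioo 0 (P.ℓ (i + k)),
      ‖Ed (P.σ (i + k) s)‖ ≤ C * P.K τ (i + k) s)
    (hout : ∀ k : ℕ, k < P.m → ¬ (A ≤ k ∧ k < B) → ∀ s ∈ Ioo 0 (P.ℓ (i + k)),
      ‖Ed (P.σ (i + k) s)‖ ≤ C * P.K ξ (i + k) s) :
    ‖v‖ * ‖2 * (E (P.v (i + A)) - E (P.v (i + B)))‖ ≤
      C * (P.TT (fun w => ‖f w + v‖) τ + P.TT (fun w => ‖f w - v‖) ξ) := by
  have hfc : ContinuousOn f P.Ob := by
    have := hf.continuousOn
    rwa [P.closure_Om] at this
  have hEc : ContinuousOn Ed P.Ob := by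
    have := hEd.continuousOn
    rwa [P.closure_Om] at this
  have hfb : ContinuousOn f P.bd := hfc.mono P.bd_subset_Ob
  have hEb : ContinuousOn Ed P.bd := hEc.mono P.bd_subset_Ob
  have hCau : P.cint (fun z => f z * Ed z) = 0 := cint_eq_zero (dcc_mul hf hEd)
  have hshift : P.cint (fun z => f z * Ed z) = ∑ k ∈ Finset.range P.m,
      ∫ s in (0 : ℝ)..P.ℓ (i + k), (P.t (i + k)) • (f (P.σ (i + k) s) * Ed (P.σ (i + k) s)) := by
    unfold cint
    rw [bint_shift (i := i)]
    intro j s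
    simp only [t_add_m, σ_add_m]
  rw [hshift] at hCau
  set sg : ℕ → ℂ := fun k => if A ≤ k ∧ k < B then (-1 : ℂ) else 1 with hsg
  set g : ℕ → ℂ := fun k => ∫ s in (0 : ℝ)..P.ℓ (i + k),
    (P.t (i + k)) • ((f (P.σ (i + k) s) - sg k * v) * Ed (P.σ (i + k) s)) with hg
  have hcontf : ∀ j : ℤ, ContinuousOn (fun s => f (P.σ j s)) (Icc 0 (P.ℓ j)) := fun j => SC_comp hfb j
  have hcontE : ∀ j : ℤ, ContinuousOn (fun s => Ed (P.σ j s)) (Icc 0 (P.ℓ j)) := fun j => SC_comp hEb j
  have hII : ∀ (j : ℤ) (φ : ℝ → ℂ), ContinuousOn φ (Icc 0 (P.ℓ j)) →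
      IntervalIntegrable φ volume 0 (P.ℓ j) := by
    intro j φ hφ
    apply ContinuousOn.intervalIntegrable
    rwa [uIcc_of_le (P.ℓ_pos j).le]
  have hsplit : ∀ k ∈ Finset.range P.m,
      ∫ s in (0 : ℝ)..P.ℓ (i + k), (P.t (i + k)) • (f (P.σ (i + k) s) * Ed (P.σ (i + k) s)) =
        g k + v * (sg k * (E (P.v (i + ((k + 1 : ℕ) : ℤ))) - E (P.v (i + (k : ℤ))))) := by
    intro k _
    set j : ℤ := i + k with hj
    have hftc : ∫ s in (0 : ℝ)..P.ℓ j, (P.t j) • Ed (P.σ j s) = E (P.v (j + 1)) - E (P.v j) :=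
      side_ftc j (hE j) (hcontE j)
    have e1 : i + ((k + 1 : ℕ) : ℤ) = j + 1 := by rw [hj]; push_cast; ring
    rw [e1, ← hftc]
    have e2 : ∀ s, (P.t j) • (f (P.σ j s) * Ed (P.σ j s)) =
        (P.t j) • ((f (P.σ j s) - sg k * v) * Ed (P.σ j s)) + (v * sg k) * ((P.t j) • Ed (P.σ j s)) := by
      intro s
      simp only [smul_eq_mul]
      ring
    simp only [e2]
    rw [intervalIntegral.integral_add, intervalIntegral.integral_const_mul]
    · simp only [hg]
      rw [← hj]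
      ring
    · apply hII j
      exact (((hcontf j).sub continuousOn_const).mul (hcontE j)).const_smul (P.t j)
    · apply hII j
      exact continuousOn_const.mul ((hcontE j).const_smul (P.t j))
  rw [Finset.sum_congr rfl hsplit, Finset.sum_add_distrib, ← Finset.mul_sum] at hCau
  have habel := abel_flip (fun k : ℕ => E (P.v (i + (k : ℤ)))) hAB hBm
  have hsum : ∑ k ∈ Finset.range P.m, sg k * (E (P.v (i + ((k + 1 : ℕ) : ℤ))) - E (P.v (i + (k : ℤ)))) =
      2 * (E (P.v (i + A)) - E (P.v (i + B))) := by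
    rw [habel]
    have e : P.v (i + (P.m : ℤ)) = P.v (i + ((0 : ℕ) : ℤ)) := by
      rw [v_add_m]
      simp
    rw [e]
    ring
  rw [hsum] at hCau
  have hv : v * (2 * (E (P.v (i + A)) - E (P.v (i + B)))) = - ∑ k ∈ Finset.range P.m, g k := by
    linear_combination hCau
  have hnorm : ‖v‖ * ‖2 * (E (P.v (i + A)) - E (P.v (i + B)))‖ ≤ ∑ k ∈ Finset.range P.m, ‖g k‖ := by
    rw [← norm_mul, hv, norm_neg]
    exact norm_sum_le _ _
  refine hnorm.trans ?_
  -- the integrals against the kernels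
  have hcp : ContinuousOn (fun w => ‖f w + v‖) P.bd := (hfb.add continuousOn_const).norm
  have hcm : ContinuousOn (fun w => ‖f w - v‖) P.bd := (hfb.sub continuousOn_const).norm
  have hT1 : P.TT (fun w => ‖f w + v‖) τ = ∑ k ∈ Finset.range P.m,
      ∫ s in (0 : ℝ)..P.ℓ (i + k), ‖f (P.σ (i + k) s) + v‖ * P.K τ (i + k) s := by
    unfold TT
    rw [bint_shift (i := i)]
    intro j s
    simp only [K_add_m, σ_add_m]
  have hT2 : P.TT (fun w => ‖f w - v‖) ξ = ∑ k ∈ Finset.range P.m,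
      ∫ s in (0 : ℝ)..P.ℓ (i + k), ‖f (P.σ (i + k) s) - v‖ * P.K ξ (i + k) s := by
    unfold TT
    rw [bint_shift (i := i)]
    intro j s
    simp only [K_add_m, σ_add_m]
  rw [hT1, hT2, ← Finset.sum_add_distrib, Finset.mul_sum]
  apply Finset.sum_le_sum
  intro k hk
  have hk' : k < P.m := Finset.mem_range.1 hk
  set j : ℤ := i + k with hj
  have hl := P.ℓ_pos j
  have hs1 := P.TT_SC hcp hτ j
  have hs2 := P.TT_SC hcm hξ j
  have hn1 : 0 ≤ ∫ s in (0 : ℝ)..P.ℓ j, ‖f (P.σ j s) + v‖ * P.K τ j s :=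
    intervalIntegral.integral_nonneg hl.le (fun s _ => mul_nonneg (norm_nonneg _) (P.K_nonneg hτ j s))
  have hn2 : 0 ≤ ∫ s in (0 : ℝ)..P.ℓ j, ‖f (P.σ j s) - v‖ * P.K ξ j s :=
    intervalIntegral.integral_nonneg hl.le (fun s _ => mul_nonneg (norm_nonneg _) (P.K_nonneg hξ j s))
  have hii1 : IntervalIntegrable (fun s => C * (‖f (P.σ j s) + v‖ * P.K τ j s)) volume 0 (P.ℓ j) := by
    apply ContinuousOn.intervalIntegrable
    rw [uIcc_of_le hl.le]
    exact continuousOn_const.mul hs1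
  have hii2 : IntervalIntegrable (fun s => C * (‖f (P.σ j s) - v‖ * P.K ξ j s)) volume 0 (P.ℓ j) := by
    apply ContinuousOn.intervalIntegrable
    rw [uIcc_of_le hl.le]
    exact continuousOn_const.mul hs2
  rw [mul_add]
  by_cases hkin : A ≤ k ∧ k < B
  · have e : sg k = -1 := by simp only [hsg]; rw [if_pos hkin]
    have hbd : ‖g k‖ ≤ ∫ s in (0 : ℝ)..P.ℓ j, C * (‖f (P.σ j s) + v‖ * P.K τ j s) := by
      simp only [hg]
      rw [← hj]
      apply side_norm_le hl.le hii1
      intro s hs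
      rw [norm_smul, t_norm, one_mul, norm_mul, e]
      have e3 : f (P.σ j s) - -1 * v = f (P.σ j s) + v := by ring
      rw [e3]
      have h4 := hin k hkin.1 hkin.2 s hs
      rw [← hj] at h4
      calc ‖f (P.σ j s) + v‖ * ‖Ed (P.σ j s)‖ ≤ ‖f (P.σ j s) + v‖ * (C * P.K τ j s) :=
            mul_le_mul_of_nonneg_left h4 (norm_nonneg _)
        _ = _ := by ring
    rw [intervalIntegral.integral_const_mul] at hbd
    have : 0 ≤ C * ∫ s in (0 : ℝ)..P.ℓ j, ‖f (P.σ j s) - v‖ * P.K ξ j s := mul_nonneg hC0 hn2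
    linarith
  · have e : sg k = 1 := by simp only [hsg]; rw [if_neg hkin]
    have hbd : ‖g k‖ ≤ ∫ s in (0 : ℝ)..P.ℓ j, C * (‖f (P.σ j s) - v‖ * P.K ξ j s) := by
      simp only [hg]
      rw [← hj]
      apply side_norm_le hl.le hii2
      intro s hs
      rw [norm_smul, t_norm, one_mul, norm_mul, e, one_mul]
      have h4 := hout k hk' hkin s hs
      rw [← hj] at h4
      calc ‖f (P.σ j s) - v‖ * ‖Ed (P.σ j s)‖ ≤ ‖f (P.σ j s) - v‖ * (C * P.K ξ j s) :=
            mul_le_mul_of_nonneg_left h4 (norm_nonneg _)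
        _ = _ := by ring
    rw [intervalIntegral.integral_const_mul] at hbd
    have : 0 ≤ C * ∫ s in (0 : ℝ)..P.ℓ j, ‖f (P.σ j s) + v‖ * P.K τ j s := mul_nonneg hC0 hn1
    linarith

end Pgn

end Vale.Agent.Lib.P123
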