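import Vale.Agent.Lib.P123.Pg10

open Complex ComplexConjugate MeasureTheory Set Filter Topology
open scoped Interval

set_option linter.unusedSectionVars false

namespace Vale.Agent.Lib.P123

namespace Pgn

variable {P : Pgn}

/-- A chord without flat sides. -/
structure Chd (P : Pgn) where
  τ : ℂ
  ξ : ℂ
  κ : ℝ
  i : ℤ
  i' : ℤ
  hκ0 : 0 < κ
  hκ1 : κ ≤ 1
  hτ : τ ∈ P.Ob
  hξ : ξ ∈ P.Ob
  hi : P.h i τ = 0
  hi' : P.h i' ξ = 0
  ha : 0 < ‖ξ - τ‖
  nf : ∀ j : ℤ, κ * ‖ξ - τ‖ ≤ max (P.h j τ) (P.h j ξ)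

namespace Chd

variable (c : Chd P)

/-- chord vector -/
noncomputable def w : ℂ := c.ξ - c.τ

/-- chord length -/
noncomputable def a : ℝ := ‖c.ξ - c.τ‖

/-- first pole -/
noncomputable def c₁ : ℂ := c.τ - c.w

/-- second pole -/
noncomputable def c₂ : ℂ := c.ξ + c.w

/-- the derivative of the test function -/
noncomputable def Ed (z : ℂ) : ℂ := 3 * c.w / ((z - c.c₁) * (c.c₂ - z))

/-- normalized coordinate -/
noncomputable def u (z : ℂ) : ℂ := (z - c.τ) / c.w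

/-- the test function -/
noncomputable def E (z : ℂ) : ℂ := log (mobU (c.u z))

theorem a_pos : 0 < c.a := c.ha

theorem w_ne : c.w ≠ 0 := by
  intro h
  have h1 : c.a = 0 := by
    unfold a
    have : c.ξ - c.τ = 0 := h
    rw [this, norm_zero]
  exact c.a_pos.ne' h1

theorem norm_w : ‖c.w‖ = c.a := rfl

theorem nf_a (j : ℤ) : c.κ * c.a ≤ max (P.h j c.τ) (P.h j c.ξ) := c.nf j

theorem dot_w (j : ℤ) : P.dot j c.w = P.h j c.τ - P.h j c.ξ := (P.h_sub_dot j c.τ c.ξ).symm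

theorem κa_pos : 0 < c.κ * c.a := mul_pos c.hκ0 c.a_pos

theorem hiξ : c.κ * c.a ≤ P.h c.i c.ξ := by
  have := c.nf_a c.i
  rw [c.hi] at this
  rcases le_max_iff.1 this with h | h
  · exfalso
    have := c.κa_pos
    linarith
  · exact h

theorem hi'τ : c.κ * c.a ≤ P.h c.i' c.τ := by
  have := c.nf_a c.i'
  rw [c.hi'] at this
  rcases le_max_iff.1 this with h | h
  · exact h
  · exfalso
    have := c.κa_pos
    linarith

/-- the height at the first pole -/
theorem h_c₁ (j : ℤ) : P.h j c.c₁ = 2 * P.h j c.τ - P.h j c.ξ := by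
  have h1 := P.h_sub_dot j c.τ c.c₁
  have h2 : c.c₁ - c.τ = - c.w := by unfold c₁; ring
  rw [h2] at h1
  have h3 : P.dot j (- c.w) = - P.dot j c.w := by
    simp [dot]; ring
  rw [h3, c.dot_w] at h1
  linarith

theorem h_c₂ (j : ℤ) : P.h j c.c₂ = 2 * P.h j c.ξ - P.h j c.τ := by
  have h1 := P.h_sub_dot j c.ξ c.c₂
  have h2 : c.c₂ - c.ξ = c.w := by unfold c₂; ring
  rw [h2, c.dot_w] at h1
  linarith

theorem low₁ {z : ℂ} (hz : z ∈ P.Ob) : c.κ * c.a ≤ ‖z - c.c₁‖ := by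
  have h1 := P.abs_h_sub_le c.i z c.c₁
  have h2 := (le_abs_self _).trans h1
  rw [c.h_c₁, c.hi] at h2
  have h3 := hz c.i
  have h4 := c.hiξ
  linarith

theorem low₂ {z : ℂ} (hz : z ∈ P.Ob) : c.κ * c.a ≤ ‖z - c.c₂‖ := by
  have h1 := P.abs_h_sub_le c.i' z c.c₂
  have h2 := (le_abs_self _).trans h1
  rw [c.h_c₂, c.hi'] at h2
  have h3 := hz c.i'
  have h4 := c.hi'τ
  linarith

theorem ne₁ {z : ℂ} (hz : z ∈ P.Ob) : z - c.c₁ ≠ 0 := by
  intro h
  have := c.low₁ hz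
  rw [h, norm_zero] at this
  linarith [c.κa_pos]

theorem ne₂ {z : ℂ} (hz : z ∈ P.Ob) : c.c₂ - z ≠ 0 := by
  intro h
  have h1 := c.low₂ hz
  have h2 : z - c.c₂ = 0 := by linear_combination - h
  rw [h2, norm_zero] at h1
  linarith [c.κa_pos]

/-- a general comparison of distances -/
theorem cmp_aux {z p q : ℂ} (hq : c.κ * c.a ≤ ‖z - q‖) (hpq : ‖q - p‖ ≤ 2 * c.a) :
    c.κ * ‖z - p‖ ≤ 3 * ‖z - q‖ := by
  have h1 : ‖z - p‖ ≤ ‖z - q‖ + ‖q - p‖ := by
    have : z - p = (z - q) + (q - p) := by ring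
    rw [this]
    exact norm_add_le _ _
  have hκ0 := c.hκ0
  have hκ1 := c.hκ1
  have hn := norm_nonneg (z - q)
  have hn2 := norm_nonneg (q - p)
  calc c.κ * ‖z - p‖ ≤ c.κ * (‖z - q‖ + ‖q - p‖) := mul_le_mul_of_nonneg_left h1 hκ0.le
    _ ≤ c.κ * ‖z - q‖ + c.κ * (2 * c.a) := by
        have := mul_le_mul_of_nonneg_left hpq hκ0.le
        linarith
    _ ≤ 1 * ‖z - q‖ + 2 * ‖z - q‖ := by
        have h5 : c.κ * ‖z - q‖ ≤ 1 * ‖z - q‖ := mul_le_mul_of_nonneg_right hκ1 hn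
        nlinarith
    _ = 3 * ‖z - q‖ := by ring

theorem c₁_sub_τ : ‖c.c₁ - c.τ‖ ≤ 2 * c.a := by
  have : c.c₁ - c.τ = - c.w := by unfold c₁; ring
  rw [this, norm_neg, c.norm_w]
  linarith [c.a_pos]

theorem c₁_sub_ξ : ‖c.c₁ - c.ξ‖ ≤ 2 * c.a := by
  have : c.c₁ - c.ξ = - ((2 : ℂ) * c.w) := by unfold c₁ w; ring
  rw [this, norm_neg, norm_mul, c.norm_w]
  simp

theorem c₂_sub_τ : ‖c.c₂ - c.τ‖ ≤ 2 * c.a := by
  have : c.c₂ - c.τ = (2 : ℂ) * c.w := by unfold c₂ w; ring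
  rw [this, norm_mul, c.norm_w]
  simp

theorem c₂_sub_ξ : ‖c.c₂ - c.ξ‖ ≤ 2 * c.a := by
  have : c.c₂ - c.ξ = c.w := by unfold c₂; ring
  rw [this, c.norm_w]
  linarith [c.a_pos]

/-- the kernel comparison -/
theorem Ed_bound {z p : ℂ} (hz : z ∈ P.Ob) (h1 : c.κ * ‖z - p‖ ≤ 3 * ‖z - c.c₁‖)
    (h2 : c.κ * ‖z - p‖ ≤ 3 * ‖z - c.c₂‖) :
    c.κ ^ 2 * (‖c.Ed z‖ * ‖z - p‖ ^ 2) ≤ 27 * c.a := by
  unfold Ed
  have hn1 := c.ne₁ hz
  have hn2 := c.ne₂ hz
  have e : ‖c.c₂ - z‖ = ‖z - c.c₂‖ := norm_sub_rev _ _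
  rw [norm_div, norm_mul, norm_mul, c.norm_w, e]
  have hp1 : 0 < ‖z - c.c₁‖ := norm_pos_iff.2 hn1
  have hp2 : 0 < ‖z - c.c₂‖ := by
    rw [← e]
    exact norm_pos_iff.2 hn2
  have e3 : ‖(3 : ℂ)‖ = 3 := by simp
  rw [e3]
  have hprod : (c.κ * ‖z - p‖) * (c.κ * ‖z - p‖) ≤ (3 * ‖z - c.c₁‖) * (3 * ‖z - c.c₂‖) :=
    mul_le_mul h1 h2 (mul_nonneg c.hκ0.le (norm_nonneg _)) (by positivity)
  have e4 : c.κ ^ 2 * (3 * c.a / (‖z - c.c₁‖ * ‖z - c.c₂‖) * ‖z - p‖ ^ 2) =
      (3 * c.a / (‖z - c.c₁‖ * ‖z - c.c₂‖)) * ((c.κ * ‖z - p‖) * (c.κ * ‖z - p‖)) := by ring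
  rw [e4]
  have ha := c.a_pos
  calc (3 * c.a / (‖z - c.c₁‖ * ‖z - c.c₂‖)) * ((c.κ * ‖z - p‖) * (c.κ * ‖z - p‖))
      ≤ (3 * c.a / (‖z - c.c₁‖ * ‖z - c.c₂‖)) * ((3 * ‖z - c.c₁‖) * (3 * ‖z - c.c₂‖)) :=
        mul_le_mul_of_nonneg_left hprod (by positivity)
    _ = 27 * c.a := by
        field_simp
        ring

/-- The bound of the derivative by the kernel on a side -/
theorem Ed_le_K {j : ℤ} {s : ℝ} (hs : P.σ j s ∈ P.Ob) {p : ℂ} {κ₁ : ℝ} (hκ₁ : 0 < κ₁)
    (h1 : c.κ * ‖P.σ j s - p‖ ≤ 3 * ‖P.σ j s - c.c₁‖)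
    (h2 : c.κ * ‖P.σ j s - p‖ ≤ 3 * ‖P.σ j s - c.c₂‖) (hp : κ₁ * c.a ≤ P.h j p) :
    ‖c.Ed (P.σ j s)‖ ≤ (27 * Real.pi / (c.κ ^ 2 * κ₁)) * P.K p j s := by
  have hb := c.Ed_bound hs h1 h2
  have ha := c.a_pos
  have hκ0 := c.hκ0
  have hpi := Real.pi_pos
  have hhp : 0 < P.h j p := lt_of_lt_of_le (by positivity) hp
  have hd : 0 < ‖P.σ j s - p‖ := by
    rw [norm_pos_iff]
    intro h0
    have e : P.σ j s = p := sub_eq_zero.1 h0
    have := P.h_σ_self j s
    rw [e] at this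
    linarith
  unfold K
  have e : (27 * Real.pi / (c.κ ^ 2 * κ₁)) * (P.h j p / (Real.pi * ‖P.σ j s - p‖ ^ 2)) =
      27 * P.h j p / (c.κ ^ 2 * κ₁ * ‖P.σ j s - p‖ ^ 2) := by
    field_simp
  rw [e, le_div_iff₀ (by positivity)]
  have h3 : 27 * (κ₁ * c.a) ≤ 27 * P.h j p := by linarith
  have e2 : ‖c.Ed (P.σ j s)‖ * (c.κ ^ 2 * κ₁ * ‖P.σ j s - p‖ ^ 2) =
      κ₁ * (c.κ ^ 2 * (‖c.Ed (P.σ j s)‖ * ‖P.σ j s - p‖ ^ 2)) := by ring
  rw [e2]
  have h4 := mul_le_mul_of_nonneg_left hb hκ₁.le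
  linarith

theorem dot_mul (j : ℤ) (p q : ℂ) : P.dot j (p * q) = p.re * P.dot j q + p.im * P.dot j (I * q) := by
  simp only [dot, mul_re, mul_im, I_re, I_im]
  ring

theorem z_sub (z : ℂ) : z - c.τ = c.u z * c.w := by
  unfold u
  field_simp [c.w_ne]

/-- the height function along the normalized coordinate -/
theorem dot_u (j : ℤ) (z : ℂ) : P.h j c.τ - P.h j z =
    (c.u z).re * (P.h j c.τ - P.h j c.ξ) + (c.u z).im * P.dot j (I * c.w) := by
  rw [P.h_sub_dot, c.z_sub, dot_mul, c.dot_w]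

theorem abs_dot_I (j : ℤ) : |P.dot j (I * c.w)| ≤ c.a := by
  refine (P.dot_le_norm j _).trans ?_
  rw [norm_mul, norm_I, one_mul, c.norm_w]

theorem norm_z_sub (z : ℂ) : ‖z - c.τ‖ = ‖c.u z‖ * c.a := by
  rw [c.z_sub, norm_mul, c.norm_w]

/-- The point of the polygon has nonnegative coordinate along the chord if it is real. -/
theorem u_mem_of_im_zero {z : ℂ} (hz : z ∈ P.Ob) (him : (c.u z).im = 0) :
    0 ≤ (c.u z).re ∧ (c.u z).re ≤ 1 := by
  have h1 := c.dot_u c.i z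
  have h2 := c.dot_u c.i' z
  rw [him, zero_mul, add_zero] at h1 h2
  rw [c.hi] at h1
  rw [c.hi'] at h2
  have h3 := hz c.i
  have h4 := hz c.i'
  have h5 := c.hiξ
  have h6 := c.hi'τ
  have hp := c.κa_pos
  constructor
  · by_contra hcon
    push_neg at hcon
    have : (c.u z).re * (0 - P.h c.i c.ξ) > 0 := by
      apply mul_pos_of_neg_of_neg hcon
      linarith
    linarith
  · by_contra hcon
    push_neg at hcon
    have : (c.u z).re * (P.h c.i' c.τ - 0) > P.h c.i' c.τ - 0 := by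
      have h7 : 0 < P.h c.i' c.τ - 0 := by linarith
      nlinarith
    linarith

theorem mobU_eq {z : ℂ} (hz : z ∈ P.Ob) : mobU (c.u z) = (z - c.c₁) / (c.c₂ - z) := by
  have hw := c.w_ne
  have h2 := c.ne₂ hz
  have e1 : z - c.c₁ = (1 + c.u z) * c.w := by
    have := c.z_sub z
    unfold c₁
    linear_combination this
  have e2 : c.c₂ - z = (2 - c.u z) * c.w := by
    have := c.z_sub z
    unfold c₂ w at *
    linear_combination - this
  unfold mobU
  rw [e1, e2, mul_div_mul_right _ _ hw]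

theorem mobU_mem {z : ℂ} (hz : z ∈ P.Ob) : mobU (c.u z) ∈ slitPlane := by
  rw [Complex.mem_slitPlane_iff]
  by_cases him : (c.u z).im = 0
  · left
    obtain ⟨h1, h2⟩ := c.u_mem_of_im_zero hz him
    have hne : (2 : ℂ) - c.u z ≠ 0 := by
      intro h
      have := congrArg Complex.re h
      simp at this
      linarith
    have hN : 0 < normSq (2 - c.u z) := Complex.normSq_pos.2 hne
    rw [mobU_re, him]
    apply div_pos _ hN
    nlinarith
  · right
    have hne := ne_two_of_im him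
    have hN : 0 < normSq (2 - c.u z) := Complex.normSq_pos.2 hne
    rw [mobU_im]
    apply div_ne_zero _ hN.ne'
    exact mul_ne_zero (by norm_num) him

/-- The derivative of the test function. -/
theorem hasDeriv_E {z : ℂ} (hz : z ∈ P.Ob) : HasDerivAt c.E (c.Ed z) z := by
  have h1 := c.ne₁ hz
  have h2 := c.ne₂ hz
  have hρ : HasDerivAt (fun ζ => (ζ - c.c₁) / (c.c₂ - ζ))
      ((1 * (c.c₂ - z) - (z - c.c₁) * (-1)) / (c.c₂ - z) ^ 2) z := by
    have a1 : HasDerivAt (fun ζ : ℂ => ζ - c.c₁) 1 z := (hasDerivAt_id z).sub_const _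
    have a2 : HasDerivAt (fun ζ : ℂ => c.c₂ - ζ) (-1) z := (hasDerivAt_id z).const_sub _
    exact a1.div a2 h2
  have hmem : (z - c.c₁) / (c.c₂ - z) ∈ slitPlane := by
    rw [← c.mobU_eq hz]
    exact c.mobU_mem hz
  have hlog := hρ.clog hmem
  have hev : c.E =ᶠ[𝓝 z] fun ζ => log ((ζ - c.c₁) / (c.c₂ - ζ)) := by
    have hne1 : ∀ᶠ ζ in 𝓝 z, ζ - c.c₁ ≠ 0 := by
      have : ContinuousAt (fun ζ : ℂ => ζ - c.c₁) z := by fun_prop
      exact this.eventually_ne h1
    have hne2 : ∀ᶠ ζ in 𝓝 z, c.c₂ - ζ ≠ 0 := by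
      have : ContinuousAt (fun ζ : ℂ => c.c₂ - ζ) z := by fun_prop
      exact this.eventually_ne h2
    filter_upwards [hne2] with ζ h3
    unfold E
    congr 1
    have hw := c.w_ne
    have e1 : ζ - c.c₁ = (1 + c.u ζ) * c.w := by
      have := c.z_sub ζ
      unfold c₁
      linear_combination this
    have e2 : c.c₂ - ζ = (2 - c.u ζ) * c.w := by
      have := c.z_sub ζ
      unfold c₂ w at *
      linear_combination - this
    unfold mobU
    rw [e1, e2, mul_div_mul_right _ _ hw]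
  have hfinal := hlog.congr_of_eventuallyEq hev
  have e : (1 * (c.c₂ - z) - (z - c.c₁) * (-1)) / (c.c₂ - z) ^ 2 / ((z - c.c₁) / (c.c₂ - z)) = c.Ed z := by
    unfold Ed
    have e3 : (1 * (c.c₂ - z) - (z - c.c₁) * (-1)) = 3 * c.w := by
      unfold c₁ c₂ w
      ring
    rw [e3]
    field_simp
  rwa [e] at hfinal

theorem Ed_diff {z : ℂ} (hz : z ∈ P.Ob) : DifferentiableAt ℂ c.Ed z := by
  unfold Ed
  apply DifferentiableAt.div (differentiableAt_const _)
  · fun_prop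
  · exact mul_ne_zero (c.ne₁ hz) (c.ne₂ hz)

theorem Ed_dcc : DiffContOnCl ℂ c.Ed P.Om := by
  apply DifferentiableOn.diffContOnCl
  rw [P.closure_Om]
  intro z hz
  exact (c.Ed_diff hz).differentiableWithinAt

/-- Lemma on the height of a corner. -/
theorem corner_height {z : ℂ} (hz : z ∈ P.Ob) {j₀ j₁ : ℤ} (h0 : P.h j₀ z = 0) (h1 : P.h j₁ z = 0)
    (hj₀ : P.h j₀ c.τ < c.κ * c.a / 2) (hj₁ : c.κ * c.a / 2 ≤ P.h j₁ c.τ) :
    c.κ ^ 2 / 6 ≤ |(c.u z).im| := by
  set X := (c.u z).re with hX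
  set Y := (c.u z).im with hY
  have hκ0 := c.hκ0
  have hκ1 := c.hκ1
  have ha := c.a_pos
  have hp := c.κa_pos
  -- bound for the positive part of `X`
  have hξ0 : c.κ * c.a ≤ P.h j₀ c.ξ := by
    rcases le_max_iff.1 (c.nf_a j₀) with h | h
    · exfalso; linarith
    · exact h
  have a0 := c.dot_u j₀ z
  rw [h0, sub_zero, ← hX, ← hY] at a0
  have hY0 : Y * P.dot j₀ (I * c.w) ≤ |Y| * c.a := by
    calc Y * P.dot j₀ (I * c.w) ≤ |Y * P.dot j₀ (I * c.w)| := le_abs_self _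
      _ = |Y| * |P.dot j₀ (I * c.w)| := abs_mul _ _
      _ ≤ |Y| * c.a := mul_le_mul_of_nonneg_left (c.abs_dot_I j₀) (abs_nonneg _)
  have hτ0 := c.hτ j₀
  have hXu : c.κ * X ≤ 2 * |Y| := by
    by_cases hXs : X ≤ 0
    · have : c.κ * X ≤ 0 := mul_nonpos_of_nonneg_of_nonpos hκ0.le hXs
      have := abs_nonneg Y
      linarith
    · push_neg at hXs
      have h2 : X * (c.κ * c.a / 2) ≤ X * (P.h j₀ c.ξ - P.h j₀ c.τ) :=
        mul_le_mul_of_nonneg_left (by linarith) hXs.le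
      have h3 : X * (P.h j₀ c.ξ - P.h j₀ c.τ) ≤ |Y| * c.a := by nlinarith
      have h4 : (c.κ * X) * c.a ≤ (2 * |Y|) * c.a := by nlinarith
      exact le_of_mul_le_mul_right h4 ha
  have a1 := c.dot_u c.i z
  rw [c.hi, ← hX, ← hY] at a1
  have hY1 : - (|Y| * c.a) ≤ Y * P.dot c.i (I * c.w) := by
    have h3 : |Y * P.dot c.i (I * c.w)| ≤ |Y| * c.a := by
      rw [abs_mul]
      exact mul_le_mul_of_nonneg_left (c.abs_dot_I c.i) (abs_nonneg _)
    exact (abs_le.1 h3).1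
  have hXl : - (c.κ * X) ≤ |Y| := by
    by_cases hXs : 0 ≤ X
    · have : 0 ≤ c.κ * X := mul_nonneg hκ0.le hXs
      have := abs_nonneg Y
      linarith
    · push_neg at hXs
      have h5 := c.hiξ
      have h6 := hz c.i
      have h2 : (-X) * (c.κ * c.a) ≤ (-X) * P.h c.i c.ξ :=
        mul_le_mul_of_nonneg_left h5 (by linarith)
      have h4 : (- (c.κ * X)) * c.a ≤ |Y| * c.a := by nlinarith
      exact le_of_mul_le_mul_right h4 ha
  have hYa := abs_nonneg Y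
  have hAbsX : c.κ * |X| ≤ 2 * |Y| := by
    rcases abs_cases X with ⟨h, _⟩ | ⟨h, _⟩
    · rw [h]; exact hXu
    · rw [h]; linarith
  have hu : ‖c.u z‖ ≤ |X| + |Y| := Complex.norm_le_abs_re_add_abs_im _
  have hκu : c.κ * ‖c.u z‖ ≤ 3 * |Y| := by
    calc c.κ * ‖c.u z‖ ≤ c.κ * (|X| + |Y|) := mul_le_mul_of_nonneg_left hu hκ0.le
      _ = c.κ * |X| + c.κ * |Y| := by ring
      _ ≤ 2 * |Y| + 1 * |Y| := add_le_add hAbsX (mul_le_mul_of_nonneg_right hκ1 hYa)
      _ = 3 * |Y| := by ring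
  have hlow : c.κ / 2 ≤ ‖c.u z‖ := by
    have h3 := P.abs_h_sub_le j₁ c.τ z
    rw [h1, sub_zero, norm_sub_rev, c.norm_z_sub] at h3
    have h4 := (le_abs_self _).trans h3
    have h5 : (c.κ / 2) * c.a ≤ ‖c.u z‖ * c.a := by linarith
    exact le_of_mul_le_mul_right h5 ha
  have : c.κ * (c.κ / 2) ≤ c.κ * ‖c.u z‖ := mul_le_mul_of_nonneg_left hlow hκ0.le
  nlinarith

/-- The lower bound for heights above sides between the two corners. -/
theorem side_up (ς : ℤ) (hς : ς = 1 ∨ ς = -1) {A k : ℕ} (hA1 : 1 ≤ A) (hAk : A ≤ k)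
    (hk : (k : ℝ) * P.D ≤ Real.pi) (hA : c.κ * c.a / 2 ≤ P.h (c.i + ς * A) c.τ) :
    c.κ ^ 2 / 16 * c.a ≤ P.h (c.i + ς * k) c.τ := by
  have hκ0 := c.hκ0
  have hκ1 := c.hκ1
  have ha := c.a_pos
  have hD := P.D_pos
  have hpi := Real.pi_pos
  have hAk' : (A : ℝ) ≤ k := by exact_mod_cast hAk
  have hA1' : (1 : ℝ) ≤ A := by exact_mod_cast hA1
  have hAD0 : 0 < (A : ℝ) * P.D := by positivity
  have hADk : (A : ℝ) * P.D ≤ (k : ℝ) * P.D := mul_le_mul_of_nonneg_right hAk' hD.le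
  have hτk := c.hτ (c.i + ς * k)
  have hκa := c.κa_pos
  have hsq : c.κ ^ 2 / 16 * c.a ≤ c.κ * c.a / 2 := by
    have : c.κ ^ 2 ≤ c.κ := by nlinarith
    nlinarith
  by_cases hnear : Real.pi - (k : ℝ) * P.D ≤ c.κ / 4
  · -- the side is nearly opposite
    set φ := Real.pi - (k : ℝ) * P.D with hφ
    have hφ0 : 0 ≤ φ := by rw [hφ]; linarith
    have hcos : Real.cos ((k : ℝ) * P.D) ≤ - (31 / 32) := by
      have e : (k : ℝ) * P.D = Real.pi - φ := by rw [hφ]; ring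
      rw [e, Real.cos_pi_sub]
      have h1 := Real.one_sub_sq_div_two_le_cos (x := φ)
      have h2 : φ ^ 2 ≤ (c.κ / 4) ^ 2 := pow_le_pow_left₀ hφ0 hnear 2
      nlinarith
    have hsin0 : 0 ≤ Real.sin ((k : ℝ) * P.D) :=
      Real.sin_nonneg_of_nonneg_of_le_pi (by positivity) hk
    have hsin1 : Real.sin ((k : ℝ) * P.D) ≤ c.κ / 4 := by
      have e : (k : ℝ) * P.D = Real.pi - φ := by rw [hφ]; ring
      rw [e, Real.sin_pi_sub]
      exact (Real.sin_le hφ0).trans hnear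
    -- the formula for the dot product
    have hς' : ((ς : ℤ) : ℝ) = 1 ∨ ((ς : ℤ) : ℝ) = -1 := by
      rcases hς with rfl | rfl
      · left; simp
      · right; simp
    have eθ : P.θ (c.i + ς * k) = P.θ c.i + (ς : ℝ) * ((k : ℝ) * P.D) := by
      unfold θ; push_cast; ring
    have hdot : P.dot (c.i + ς * k) c.w = Real.cos ((k : ℝ) * P.D) * P.dot c.i c.w -
        (ς : ℝ) * Real.sin ((k : ℝ) * P.D) * P.dot c.i (I * c.w) := by
      simp only [dot, eθ, mul_re, mul_im, I_re, I_im]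
      rcases hς' with h | h
      · rw [h]
        simp only [one_mul, Real.cos_add, Real.sin_add]
        ring
      · rw [h]
        simp only [neg_mul, one_mul, Real.cos_neg, Real.sin_neg, Real.cos_add, Real.sin_add]
        ring
    have h1 : P.dot c.i c.w ≤ - (c.κ * c.a) := by
      rw [c.dot_w, c.hi]
      linarith [c.hiξ]
    have h2 : |(ς : ℝ) * Real.sin ((k : ℝ) * P.D) * P.dot c.i (I * c.w)| ≤ c.κ / 4 * c.a := by
      rw [abs_mul, abs_mul]
      have e : |((ς : ℤ) : ℝ)| = 1 := by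
        rcases hς' with h | h <;> rw [h] <;> simp
      rw [e, one_mul, abs_of_nonneg hsin0]
      exact mul_le_mul hsin1 (c.abs_dot_I c.i) (abs_nonneg _) (by positivity)
    have h3 := (abs_le.1 h2).2
    have h4 : Real.cos ((k : ℝ) * P.D) * P.dot c.i c.w ≥ 31 / 32 * (c.κ * c.a) := by
      nlinarith
    have h5 := c.dot_w (c.i + ς * k)
    have h6 := c.hξ (c.i + ς * k)
    have h7 : c.κ * c.a / 2 ≤ P.dot (c.i + ς * k) c.w := by
      rw [hdot]
      have : c.κ / 4 * c.a = (1 / 4) * (c.κ * c.a) := by ring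
      linarith
    linarith
  · -- the side is not opposite
    push_neg at hnear
    have hkπ : (k : ℝ) * P.D < Real.pi := by
      have : 0 < c.κ / 4 := by positivity
      linarith
    have hmono := P.h_mono c.hτ c.hi ς hς hA1 hAk hk
    have hsinA : 0 < Real.sin ((A : ℝ) * P.D) :=
      Real.sin_pos_of_pos_of_lt_pi hAD0 (lt_of_le_of_lt hADk hkπ)
    by_cases hhalf : (k : ℝ) * P.D ≤ Real.pi / 2
    · have hs : Real.sin ((A : ℝ) * P.D) ≤ Real.sin ((k : ℝ) * P.D) :=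
        Real.sin_le_sin_of_le_of_le_pi_div_two (by linarith) hhalf hADk
      have h1 : (c.κ * c.a / 2) * Real.sin ((A : ℝ) * P.D) ≤
          P.h (c.i + ς * k) c.τ * Real.sin ((A : ℝ) * P.D) := by
        calc (c.κ * c.a / 2) * Real.sin ((A : ℝ) * P.D)
            ≤ P.h (c.i + ς * A) c.τ * Real.sin ((k : ℝ) * P.D) :=
              mul_le_mul hA hs hsinA.le ((by linarith : (0 : ℝ) ≤ c.κ * c.a / 2).trans hA)
          _ ≤ _ := hmono
      have := le_of_mul_le_mul_right h1 hsinA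
      linarith
    · push_neg at hhalf
      set φ := Real.pi - (k : ℝ) * P.D with hφ
      have hφ0 : 0 ≤ φ := by rw [hφ]; linarith
      have hφ1 : φ ≤ Real.pi / 2 := by rw [hφ]; linarith
      have hs : c.κ / 8 ≤ Real.sin ((k : ℝ) * P.D) := by
        have e : (k : ℝ) * P.D = Real.pi - φ := by rw [hφ]; ring
        rw [e, Real.sin_pi_sub]
        have h1 := Real.mul_le_sin hφ0 hφ1
        have h2 : (1 / 2 : ℝ) ≤ 2 / Real.pi := by
          rw [le_div_iff₀ hpi]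
          linarith [Real.pi_le_four]
        have h3 : (1 / 2 : ℝ) * φ ≤ 2 / Real.pi * φ := mul_le_mul_of_nonneg_right h2 hφ0
        linarith
      have h1 : P.h (c.i + ς * k) c.τ * Real.sin ((A : ℝ) * P.D) ≤ P.h (c.i + ς * k) c.τ := by
        have := Real.sin_le_one ((A : ℝ) * P.D)
        nlinarith
      have h2 : (c.κ * c.a / 2) * (c.κ / 8) ≤ P.h (c.i + ς * A) c.τ * Real.sin ((k : ℝ) * P.D) :=
        mul_le_mul hA hs (by positivity) ((by linarith : (0 : ℝ) ≤ c.κ * c.a / 2).trans hA)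
      have e : c.κ ^ 2 / 16 * c.a = (c.κ * c.a / 2) * (c.κ / 8) := by ring
      linarith

end Chd

theorem Th_mono_side (i : ℤ) {τ : ℂ} (hτ : τ ∈ P.Ob) (hi : P.h i τ = 0) {j : ℤ} (hj : 0 < P.h j τ) :
    MonotoneOn (fun s => P.Th i τ (P.σ j s)) (Icc 0 (P.ℓ j)) := by
  apply monotoneOn_of_deriv_nonneg (convex_Icc _ _) (P.Th_cont_side i hi hj)
  · intro s hs
    rw [interior_Icc] at hs
    exact (P.Th_deriv i hi hj (Ioo_subset_Icc_self hs)).differentiableAt.differentiableWithinAt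
  · intro s hs
    rw [interior_Icc] at hs
    rw [(P.Th_deriv i hi hj (Ioo_subset_Icc_self hs)).deriv]
    exact mul_nonneg Real.pi_pos.le (P.K_nonneg hτ j s)

theorem Th_vertex_mono {i : ℤ} {s₀ : ℝ} (h0 : 0 < s₀) (h1 : s₀ < P.ℓ i) {k : ℕ} (hk : 1 ≤ k) :
    ∀ l : ℕ, k ≤ l → l ≤ P.m → P.Th i (P.σ i s₀) (P.v (i + k)) ≤ P.Th i (P.σ i s₀) (P.v (i + l)) := by
  intro l hl
  induction l, hl using Nat.le_induction with
  | base => intro _; exact le_rfl
  | succ l hl ih =>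
    intro hlm
    refine (ih (by omega)).trans ?_
    have hpos := P.h_pos_other h0 h1 l (by omega) (by omega)
    have hm := Th_mono_side i (P.σ_mem_Ob' h0 h1) (P.h_σ_self i s₀) hpos
    have hlp := (P.ℓ_pos (i + l)).le
    have := hm (left_mem_Icc.2 hlp) (right_mem_Icc.2 hlp) hlp
    simp only at this
    rw [σ_zero, ← v_succ] at this
    have e : i + ((l + 1 : ℕ) : ℤ) = i + l + 1 := by push_cast; ring
    rw [e]
    exact this

theorem im_div_le {p q : ℂ} (hp : 0 ≤ p.re) (hq : 0 ≤ q.re) (h : arg p ≤ arg q) : (p / q).im ≤ 0 := by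
  have hA := (Complex.abs_arg_le_pi_div_two_iff).2 hp
  have hB := (Complex.abs_arg_le_pi_div_two_iff).2 hq
  have hA' := abs_le.1 hA
  have hB' := abs_le.1 hB
  have hs : Real.sin (arg p - arg q) ≤ 0 :=
    Real.sin_nonpos_of_nonpos_of_neg_pi_le (by linarith) (by linarith)
  have e : (p / q).im = (‖p‖ * ‖q‖ * Real.sin (arg p - arg q)) / normSq q := by
    rw [Complex.div_im, Real.sin_sub]
    have e1 := Complex.norm_mul_cos_arg p
    have e2 := Complex.norm_mul_sin_arg p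
    have e3 := Complex.norm_mul_cos_arg q
    have e4 := Complex.norm_mul_sin_arg q
    have e5 : ‖p‖ * ‖q‖ * (Real.sin (arg p) * Real.cos (arg q) - Real.cos (arg p) * Real.sin (arg q)) =
        (‖p‖ * Real.sin (arg p)) * (‖q‖ * Real.cos (arg q)) - (‖p‖ * Real.cos (arg p)) * (‖q‖ * Real.sin (arg q)) := by
      ring
    rw [e5, e1, e2, e3, e4]
    ring
  rw [e]
  apply div_nonpos_of_nonpos_of_nonneg
  · exact mul_nonpos_of_nonneg_of_nonpos (by positivity) hs
  · exact Complex.normSq_nonneg _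

theorem im_div_ge {p q : ℂ} (hp : 0 ≤ p.re) (hq : 0 ≤ q.re) (h : arg q ≤ arg p) : 0 ≤ (p / q).im := by
  have hA := (Complex.abs_arg_le_pi_div_two_iff).2 hp
  have hB := (Complex.abs_arg_le_pi_div_two_iff).2 hq
  have hA' := abs_le.1 hA
  have hB' := abs_le.1 hB
  have hs : 0 ≤ Real.sin (arg p - arg q) :=
    Real.sin_nonneg_of_nonneg_of_le_pi (by linarith) (by linarith)
  have e : (p / q).im = (‖p‖ * ‖q‖ * Real.sin (arg p - arg q)) / normSq q := by
    rw [Complex.div_im, Real.sin_sub]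
    have e1 := Complex.norm_mul_cos_arg p
    have e2 := Complex.norm_mul_sin_arg p
    have e3 := Complex.norm_mul_cos_arg q
    have e4 := Complex.norm_mul_sin_arg q
    have e5 : ‖p‖ * ‖q‖ * (Real.sin (arg p) * Real.cos (arg q) - Real.cos (arg p) * Real.sin (arg q)) =
        (‖p‖ * Real.sin (arg p)) * (‖q‖ * Real.cos (arg q)) - (‖p‖ * Real.cos (arg p)) * (‖q‖ * Real.sin (arg q)) := by
      ring
    rw [e5, e1, e2, e3, e4]
    ring
  rw [e]
  apply div_nonneg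
  · exact mul_nonneg (by positivity) hs
  · exact Complex.normSq_nonneg _

/-- the coordinate as a ratio -/
theorem Chd.u_eq_ratio (c : Chd P) (z : ℂ) :
    c.u z = (conj (P.n c.i) * (c.τ - z)) / (conj (P.n c.i) * (c.τ - c.ξ)) := by
  have hne := P.conj_n_ne c.i
  have hw : c.τ - c.ξ ≠ 0 := by
    intro h
    apply c.w_ne
    unfold Chd.w
    linear_combination - h
  rw [mul_div_mul_left _ _ hne]
  unfold Chd.u Chd.w
  field_simp [hw]
  have hw2 : c.ξ - c.τ ≠ 0 := c.w_ne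
  field_simp
  ring

/-- The main inequality for a chord without flat sides. -/
theorem final {f : ℂ → ℂ} (hf : DiffContOnCl ℂ f P.Om) {i : ℤ} {s₀ s₁ : ℝ} (h0 : 0 < s₀) (h1 : s₀ < P.ℓ i)
    {k' : ℕ} (hk1 : 1 ≤ k') (hk2 : k' < P.m) (h0' : 0 < s₁) (h1' : s₁ < P.ℓ (i + k')) {κ : ℝ}
    (hκ0 : 0 < κ) (hκ1 : κ ≤ 1)
    (nf : ∀ j : ℤ, κ * ‖P.σ (i + k') s₁ - P.σ i s₀‖ ≤ max (P.h j (P.σ i s₀)) (P.h j (P.σ (i + k') s₁))) :
    ‖f (P.σ i s₀)‖ * (κ ^ 2 / 6) ≤ (432 * Real.pi / κ ^ 4) *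
      (P.TT (fun w => ‖f w + f (P.σ i s₀)‖) (P.σ i s₀) +
        P.TT (fun w => ‖f w - f (P.σ i s₀)‖) (P.σ (i + k') s₁)) := by
  set τ := P.σ i s₀ with hτdef
  set ξ := P.σ (i + k') s₁ with hξdef
  have hτ : τ ∈ P.Ob := P.σ_mem_Ob' h0 h1
  have hξ : ξ ∈ P.Ob := P.σ_mem_Ob' h0' h1'
  have hiτ : P.h i τ = 0 := P.h_σ_self i s₀
  have hiξ : P.h (i + k') ξ = 0 := P.h_σ_self (i + k') s₁
  have hne : 0 < ‖ξ - τ‖ := by
    rw [norm_pos_iff]
    intro h
    have e : ξ = τ := sub_eq_zero.1 h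
    have h2 := P.h_pos_other h0 h1 k' hk1 hk2
    rw [← hτdef, ← e, hiξ] at h2
    exact lt_irrefl _ h2
  let c : Chd P := ⟨τ, ξ, κ, i, i + k', hκ0, hκ1, hτ, hξ, hiτ, hiξ, hne, nf⟩
  have hc : c.τ = τ := rfl
  have hcξ : c.ξ = ξ := rfl
  have hcκ : c.κ = κ := rfl
  have hci : c.i = i := rfl
  set a := c.a with ha
  have hapos : 0 < a := c.a_pos
  have hκa : 0 < κ * a := mul_pos hκ0 hapos
  have hm := P.hm
  have hmcast : ((P.m - k' : ℕ) : ℤ) = (P.m : ℤ) - k' := by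
    rw [Nat.cast_sub hk2.le]
  -- the two searches
  have hCrk : ∃ k : ℕ, κ * a / 2 ≤ P.h (i + k) τ := by
    refine ⟨k', ?_⟩
    have := c.hi'τ
    have e : c.i' = i + k' := rfl
    rw [e] at this
    change κ * a ≤ P.h (i + k') τ at this
    linarith
  have hper : ∀ (j : ℤ) (z : ℂ), P.h (j + P.m) z = P.h j z := P.h_add_m
  have hCrk' : ∃ k : ℕ, κ * a / 2 ≤ P.h (i - k) τ := by
    refine ⟨P.m - k', ?_⟩
    have := c.hi'τ
    have e : c.i' = i + k' := rfl
    rw [e] at this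
    change κ * a ≤ P.h (i + k') τ at this
    rw [hmcast]
    have e2 : i - ((P.m : ℤ) - k') + P.m = i + k' := by ring
    rw [← hper, e2]
    linarith
  classical
  set A := Nat.find hCrk with hA
  set B' := Nat.find hCrk' with hB'
  have hAsp : κ * a / 2 ≤ P.h (i + A) τ := Nat.find_spec hCrk
  have hBsp : κ * a / 2 ≤ P.h (i - B') τ := Nat.find_spec hCrk'
  have hAmin : ∀ k, k < A → P.h (i + k) τ < κ * a / 2 := by
    intro k hk
    have := Nat.find_min hCrk hk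
    simpa using this
  have hBmin : ∀ k, k < B' → P.h (i - k) τ < κ * a / 2 := by
    intro k hk
    have := Nat.find_min hCrk' hk
    simpa using this
  have hA0 : 1 ≤ A := by
    by_contra hcon
    have e : A = 0 := by omega
    rw [e] at hAsp
    simp only [Nat.cast_zero, add_zero] at hAsp
    rw [hiτ] at hAsp
    linarith
  have hB0 : 1 ≤ B' := by
    by_contra hcon
    have e : B' = 0 := by omega
    rw [e] at hBsp
    simp only [Nat.cast_zero, sub_zero] at hBsp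
    rw [hiτ] at hBsp
    linarith
  have hAk' : A ≤ k' := by
    apply Nat.find_min'
    have := c.hi'τ
    have e : c.i' = i + k' := rfl
    rw [e] at this
    change κ * a ≤ P.h (i + k') τ at this
    linarith
  have hBk' : B' ≤ P.m - k' := by
    apply Nat.find_min'
    have := c.hi'τ
    have e : c.i' = i + k' := rfl
    rw [e] at this
    change κ * a ≤ P.h (i + k') τ at this
    rw [hmcast]
    have e2 : i - ((P.m : ℤ) - k') + P.m = i + k' := by ring
    rw [← hper, e2]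
    linarith
  set B := P.m - B' + 1 with hB
  have hAB : A ≤ B := by omega
  have hBm : B ≤ P.m := by omega
  -- the inside sides
  have hin : ∀ k : ℕ, A ≤ k → k < B → κ ^ 2 / 16 * a ≤ P.h (i + k) τ := by
    intro k hk1' hk2'
    by_cases hkD : (k : ℝ) * P.D ≤ Real.pi
    · have := c.side_up 1 (Or.inl rfl) hA0 hk1' hkD (by
        rw [one_mul]; exact hAsp)
      rw [one_mul] at this
      exact this
    · push_neg at hkD
      have hl : k < P.m := by omega
      set l := P.m - k with hldef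
      have hl1 : 1 ≤ l := by omega
      have hlB : B' ≤ l := by omega
      have hlcast : ((l : ℕ) : ℝ) = (P.m : ℝ) - k := by
        rw [hldef, Nat.cast_sub hl.le]
      have hlD : (l : ℝ) * P.D ≤ Real.pi := by
        rw [hlcast, sub_mul, mul_comm (P.m : ℝ), P.D_mul_m]
        linarith
      have := c.side_up (-1) (Or.inr rfl) hB0 hlB hlD (by
        have e : i + (-1) * (B' : ℤ) = i - B' := by ring
        change κ * a / 2 ≤ P.h (i + (-1) * (B' : ℤ)) τ
        rw [e]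
        exact hAsp.trans' (le_refl _) |>.trans (le_of_eq rfl) |> fun _ => hBsp)
      have e2 : i + (k : ℤ) = (i + (-1) * (l : ℤ)) + P.m := by
        rw [hldef, Nat.cast_sub hl.le]
        ring
      rw [e2, hper]
      exact this
  -- the outside sides
  have hout : ∀ k : ℕ, k < P.m → ¬ (A ≤ k ∧ k < B) → κ * a ≤ P.h (i + k) ξ := by
    intro k hk hkn
    have hlow : P.h (i + k) τ < κ * a / 2 := by
      by_cases hkA : k < A
      · exact hAmin k hkA
      · have hkB : B ≤ k := by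
          by_contra hcon
          exact hkn ⟨by omega, by omega⟩
        have hl : P.m - k < B' := by omega
        have h2 := hBmin _ hl
        rw [Nat.cast_sub hk.le] at h2
        have e : i - ((P.m : ℤ) - k) + P.m = i + k := by ring
        rw [← hper, e] at h2
        exact h2
    rcases le_max_iff.1 (c.nf_a (i + k)) with h | h
    · exfalso
      change κ * a ≤ P.h (i + k) τ at h
      linarith
    · exact h
  -- the estimate
  have hκ14 : (27 * Real.pi / (κ ^ 2 * (κ ^ 2 / 16))) = 432 * Real.pi / κ ^ 4 := by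
    field_simp
    ring
  have hκ1pos : 0 < κ ^ 2 / 16 := by positivity
  have hCpos : 0 ≤ 432 * Real.pi / κ ^ 4 := by
    have := Real.pi_pos
    positivity
  have hflip := flip_estimate hf c.Ed_dcc
    (fun j s hs => c.hasDeriv_E (P.σ_mem_Ob j hs.1 hs.2)) i hτ hξ (f τ) hAB hBm hCpos
    (by
      intro k hk1' hk2' s hs
      have hz := P.σ_mem_Ob (i + k) hs.1.le hs.2.le
      have := c.Ed_le_K hz hκ1pos (p := τ) (c.cmp_aux (c.low₁ hz) c.c₁_sub_τ)
        (c.cmp_aux (c.low₂ hz) c.c₂_sub_τ) (hin k hk1' hk2')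
      rw [hcκ, hκ14] at this
      exact this)
    (by
      intro k hk hkn s hs
      have hz := P.σ_mem_Ob (i + k) hs.1.le hs.2.le
      have h2 : κ ^ 2 / 16 * a ≤ P.h (i + k) ξ := by
        refine le_trans ?_ (hout k hk hkn)
        have : κ ^ 2 / 16 ≤ κ := by nlinarith
        exact mul_le_mul_of_nonneg_right this hapos.le
      have := c.Ed_le_K hz hκ1pos (p := ξ) (c.cmp_aux (c.low₁ hz) c.c₁_sub_ξ)
        (c.cmp_aux (c.low₂ hz) c.c₂_sub_ξ) h2
      rw [hcκ, hκ14] at this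
      exact this)
  refine le_trans ?_ hflip
  apply mul_le_mul_of_nonneg_left _ (norm_nonneg _)
  -- the lower bound for the increment
  set q := P.v (i + A) with hq
  set p := P.v (i + B) with hp
  have hqO : q ∈ P.Ob := P.v_mem_Ob _
  have hpO : p ∈ P.Ob := P.v_mem_Ob _
  have hv0 : ∀ j : ℤ, P.h (j - 1) (P.v j) = 0 := by
    intro j
    have := P.h_σ_self (j - 1) (P.ℓ (j - 1))
    rw [← v_succ, sub_add_cancel] at this
    exact this
  have hκ3 : 0 < κ ^ 2 / 6 := by positivity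
  have hκ31 : κ ^ 2 / 6 ≤ 1 := by nlinarith
  have hYq : κ ^ 2 / 6 ≤ |(c.u q).im| := by
    have e0 : P.h (i + (A : ℤ) - 1) τ < κ * a / 2 := by
      have := hAmin (A - 1) (by omega)
      rw [Nat.cast_sub hA0] at this
      have e : i + ((A : ℤ) - ((1 : ℕ) : ℤ)) = i + (A : ℤ) - 1 := by push_cast; ring
      rw [e] at this
      exact this
    exact c.corner_height hqO (hv0 (i + A)) (P.h_v_self _) e0 hAsp
  have hYp : κ ^ 2 / 6 ≤ |(c.u p).im| := by
    have e0 : P.h (i + (B : ℤ)) τ < κ * a / 2 := by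
      have := hBmin (B' - 1) (by omega)
      rw [Nat.cast_sub hB0] at this
      have e : i - ((B' : ℤ) - ((1 : ℕ) : ℤ)) + P.m = i + (B : ℤ) := by
        rw [hB]
        have : B' ≤ P.m := by omega
        push_cast
        rw [Nat.cast_sub this]
        ring
      rw [← hper, e] at this
      exact this
    have e1 : κ * a / 2 ≤ P.h (i + (B : ℤ) - 1) τ := by
      have e : i - (B' : ℤ) + P.m = i + (B : ℤ) - 1 := by
        rw [hB]
        have : B' ≤ P.m := by omega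
        push_cast
        rw [Nat.cast_sub this]
        ring
      rw [← e, hper]
      exact hBsp
    exact c.corner_height hpO (P.h_v_self _) (hv0 (i + B)) e0 e1
  -- signs
  have hWre : ∀ z ∈ P.Ob, 0 ≤ (conj (P.n i) * (τ - z)).re := by
    intro z hz
    rw [P.re_W i hiτ]
    exact hz i
  have hThξ1 : P.Th i τ (P.v (i + k')) ≤ P.Th i τ ξ := by
    have hposs := P.h_pos_other h0 h1 k' hk1 hk2
    have hmono := Th_mono_side i hτ hiτ hposs
    have hlp := (P.ℓ_pos (i + k')).le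
    have := hmono (left_mem_Icc.2 hlp) (⟨h0'.le, h1'.le⟩ : s₁ ∈ Icc 0 (P.ℓ (i + k'))) h0'.le
    simp only at this
    rw [σ_zero] at this
    exact this
  have hThξ2 : P.Th i τ ξ ≤ P.Th i τ (P.v (i + k' + 1)) := by
    have hposs := P.h_pos_other h0 h1 k' hk1 hk2
    have hmono := Th_mono_side i hτ hiτ hposs
    have hlp := (P.ℓ_pos (i + k')).le
    have := hmono (⟨h0'.le, h1'.le⟩ : s₁ ∈ Icc 0 (P.ℓ (i + k'))) (right_mem_Icc.2 hlp) h1'.le
    simp only at this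
    rw [← v_succ] at this
    exact this
  have hsq : (c.u q).im ≤ 0 := by
    rw [c.u_eq_ratio]
    apply im_div_le (hWre q hqO) (hWre ξ hξ)
    have h2 := Th_vertex_mono h0 h1 hA0 k' hAk' hk2.le
    exact h2.trans hThξ1
  have hsp : 0 ≤ (c.u p).im := by
    rw [c.u_eq_ratio]
    apply im_div_ge (hWre p hpO) (hWre ξ hξ)
    have h2 := Th_vertex_mono h0 h1 (k := k' + 1) (by omega) B (by omega) hBm
    have e : i + ((k' + 1 : ℕ) : ℤ) = i + k' + 1 := by push_cast; ring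
    rw [e] at h2
    exact hThξ2.trans h2
  have hYq' : (c.u q).im ≤ - (κ ^ 2 / 6) := by
    rw [abs_of_nonpos hsq] at hYq
    linarith
  have hYp' : κ ^ 2 / 6 ≤ (c.u p).im := by
    rwa [abs_of_nonneg hsp] at hYp
  have harg1 := arg_mobU_upper hκ3 hκ31 hYq'
  have harg2 := arg_mobU_lower hκ3 hκ31 hYp'
  have him : (c.E q - c.E p).im = arg (mobU (c.u q)) - arg (mobU (c.u p)) := by
    unfold Chd.E
    rw [sub_im, Complex.log_im, Complex.log_im]
  have hnorm : |(c.E q - c.E p).im| ≤ ‖c.E q - c.E p‖ := Complex.abs_im_le_norm _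
  have h3 : ‖(2 : ℂ) * (c.E q - c.E p)‖ = 2 * ‖c.E q - c.E p‖ := by
    rw [norm_mul]; simp
  rw [h3]
  have h4 := neg_abs_le (c.E q - c.E p).im
  rw [him] at h4 hnorm
  have h5 := le_abs_self (arg (mobU (c.u p)) - arg (mobU (c.u q)))
  have h6 : |arg (mobU (c.u p)) - arg (mobU (c.u q))| = |arg (mobU (c.u q)) - arg (mobU (c.u p))| :=
    abs_sub_comm _ _
  linarith

end Pgn

end Vale.Agent.Lib.P123
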