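import Vale.Agent.Lib.P123.Pg11

open Complex ComplexConjugate MeasureTheory Set Filter Topology
open scoped Interval

set_option linter.unusedSectionVars false

namespace Vale.Agent.Lib.P123

namespace Pgn

variable {P : Pgn}

variable (P) in
/-- the direction pointing into the polygon from side `i` at polar angle `ω` -/
noncomputable def ee (i : ℤ) (ω : ℝ) : ℂ := - (P.n i) * exp ((ω : ℂ) * I)

theorem ee_re (i : ℤ) (ω : ℝ) : (P.ee i ω).re = Real.cos (P.θ i + Real.pi + ω) := by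
  unfold ee
  rw [neg_mul, neg_re, mul_re, n_re, n_im, Complex.exp_ofReal_mul_I_re, Complex.exp_ofReal_mul_I_im,
    Real.cos_add, Real.cos_add, Real.sin_add]
  simp
  ring

theorem ee_im (i : ℤ) (ω : ℝ) : (P.ee i ω).im = Real.sin (P.θ i + Real.pi + ω) := by
  unfold ee
  rw [neg_mul, neg_im, mul_im, n_re, n_im, Complex.exp_ofReal_mul_I_re, Complex.exp_ofReal_mul_I_im,
    Real.sin_add, Real.cos_add, Real.sin_add]
  simp

theorem norm_ee (i : ℤ) (ω : ℝ) : ‖P.ee i ω‖ = 1 := by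
  unfold ee
  rw [norm_mul, norm_neg, n_norm, Complex.norm_exp_ofReal_mul_I, one_mul]

theorem dot_ee (j i : ℤ) (ω : ℝ) : P.dot j (P.ee i ω) = Real.cos (P.θ i + Real.pi + ω - P.θ j) := by
  unfold dot
  rw [ee_re, ee_im, Real.cos_sub]

/-- the angle between the direction and the normal of side `i + k` -/
noncomputable def Dd (P : Pgn) (k : ℝ) (ω : ℝ) : ℝ := ω + Real.pi - k * P.D

theorem dot_ee_add (i : ℤ) (k : ℤ) (ω : ℝ) : P.dot (i + k) (P.ee i ω) = Real.cos (P.Dd k ω) := by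
  rw [dot_ee]
  congr 1
  unfold Dd θ
  push_cast
  ring

/-- Lipschitz bound along directions. -/
theorem dot_ee_lip (j i : ℤ) (ω ω' : ℝ) : P.dot j (P.ee i ω) - |ω - ω'| ≤ P.dot j (P.ee i ω') := by
  rw [dot_ee, dot_ee]
  have := Real.abs_cos_sub_cos_le (P.θ i + Real.pi + ω - P.θ j) (P.θ i + Real.pi + ω' - P.θ j)
  have e : (P.θ i + Real.pi + ω - P.θ j) - (P.θ i + Real.pi + ω' - P.θ j) = ω - ω' := by ring
  rw [e] at this
  linarith [(abs_le.1 this).2]

/-- Polar form with respect to side `i`. -/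
theorem polar_eq (i : ℤ) (τ z : ℂ) : z = τ + ((‖z - τ‖ : ℝ) : ℂ) * P.ee i (P.Th i τ z) := by
  unfold ee Th
  set W := conj (P.n i) * (τ - z) with hW
  have h1 : ‖W‖ = ‖z - τ‖ := by
    rw [hW, norm_mul, Complex.norm_conj, n_norm, one_mul, norm_sub_rev]
  have h2 : ((‖W‖ : ℝ) : ℂ) * exp ((arg W : ℂ) * I) = W := Complex.norm_mul_exp_arg_mul_I W
  rw [← h1]
  have h3 := P.conj_n_mul_n i
  have e : ((‖W‖ : ℝ) : ℂ) * (- P.n i * exp ((arg W : ℂ) * I)) =
      - P.n i * (((‖W‖ : ℝ) : ℂ) * exp ((arg W : ℂ) * I)) := by ring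
  rw [e, h2, hW]
  linear_combination - (z - τ) * h3

/-- Heights along a ray. -/
theorem h_ray (l i : ℤ) (τ : ℂ) (r ω : ℝ) :
    P.h l (τ + (r : ℂ) * P.ee i ω) = P.h l τ - r * P.dot l (P.ee i ω) := by
  have h1 := P.h_sub_dot l τ (τ + (r : ℂ) * P.ee i ω)
  have e : τ + (r : ℂ) * P.ee i ω - τ = (r : ℂ) * P.ee i ω := by ring
  rw [e, dot_smul] at h1
  linarith

/-- A boundary point seen from `τ` in the direction `ω` on the side `i + k`. -/
structure Hit (P : Pgn) (i : ℤ) (τ : ℂ) (ω : ℝ) (k : ℕ) (s r : ℝ) : Prop where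
  k1 : 1 ≤ k
  k2 : k < P.m
  s0 : 0 ≤ s
  s1 : s ≤ P.ℓ (i + k)
  r0 : 0 < r
  eq : P.σ (i + k) s = τ + (r : ℂ) * P.ee i ω

section hit

variable {i : ℤ} {τ : ℂ} {ω : ℝ} {k : ℕ} {s r : ℝ}

theorem Hit.mem (H : Hit P i τ ω k s r) : τ + (r : ℂ) * P.ee i ω ∈ P.Ob := by
  rw [← H.eq]
  exact P.σ_mem_Ob _ H.s0 H.s1

theorem Hit.le (H : Hit P i τ ω k s r) (l : ℤ) : r * P.dot l (P.ee i ω) ≤ P.h l τ := by
  have := H.mem l
  rw [h_ray] at this
  linarith

theorem Hit.h_eq (H : Hit P i τ ω k s r) : P.h (i + k) τ = r * Real.cos (P.Dd k ω) := by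
  have h1 := P.h_σ_self (i + k) s
  rw [H.eq, h_ray] at h1
  have h2 := P.dot_ee_add i (k : ℤ) ω
  rw [h2] at h1
  have e : ((k : ℤ) : ℝ) = (k : ℝ) := by simp
  rw [e] at h1
  linarith

theorem Hit.kD (H : Hit P i τ ω k s r) : 0 < (k : ℝ) * P.D ∧ (k : ℝ) * P.D < 2 * Real.pi := by
  have hD := P.D_pos
  have h1 : (1 : ℝ) ≤ k := by exact_mod_cast H.k1
  have h2 : (k : ℝ) < P.m := by exact_mod_cast H.k2
  constructor
  · positivity
  · rw [← P.D_mul_m, mul_comm]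
    exact mul_lt_mul_of_pos_left h2 hD

/-- For a positive height the angle is in the right range. -/
theorem Hit.range (H : Hit P i τ ω k s r) (hpos : 0 < P.h (i + k) τ) (hω : |ω| < Real.pi / 2) :
    - (Real.pi / 2) < P.Dd k ω ∧ P.Dd k ω < Real.pi / 2 := by
  have hc : 0 < Real.cos (P.Dd k ω) := by
    have := H.h_eq
    rw [this] at hpos
    exact (pos_iff_pos_of_mul_pos hpos).1 H.r0
  obtain ⟨h1, h2⟩ := H.kD
  obtain ⟨h3, h4⟩ := abs_lt.1 hω
  have hpi := Real.pi_pos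
  unfold Dd at hc ⊢
  constructor
  · by_contra hcon
    push_neg at hcon
    have := Real.cos_nonpos_of_pi_div_two_le_of_le (x := - (ω + Real.pi - (k : ℝ) * P.D))
      (by linarith) (by linarith)
    rw [Real.cos_neg] at this
    linarith
  · by_contra hcon
    push_neg at hcon
    have := Real.cos_nonpos_of_pi_div_two_le_of_le (x := ω + Real.pi - (k : ℝ) * P.D)
      (by linarith) (by linarith)
    linarith

end hit

/-- Near tangent hits with positive angle. -/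
theorem flat_pos {x γ : ℝ} (h0 : 0 < x) (h1 : x < Real.pi / 2) (hc : Real.cos x < γ) :
    Real.pi / 2 - x < 2 * γ := by
  have hpi := Real.pi_pos
  have h2 : Real.sin (Real.pi / 2 - x) = Real.cos x := Real.sin_pi_div_two_sub x
  have h3 := Real.mul_le_sin (x := Real.pi / 2 - x) (by linarith) (by linarith)
  rw [h2] at h3
  have h4 : (1 / 2 : ℝ) ≤ 2 / Real.pi := by
    rw [le_div_iff₀ hpi]
    linarith [Real.pi_le_four]
  have h5 : (1 / 2 : ℝ) * (Real.pi / 2 - x) ≤ 2 / Real.pi * (Real.pi / 2 - x) :=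
    mul_le_mul_of_nonneg_right h4 (by linarith)
  linarith

theorem flat_neg {x γ : ℝ} (h0 : x < 0) (h1 : - (Real.pi / 2) < x) (hc : Real.cos x < γ) :
    Real.pi / 2 + x < 2 * γ := by
  have := flat_pos (x := - x) (by linarith) (by linarith) (by rwa [Real.cos_neg])
  linarith

/-- a lower bound for the sine on the first quadrant -/
theorem half_le_sin {y : ℝ} (h0 : 0 ≤ y) (h1 : y ≤ Real.pi / 2) : y / 2 ≤ Real.sin y := by
  have hpi := Real.pi_pos
  have h3 := Real.mul_le_sin h0 h1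
  have h4 : (1 / 2 : ℝ) ≤ 2 / Real.pi := by
    rw [le_div_iff₀ hpi]
    linarith [Real.pi_le_four]
  have h5 : (1 / 2 : ℝ) * y ≤ 2 / Real.pi * y := mul_le_mul_of_nonneg_right h4 h0
  linarith

/-- Path estimate in the direction of the orientation. -/
theorem path_up (k a : ℤ) {c : ℝ} (hc : 0 ≤ c) {s : ℝ} (hs : s ≤ P.ℓ a) (p : ℕ)
    (h : ∀ l : ℕ, l < p + 1 → c ≤ P.dot k (P.t (a + l))) :
    c * ‖P.v (a + ((p + 1 : ℕ) : ℤ)) - P.σ a s‖ ≤ P.dot k (P.v (a + ((p + 1 : ℕ) : ℤ)) - P.σ a s) := by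
  induction p with
  | zero =>
    have e1 : a + (((0 : ℕ) + 1 : ℕ) : ℤ) = a + 1 := by simp
    rw [e1, v_succ]
    have e2 : P.σ a (P.ℓ a) - P.σ a s = ((P.ℓ a - s : ℝ) : ℂ) * P.t a := by
      unfold σ
      push_cast
      ring
    rw [e2, dot_smul, norm_mul, t_norm, mul_one, Complex.norm_real, Real.norm_eq_abs,
      abs_of_nonneg (by linarith)]
    have := h 0 (by omega)
    simp only [Nat.cast_zero, add_zero] at this
    have h3 : 0 ≤ P.ℓ a - s := by linarith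
    nlinarith
  | succ p ih =>
    have ih' := ih (fun l hl => h l (by omega))
    have e1 : a + ((p + 1 + 1 : ℕ) : ℤ) = a + ((p + 1 : ℕ) : ℤ) + 1 := by push_cast; ring
    set w := a + ((p + 1 : ℕ) : ℤ) with hw
    rw [e1, v_succ]
    have e2 : P.σ w (P.ℓ w) - P.σ a s = (P.v w - P.σ a s) + ((P.ℓ w : ℝ) : ℂ) * P.t w := by
      unfold σ
      ring
    rw [e2, dot_add, dot_smul]
    have h4 := h (p + 1) (by omega)
    rw [← hw] at h4
    have hl := (P.ℓ_pos w).le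
    have h5 : ‖(P.v w - P.σ a s) + ((P.ℓ w : ℝ) : ℂ) * P.t w‖ ≤ ‖P.v w - P.σ a s‖ + P.ℓ w := by
      refine (norm_add_le _ _).trans ?_
      rw [norm_mul, t_norm, mul_one, Complex.norm_real, Real.norm_eq_abs, abs_of_nonneg hl]
    have h6 := mul_le_mul_of_nonneg_left h5 hc
    have h7 := mul_le_mul_of_nonneg_left h4 hl
    nlinarith

/-- Path estimate against the orientation. -/
theorem path_down (k a : ℤ) {c : ℝ} (hc : 0 ≤ c) {s : ℝ} (hs : 0 ≤ s) (p : ℕ)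
    (h : ∀ l : ℕ, l ≤ p → c ≤ - P.dot k (P.t (a - l))) :
    c * ‖P.σ a s - P.v (a - p)‖ ≤ - P.dot k (P.σ a s - P.v (a - p)) := by
  induction p with
  | zero =>
    have e1 : a - ((0 : ℕ) : ℤ) = a := by simp
    rw [e1]
    have e2 : P.σ a s - P.v a = (s : ℂ) * P.t a := by
      unfold σ
      ring
    rw [e2, dot_smul, norm_mul, t_norm, mul_one, Complex.norm_real, Real.norm_eq_abs, abs_of_nonneg hs]
    have := h 0 (by omega)
    simp only [Nat.cast_zero, sub_zero] at this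
    nlinarith
  | succ p ih =>
    have ih' := ih (fun l hl => h l (by omega))
    set w := a - ((p + 1 : ℕ) : ℤ) with hw
    have e0 : a - (p : ℤ) = w + 1 := by rw [hw]; push_cast; ring
    rw [e0, v_succ] at ih'
    have hl := (P.ℓ_pos w).le
    have e2 : P.σ a s - P.v w = (P.σ a s - P.σ w (P.ℓ w)) + ((P.ℓ w : ℝ) : ℂ) * P.t w := by
      unfold σ
      ring
    rw [e2, dot_add, dot_smul]
    have h4 := h (p + 1) (by omega)
    rw [← hw] at h4
    have h5 : ‖(P.σ a s - P.σ w (P.ℓ w)) + ((P.ℓ w : ℝ) : ℂ) * P.t w‖ ≤ ‖P.σ a s - P.σ w (P.ℓ w)‖ + P.ℓ w := by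
      refine (norm_add_le _ _).trans ?_
      rw [norm_mul, t_norm, mul_one, Complex.norm_real, Real.norm_eq_abs, abs_of_nonneg hl]
    have h6 := mul_le_mul_of_nonneg_left h5 hc
    have h7 := mul_le_mul_of_nonneg_left h4 hl
    nlinarith

/-- Two outgoing tangential hits force a vertex near the base point. -/
theorem O_lemma {i : ℤ} {τ : ℂ} {a b γ : ℝ} {ka kb : ℕ} {sa sb ra rb : ℝ}
    (Ha : Hit P i τ a ka sa ra) (Hb : Hit P i τ b kb sb rb)
    (hposa : 0 < P.h (i + ka) τ) (hposb : 0 < P.h (i + kb) τ)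
    (hωa : |a| < Real.pi / 2) (hωb : |b| < Real.pi / 2)
    (hab1 : 1 / 16 ≤ b - a) (hab2 : b - a ≤ 3 / 16) (hγ0 : 0 < γ) (hγ1 : γ ≤ 1 / 128)
    (hOa : 0 < P.Dd ka a) (hOa' : Real.cos (P.Dd ka a) < γ)
    (hOb : 0 < P.Dd kb b) (hOb' : Real.cos (P.Dd kb b) < γ)
    (p : ℕ) (hp : (p : ℝ) * P.D ≤ 1 / 64) :
    ‖P.v (i + ka + ((p + 1 : ℕ) : ℤ)) - τ‖ ≤ 96 * γ * rb := by
  have hpi3 := Real.pi_gt_three
  have hD := P.D_pos
  obtain ⟨ra1, ra2⟩ := Ha.range hposa hωa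
  obtain ⟨rb1, rb2⟩ := Hb.range hposb hωb
  have hηa := flat_pos hOa ra2 hOa'
  have hηb := flat_pos hOb rb2 hOb'
  -- the angle between the normals
  set β := ((kb : ℝ) - ka) * P.D with hβ
  have hβ1 : β = (b - a) + (P.Dd ka a - P.Dd kb b) := by
    rw [hβ]; unfold Dd; ring
  have hβlow : 1 / 16 - 2 * γ < β := by rw [hβ1]; linarith
  have hβup : β < 3 / 16 + 2 * γ := by rw [hβ1]; linarith
  -- heights at the point with the larger angle
  have hh1 : P.h (i + kb) τ ≤ γ * rb := by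
    rw [Hb.h_eq]
    have := Hb.r0
    nlinarith
  have hdot : P.dot (i + kb) (P.ee i a) = Real.sin (Real.pi / 2 - P.Dd kb b + (b - a)) := by
    have h2 := P.dot_ee_add i (kb : ℤ) a
    have e : ((kb : ℤ) : ℝ) = (kb : ℝ) := by simp
    rw [h2, e, ← Real.cos_pi_div_two_sub]
    congr 1
    unfold Dd
    ring
  have hy0 : 1 / 16 ≤ Real.pi / 2 - P.Dd kb b + (b - a) := by linarith
  have hy1 : Real.pi / 2 - P.Dd kb b + (b - a) ≤ Real.pi / 2 := by linarith
  have hs1 := half_le_sin (by linarith) hy1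
  have hdotlow : 1 / 32 ≤ P.dot (i + kb) (P.ee i a) := by
    rw [hdot]; linarith
  have hra : ra ≤ 32 * γ * rb := by
    have h2 := Ha.le (i + kb)
    have h3 := Ha.r0
    nlinarith
  -- the height of the first hit
  have hh2 : P.h (i + kb) (P.σ (i + ka) sa) ≤ γ * rb := by
    rw [Ha.eq, h_ray]
    have h3 := Ha.r0
    have : 0 ≤ ra * P.dot (i + kb) (P.ee i a) := mul_nonneg h3.le (by linarith)
    linarith
  -- the path
  have hpath := path_up (P := P) (i + kb) (i + ka) (c := 1 / 64) (by norm_num) Ha.s1 p (by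
    intro l hl
    rw [dot_t]
    have e : (((i + kb : ℤ) : ℝ) - ((i + ka + l : ℤ) : ℝ)) * P.D = β - (l : ℝ) * P.D := by
      rw [hβ]
      push_cast
      ring
    rw [e]
    have hl' : (l : ℝ) ≤ p := by
      have : l ≤ p := by omega
      exact_mod_cast this
    have hlD : (l : ℝ) * P.D ≤ 1 / 64 := (mul_le_mul_of_nonneg_right hl' hD.le).trans hp
    have hl0 : 0 ≤ (l : ℝ) * P.D := by positivity
    have h4 := half_le_sin (y := β - (l : ℝ) * P.D) (by linarith) (by linarith)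
    linarith)
  set x := P.v (i + ka + ((p + 1 : ℕ) : ℤ)) with hx
  have hxO : x ∈ P.Ob := P.v_mem_Ob _
  have h5 := P.h_sub_dot (i + kb) (P.σ (i + ka) sa) x
  have h6 := hxO (i + kb)
  have h7 : ‖x - P.σ (i + ka) sa‖ ≤ 64 * γ * rb := by
    have : (1 / 64 : ℝ) * ‖x - P.σ (i + ka) sa‖ ≤ γ * rb := by
      linarith
    linarith
  have h8 : ‖P.σ (i + ka) sa - τ‖ = ra := by
    rw [Ha.eq]
    have e : τ + (ra : ℂ) * P.ee i a - τ = (ra : ℂ) * P.ee i a := by ring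
    rw [e, norm_mul, norm_ee, mul_one, Complex.norm_real, Real.norm_eq_abs, abs_of_pos Ha.r0]
  calc ‖x - τ‖ = ‖(x - P.σ (i + ka) sa) + (P.σ (i + ka) sa - τ)‖ := by congr 1; ring
    _ ≤ ‖x - P.σ (i + ka) sa‖ + ‖P.σ (i + ka) sa - τ‖ := norm_add_le _ _
    _ ≤ 64 * γ * rb + 32 * γ * rb := by rw [h8]; exact add_le_add h7 hra
    _ = 96 * γ * rb := by ring

/-- Two incoming tangential hits force a vertex near the base point. -/
theorem I_lemma {i : ℤ} {τ : ℂ} {a b γ : ℝ} {ka kb : ℕ} {sa sb ra rb : ℝ}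
    (Ha : Hit P i τ a ka sa ra) (Hb : Hit P i τ b kb sb rb)
    (hposa : 0 < P.h (i + ka) τ) (hposb : 0 < P.h (i + kb) τ)
    (hωa : |a| < Real.pi / 2) (hωb : |b| < Real.pi / 2)
    (hab1 : 1 / 16 ≤ b - a) (hab2 : b - a ≤ 3 / 16) (hγ0 : 0 < γ) (hγ1 : γ ≤ 1 / 128)
    (hOa : P.Dd ka a < 0) (hOa' : Real.cos (P.Dd ka a) < γ)
    (hOb : P.Dd kb b < 0) (hOb' : Real.cos (P.Dd kb b) < γ)
    (p : ℕ) (hp : (p : ℝ) * P.D ≤ 1 / 64) :
    ‖P.v (i + kb - (p : ℤ)) - τ‖ ≤ 96 * γ * ra := by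
  have hpi3 := Real.pi_gt_three
  have hD := P.D_pos
  obtain ⟨ra1, ra2⟩ := Ha.range hposa hωa
  obtain ⟨rb1, rb2⟩ := Hb.range hposb hωb
  have hηa := flat_neg hOa ra1 hOa'
  have hηb := flat_neg hOb rb1 hOb'
  set β := ((kb : ℝ) - ka) * P.D with hβ
  have hβ1 : β = (b - a) + (P.Dd ka a - P.Dd kb b) := by
    rw [hβ]; unfold Dd; ring
  have hβlow : 1 / 16 - 2 * γ < β := by rw [hβ1]; linarith
  have hβup : β < 3 / 16 + 2 * γ := by rw [hβ1]; linarith
  have hh1 : P.h (i + ka) τ ≤ γ * ra := by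
    rw [Ha.h_eq]
    have := Ha.r0
    nlinarith
  have hdot : P.dot (i + ka) (P.ee i b) = Real.sin (Real.pi / 2 + P.Dd ka a + (b - a)) := by
    have h2 := P.dot_ee_add i (ka : ℤ) b
    have e : ((ka : ℤ) : ℝ) = (ka : ℝ) := by simp
    rw [h2, e, ← Real.cos_pi_div_two_sub]
    rw [← Real.cos_neg]
    congr 1
    unfold Dd
    ring
  have hy0 : 1 / 16 ≤ Real.pi / 2 + P.Dd ka a + (b - a) := by linarith
  have hy1 : Real.pi / 2 + P.Dd ka a + (b - a) ≤ Real.pi / 2 := by linarith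
  have hs1 := half_le_sin (by linarith) hy1
  have hdotlow : 1 / 32 ≤ P.dot (i + ka) (P.ee i b) := by
    rw [hdot]; linarith
  have hrb : rb ≤ 32 * γ * ra := by
    have h2 := Hb.le (i + ka)
    have h3 := Hb.r0
    nlinarith
  have hh2 : P.h (i + ka) (P.σ (i + kb) sb) ≤ γ * ra := by
    rw [Hb.eq, h_ray]
    have h3 := Hb.r0
    have : 0 ≤ rb * P.dot (i + ka) (P.ee i b) := mul_nonneg h3.le (by linarith)
    linarith
  have hpath := path_down (P := P) (i + ka) (i + kb) (c := 1 / 64) (by norm_num) Hb.s0 p (by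
    intro l hl
    rw [dot_t]
    have e : (((i + ka : ℤ) : ℝ) - ((i + kb - l : ℤ) : ℝ)) * P.D = - (β - (l : ℝ) * P.D) := by
      rw [hβ]
      push_cast
      ring
    rw [e, Real.sin_neg, neg_neg]
    have hl' : (l : ℝ) ≤ p := by exact_mod_cast hl
    have hlD : (l : ℝ) * P.D ≤ 1 / 64 := (mul_le_mul_of_nonneg_right hl' hD.le).trans hp
    have hl0 : 0 ≤ (l : ℝ) * P.D := by positivity
    have h4 := half_le_sin (y := β - (l : ℝ) * P.D) (by linarith) (by linarith)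
    linarith)
  set x := P.v (i + kb - (p : ℤ)) with hx
  have hxO : x ∈ P.Ob := P.v_mem_Ob _
  have h5 := P.h_sub_dot (i + ka) x (P.σ (i + kb) sb)
  have h6 := hxO (i + ka)
  have h7 : ‖P.σ (i + kb) sb - x‖ ≤ 64 * γ * ra := by
    have : (1 / 64 : ℝ) * ‖P.σ (i + kb) sb - x‖ ≤ γ * ra := by
      linarith
    linarith
  have h8 : ‖P.σ (i + kb) sb - τ‖ = rb := by
    rw [Hb.eq]
    have e : τ + (rb : ℂ) * P.ee i b - τ = (rb : ℂ) * P.ee i b := by ring
    rw [e, norm_mul, norm_ee, mul_one, Complex.norm_real, Real.norm_eq_abs, abs_of_pos Hb.r0]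
  calc ‖x - τ‖ = ‖(P.σ (i + kb) sb - τ) - (P.σ (i + kb) sb - x)‖ := by congr 1; ring
    _ ≤ ‖P.σ (i + kb) sb - τ‖ + ‖P.σ (i + kb) sb - x‖ := norm_sub_le _ _
    _ ≤ 32 * γ * ra + 64 * γ * ra := by rw [h8]; exact add_le_add hrb h7
    _ = 96 * γ * ra := by ring

end Pgn

end Vale.Agent.Lib.P123
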