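import Vale.Agent.Lib.P123.Pg12

open Complex ComplexConjugate MeasureTheory Set Filter Topology
open scoped Interval

set_option linter.unusedSectionVars false

namespace Vale.Agent.Lib.P123

namespace Pgn

variable {P : Pgn}

/-- The arithmetic behind the flatness estimate. -/
theorem nf_real {γ α α₁ α₂ S S₁ S₂ : ℝ} (hγ0 : 0 < γ)
    (hS1 : γ / 4 ≤ S) (hS2 : S ≤ γ / 2) (htriple : S ≤ |α₁| + |α₂|)
    (hinterp : S * α = S₁ * α₁ + S₂ * α₂) (hS₁l : γ / 12 ≤ S₁) (hS₂l : γ / 12 ≤ S₂)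
    (hS₁u : S₁ ≤ γ / 3) (hS₂u : S₂ ≤ γ / 3) (hs₁ : α₁ < γ / 500) (hs₂ : α₂ < γ / 500) :
    α ≤ - (γ / 55) := by
  have hγ8 : 0 < γ / 8 := by positivity
  have hγ12 : 0 < γ / 12 := by positivity
  have hneg : α₁ ≤ - (γ / 8) ∨ α₂ ≤ - (γ / 8) := by
    by_contra hcon
    push_neg at hcon
    obtain ⟨h1, h2⟩ := hcon
    have h3 : |α₁| < γ / 8 := by
      rw [abs_lt]
      constructor <;> linarith
    have h4 : |α₂| < γ / 8 := by
      rw [abs_lt]
      constructor <;> linarith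
    linarith
  have e1 : (γ / 12) * (- (γ / 8)) = - (γ ^ 2 / 96) := by ring
  have e2 : (γ / 3) * (γ / 500) = γ ^ 2 / 1500 := by ring
  have e3 : (γ / 2) * (- (γ / 55)) = - (γ ^ 2 / 110) := by ring
  have hγ2 : 0 < γ ^ 2 := by positivity
  have hSα : S * α ≤ - (γ ^ 2 / 110) := by
    rw [hinterp]
    rcases hneg with h1 | h1
    · have h2 : S₁ * α₁ ≤ (γ / 12) * (- (γ / 8)) :=
        calc S₁ * α₁ ≤ S₁ * (- (γ / 8)) := mul_le_mul_of_nonneg_left h1 (by linarith)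
          _ ≤ (γ / 12) * (- (γ / 8)) := mul_le_mul_of_nonpos_right hS₁l (by linarith)
      have h3 : S₂ * α₂ ≤ (γ / 3) * (γ / 500) := by
        calc S₂ * α₂ ≤ S₂ * (γ / 500) := mul_le_mul_of_nonneg_left hs₂.le (by linarith)
          _ ≤ (γ / 3) * (γ / 500) := mul_le_mul_of_nonneg_right hS₂u (by positivity)
      rw [e1] at h2
      rw [e2] at h3
      linarith
    · have h2 : S₂ * α₂ ≤ (γ / 12) * (- (γ / 8)) :=
        calc S₂ * α₂ ≤ S₂ * (- (γ / 8)) := mul_le_mul_of_nonneg_left h1 (by linarith)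
          _ ≤ (γ / 12) * (- (γ / 8)) := mul_le_mul_of_nonpos_right hS₂l (by linarith)
      have h3 : S₁ * α₁ ≤ (γ / 3) * (γ / 500) := by
        calc S₁ * α₁ ≤ S₁ * (γ / 500) := mul_le_mul_of_nonneg_left hs₁.le (by linarith)
          _ ≤ (γ / 3) * (γ / 500) := mul_le_mul_of_nonneg_right hS₁u (by positivity)
      rw [e1] at h2
      rw [e2] at h3
      linarith
  have hSpos : 0 < S := by linarith
  by_contra hcon
  push_neg at hcon
  have h1 : S * (- (γ / 55)) < S * α := mul_lt_mul_of_pos_left hcon hSpos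
  have h2 : (γ / 2) * (- (γ / 55)) ≤ S * (- (γ / 55)) :=
    mul_le_mul_of_nonpos_right hS2 (by linarith)
  rw [e3] at h2
  linarith

/-- A chord in the middle of two transversal hits is not flat. -/
theorem nf_of_hits {i : ℤ} {τ ξ : ℂ} {u γ ω : ℝ} {k₁ k₂ : ℕ} {s₁ s₂ r₁ r₂ a : ℝ}
    (hγ0 : 0 < γ) (hγ1 : γ ≤ 1 / 128)
    (H₁ : Hit P i τ u k₁ s₁ r₁) (H₂ : Hit P i τ (u + γ / 2) k₂ s₂ r₂)
    (hc₁ : γ ≤ Real.cos (P.Dd k₁ u)) (hc₂ : γ ≤ Real.cos (P.Dd k₂ (u + γ / 2)))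
    (hτ : τ ∈ P.Ob) (hξ : ξ ∈ P.Ob) (ha : 0 < a) (hξeq : ξ = τ + (a : ℂ) * P.ee i ω)
    (hω1 : u + γ / 6 ≤ ω) (hω2 : ω ≤ u + γ / 3) (l : ℤ) :
    γ ^ 2 / 1000 * a ≤ max (P.h l τ) (P.h l ξ) := by
  have hpi3 := Real.pi_gt_three
  have hra : ∀ (k : ℕ) (ω' r' s' : ℝ), Hit P i τ ω' k s' r' → γ ≤ Real.cos (P.Dd k ω') →
      |ω' - ω| ≤ γ / 2 → a * (γ / 2) ≤ r' := by
    intro k ω' r' s' H hc hd
    have h1 := hξ (i + k)
    rw [hξeq, h_ray] at h1
    have h2 := P.dot_ee_lip (i + k) i ω' ω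
    have h3 := P.dot_ee_add i (k : ℤ) ω'
    have e : ((k : ℤ) : ℝ) = (k : ℝ) := by simp
    rw [e] at h3
    rw [h3] at h2
    have h4 : γ / 2 ≤ P.dot (i + k) (P.ee i ω) := by linarith
    have h5 := H.h_eq
    have h6 : Real.cos (P.Dd k ω') ≤ 1 := Real.cos_le_one _
    have h7 := H.r0
    have h8 : P.h (i + k) τ ≤ r' := by
      rw [h5]
      nlinarith
    have h9 : a * (γ / 2) ≤ a * P.dot (i + k) (P.ee i ω) := mul_le_mul_of_nonneg_left h4 ha.le
    linarith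
  have h₁a : a * (γ / 2) ≤ r₁ := hra k₁ u r₁ s₁ H₁ hc₁ (by
    rw [abs_le]; constructor <;> linarith)
  have h₂a : a * (γ / 2) ≤ r₂ := hra k₂ (u + γ / 2) r₂ s₂ H₂ hc₂ (by
    rw [abs_le]; constructor <;> linarith)
  by_cases hH : γ ^ 2 / 1000 * a ≤ P.h l τ
  · exact le_max_of_le_left hH
  push_neg at hH
  apply le_max_of_le_right
  set H := P.h l τ with hHdef
  have hH0 : 0 ≤ H := hτ l
  set ψ : ℝ := P.θ i + Real.pi + u - P.θ l with hψ
  set α₁ := Real.cos ψ with hα₁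
  set α₂ := Real.cos (ψ + γ / 2) with hα₂
  set α := Real.cos (ψ + (ω - u)) with hα
  have eα₁ : P.dot l (P.ee i u) = α₁ := by
    rw [dot_ee]
  have eα₂ : P.dot l (P.ee i (u + γ / 2)) = α₂ := by
    rw [dot_ee, hα₂]
    congr 1
    rw [hψ]
    ring
  have eα : P.dot l (P.ee i ω) = α := by
    rw [dot_ee, hα]
    congr 1
    rw [hψ]
    ring
  have hb₁ : r₁ * α₁ ≤ H := by
    have := H₁.le l
    rwa [eα₁] at this
  have hb₂ : r₂ * α₂ ≤ H := by
    have := H₂.le l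
    rwa [eα₂] at this
  have hsmall : ∀ (r' x : ℝ), a * (γ / 2) ≤ r' → r' * x ≤ H → x < γ / 500 := by
    intro r' x hr' hx
    by_contra hcon
    push_neg at hcon
    have hxpos : 0 < x := lt_of_lt_of_le (by positivity) hcon
    have h1 : (a * (γ / 2)) * x ≤ r' * x := mul_le_mul_of_nonneg_right hr' hxpos.le
    have h2 : (a * (γ / 2)) * (γ / 500) ≤ (a * (γ / 2)) * x :=
      mul_le_mul_of_nonneg_left hcon (by positivity)
    have h3 : (a * (γ / 2)) * (γ / 500) = γ ^ 2 / 1000 * a := by ring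
    linarith
  have hs₁ := hsmall r₁ α₁ h₁a hb₁
  have hs₂ := hsmall r₂ α₂ h₂a hb₂
  -- the triple identity
  set S := Real.sin (γ / 2) with hS
  have hS1 : γ / 4 ≤ S := by
    have := half_le_sin (y := γ / 2) (by positivity) (by linarith)
    rw [hS]
    linarith
  have hS2 : S ≤ γ / 2 := Real.sin_le (by positivity)
  have htriple : S ≤ |α₁| + |α₂| := by
    have e : S = Real.sin (ψ + γ / 2) * α₁ - α₂ * Real.sin ψ := by
      rw [hS, hα₁, hα₂, ← Real.sin_sub]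
      congr 1
      ring
    rw [e]
    have h1 : Real.sin (ψ + γ / 2) * α₁ ≤ |α₁| := by
      calc Real.sin (ψ + γ / 2) * α₁ ≤ |Real.sin (ψ + γ / 2) * α₁| := le_abs_self _
        _ = |Real.sin (ψ + γ / 2)| * |α₁| := abs_mul _ _
        _ ≤ 1 * |α₁| := mul_le_mul_of_nonneg_right (Real.abs_sin_le_one _) (abs_nonneg _)
        _ = |α₁| := one_mul _
    have h2 : - (α₂ * Real.sin ψ) ≤ |α₂| := by
      calc - (α₂ * Real.sin ψ) ≤ |α₂ * Real.sin ψ| := neg_le_abs _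
        _ = |α₂| * |Real.sin ψ| := abs_mul _ _
        _ ≤ |α₂| * 1 := mul_le_mul_of_nonneg_left (Real.abs_sin_le_one _) (abs_nonneg _)
        _ = |α₂| := mul_one _
    linarith
  -- the interpolation identity
  set S₁ := Real.sin (u + γ / 2 - ω) with hS₁
  set S₂ := Real.sin (ω - u) with hS₂
  have hinterp : S * α = S₁ * α₁ + S₂ * α₂ := by
    have := (trig_mono ψ (ω - u) (γ / 2) 1 (Or.inl rfl)).1
    simp only [one_mul] at this
    have e : γ / 2 - (ω - u) = u + γ / 2 - ω := by ring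
    rw [e] at this
    exact this
  have hS₁l : γ / 12 ≤ S₁ := by
    have := half_le_sin (y := u + γ / 2 - ω) (by linarith) (by linarith)
    rw [hS₁]
    linarith
  have hS₂l : γ / 12 ≤ S₂ := by
    have := half_le_sin (y := ω - u) (by linarith) (by linarith)
    rw [hS₂]
    linarith
  have hS₁u : S₁ ≤ γ / 3 := (Real.sin_le (by linarith)).trans (by linarith)
  have hS₂u : S₂ ≤ γ / 3 := (Real.sin_le (by linarith)).trans (by linarith)
  have hαb : α ≤ - (γ / 55) :=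
    nf_real hγ0 hS1 hS2 htriple hinterp hS₁l hS₂l hS₁u hS₂u hs₁ hs₂
  rw [hξeq, h_ray, eα]
  have h3 : a * (γ / 55) ≤ - (a * α) := by
    have := mul_le_mul_of_nonneg_left hαb ha.le
    have e : a * (- (γ / 55)) = - (a * (γ / 55)) := by ring
    rw [e] at this
    linarith
  have h4 : γ ^ 2 / 1000 * a ≤ a * (γ / 55) := by
    have h5 : γ ^ 2 / 1000 ≤ γ / 55 := by
      have : γ * γ ≤ 1 * γ := mul_le_mul_of_nonneg_right (by linarith) hγ0.le
      have e : γ ^ 2 = γ * γ := by ring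
      rw [e]
      linarith
    have := mul_le_mul_of_nonneg_left h5 ha.le
    linarith
  linarith

end Pgn

end Vale.Agent.Lib.P123
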