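import Vale.Agent.Lib.P123.Pg13

open Complex ComplexConjugate MeasureTheory Set Filter Topology
open scoped Interval

set_option linter.unusedSectionVars false

namespace Vale.Agent.Lib.P123

namespace Pgn

variable {P : Pgn}

theorem dot_add_m (j : ℤ) (z : ℂ) : P.dot (j + P.m) z = P.dot j z := by
  simp [dot, cos_θ_add_m, sin_θ_add_m]

theorem dot_per (j w : ℤ) (z : ℂ) : P.dot (j + w * P.m) z = P.dot j z :=
  P.per_mul (F := fun j => P.dot j z) (fun j => dot_add_m j z) j w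

/-- Every ray from an open side point hits the boundary. -/
theorem exists_hit {i : ℤ} {s₀ : ℝ} (h0 : 0 < s₀) (h1 : s₀ < P.ℓ i) {ω : ℝ} (hω : |ω| < Real.pi / 2) :
    ∃ (k : ℕ) (s r : ℝ), Hit P i (P.σ i s₀) ω k s r := by
  classical
  set τ := P.σ i s₀ with hτdef
  set e := P.ee i ω with he
  have hτO : τ ∈ P.Ob := P.σ_mem_Ob' h0 h1
  have hdi : P.dot i e < 0 := by
    rw [he, dot_ee]
    have e1 : P.θ i + Real.pi + ω - P.θ i = ω + Real.pi := by ring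
    rw [e1, Real.cos_add_pi]
    have := Real.cos_pos_of_mem_Ioo (x := ω) ⟨by linarith [(abs_lt.1 hω).1], (abs_lt.1 hω).2⟩
    linarith
  have hdvd : ∀ k : ℤ, ((P.m : ℤ) ∣ k - i) → P.dot k e = P.dot i e := by
    intro k hk
    obtain ⟨w, hw⟩ := hk
    have e1 : k = i + w * P.m := by rw [mul_comm]; linarith
    rw [e1, dot_per]
  have hpos : ∀ k : ℤ, 0 < P.dot k e → 0 < P.h k τ := by
    intro k hk
    apply P.h_σ_pos k i h0 h1
    intro hd
    rw [hdvd k hd] at hk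
    linarith
  set S := (Finset.range P.m).filter (fun k : ℕ => 0 < P.dot (k : ℤ) e) with hS
  have hne : S.Nonempty := by
    obtain ⟨j, hj⟩ := P.exists_nearest e
    obtain ⟨q, w, hq, hjq⟩ := P.exists_rep j
    refine ⟨q, Finset.mem_filter.2 ⟨Finset.mem_range.2 hq, ?_⟩⟩
    rw [hjq, dot_per, he, norm_ee, one_mul] at hj
    exact lt_of_lt_of_le P.cosD_pos hj
  obtain ⟨k₀, hk₀, hmin⟩ := Finset.exists_min_image S (fun k : ℕ => P.h (k : ℤ) τ / P.dot (k : ℤ) e) hne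
  have hk₀d : 0 < P.dot (k₀ : ℤ) e := (Finset.mem_filter.1 hk₀).2
  set r := P.h (k₀ : ℤ) τ / P.dot (k₀ : ℤ) e with hr
  have hr0 : 0 < r := div_pos (hpos _ hk₀d) hk₀d
  set R := τ + (r : ℂ) * e with hR
  have hRO : R ∈ P.Ob := by
    intro l
    obtain ⟨q, w, hq, hlq⟩ := P.exists_rep l
    rw [hlq, h_per, hR, he, h_ray, ← he]
    by_cases hd : 0 < P.dot (q : ℤ) e
    · have h2 := hmin q (Finset.mem_filter.2 ⟨Finset.mem_range.2 hq, hd⟩)
      rw [le_div_iff₀ hd] at h2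
      linarith
    · push_neg at hd
      have h2 := hτO (q : ℤ)
      have h3 : r * P.dot (q : ℤ) e ≤ 0 := mul_nonpos_of_nonneg_of_nonpos hr0.le hd
      linarith
  have hR0 : P.h (k₀ : ℤ) R = 0 := by
    rw [hR, he, h_ray, ← he, hr]
    field_simp
    ring
  obtain ⟨s, hs0, hs1, hRs⟩ := P.mem_side_of_h_eq_zero hRO hR0
  obtain ⟨q, w, hq, hkq⟩ := P.exists_rep ((k₀ : ℤ) - i)
  have hq0 : q ≠ 0 := by
    intro h
    have hd : (P.m : ℤ) ∣ (k₀ : ℤ) - i := by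
      rw [hkq, h]
      simp
    have := hdvd _ hd
    rw [this] at hk₀d
    linarith
  have hk₀e : (k₀ : ℤ) = (i + q) + w * P.m := by linarith
  have hσ : ∀ t, P.σ (k₀ : ℤ) t = P.σ (i + q) t := by
    intro t
    rw [hk₀e]
    exact P.per_mul (F := fun j => P.σ j t) (fun j => P.σ_add_m j t) _ w
  have hl : P.ℓ (k₀ : ℤ) = P.ℓ (i + q) := by
    rw [hk₀e]
    exact P.per_mul (F := fun j => P.ℓ j) (fun j => P.ℓ_add_m j) _ w
  refine ⟨q, s, r, ⟨by omega, hq, hs0, hl ▸ hs1, hr0, ?_⟩⟩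
  rw [← hσ, ← hRs]

/-- mark indices -/
noncomputable def Xq (P : Pgn) (q : ℕ) : ℤ := ⌈(q : ℝ) / (64 * P.D)⌉

theorem marks_cover (j : ℤ) : ∃ (q : ℕ) (w : ℤ), q < 512 ∧ P.Xq q + w * P.m ≤ j ∧
    j ≤ P.Xq (q + 1) + w * P.m - 1 ∧ ((P.Xq (q + 1) - 1 - P.Xq q : ℤ) : ℝ) * P.D ≤ 1 / 64 := by
  obtain ⟨j₀, w, hj₀, hj⟩ := P.exists_rep j
  have hD := P.D_pos
  have h64 : 0 < 64 * P.D := by positivity
  set a : ℝ := (j₀ : ℝ) * (64 * P.D) with ha
  have ha0 : 0 ≤ a := by positivity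
  set q := ⌊a⌋₊ with hq
  have hj₀' : (j₀ : ℝ) < P.m := by exact_mod_cast hj₀
  have hlt : a < 512 := by
    have h1 : a < (P.m : ℝ) * (64 * P.D) := mul_lt_mul_of_pos_right hj₀' h64
    have h2 : (P.m : ℝ) * (64 * P.D) = 64 * (P.D * P.m) := by ring
    rw [h2, P.D_mul_m] at h1
    linarith [Real.pi_lt_four]
  have hqlt : q < 512 := by
    rw [hq, Nat.floor_lt ha0]
    exact_mod_cast hlt
  have hq1 : (q : ℝ) ≤ a := Nat.floor_le ha0
  have hq2 : a < (q : ℝ) + 1 := Nat.lt_floor_add_one a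
  have h1 : P.Xq q ≤ (j₀ : ℤ) := by
    unfold Xq
    rw [Int.ceil_le, div_le_iff₀ h64]
    simpa using hq1
  have h2 : (j₀ : ℤ) < P.Xq (q + 1) := by
    unfold Xq
    rw [Int.lt_ceil, lt_div_iff₀ h64]
    push_cast
    simpa using hq2
  refine ⟨q, w, hqlt, by rw [hj]; linarith, by rw [hj]; omega, ?_⟩
  have h3 : (P.Xq (q + 1) : ℝ) < ((q + 1 : ℕ) : ℝ) / (64 * P.D) + 1 := Int.ceil_lt_add_one _
  have h4 : (q : ℝ) / (64 * P.D) ≤ (P.Xq q : ℝ) := Int.le_ceil _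
  push_cast at h3 ⊢
  have h5 : ((q : ℝ) + 1) / (64 * P.D) = (q : ℝ) / (64 * P.D) + 1 / (64 * P.D) := by ring
  rw [h5] at h3
  have h6 : (P.Xq (q + 1) : ℝ) - 1 - P.Xq q ≤ 1 / (64 * P.D) := by linarith
  have h7 := mul_le_mul_of_nonneg_right h6 hD.le
  refine h7.trans (le_of_eq ?_)
  field_simp

/-- The gap lemma for finitely many reals. -/
theorem gap (g : ℕ → ℝ) (n : ℕ) : ∃ x y : ℝ, -1 ≤ x ∧ y ≤ 1 ∧ y - x = 2 / 3 ^ n ∧
    ∀ q, q < n → ∀ ω ∈ Icc x y, 1 / 3 ^ n ≤ |ω - g q| := by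
  induction n with
  | zero =>
    refine ⟨-1, 1, le_rfl, le_rfl, by norm_num, ?_⟩
    intro q hq
    omega
  | succ n ih =>
    obtain ⟨x, y, hx, hy, hxy, hq⟩ := ih
    have h3 : (0 : ℝ) < 3 ^ n := by positivity
    have hL : (2 : ℝ) / 3 ^ n > 0 := by positivity
    have e1 : (3 : ℝ) ^ (n + 1) = 3 * 3 ^ n := by ring
    have e2 : (1 : ℝ) / 3 ^ (n + 1) ≤ 1 / 3 ^ n := by
      rw [e1]
      apply one_div_le_one_div_of_le h3
      linarith
    have e3 : (1 : ℝ) / 3 ^ (n + 1) = (2 / 3 ^ n) / 6 := by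
      rw [e1]
      field_simp
      ring
    have e4 : (2 : ℝ) / 3 ^ (n + 1) = (2 / 3 ^ n) / 3 := by
      rw [e1]
      field_simp
    by_cases hp : g n ≤ (x + y) / 2
    · refine ⟨y - (2 / 3 ^ n) / 3, y, by linarith, hy, by rw [e4]; ring, ?_⟩
      intro q hqn ω hω
      by_cases hqe : q = n
      · subst hqe
        have : (2 / 3 ^ q) / 6 ≤ ω - g q := by
          have := hω.1
          linarith
        rw [e3]
        exact this.trans (le_abs_self _)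
      · exact e2.trans (hq q (by omega) ω ⟨by linarith [hω.1], hω.2⟩)
    · push_neg at hp
      refine ⟨x, x + (2 / 3 ^ n) / 3, hx, by linarith, by rw [e4]; ring, ?_⟩
      intro q hqn ω hω
      by_cases hqe : q = n
      · subst hqe
        have : (2 / 3 ^ q) / 6 ≤ g q - ω := by
          have := hω.2
          linarith
        rw [e3]
        exact this.trans (neg_le_abs _ |>.trans' (by linarith)) 
      · exact e2.trans (hq q (by omega) ω ⟨hω.1, by linarith [hω.2]⟩)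

theorem abs_rot (p : ℂ) (u : ℝ) : |p.im * Real.cos u - p.re * Real.sin u| ≤ ‖p‖ := by
  have h1 : (p * exp (((- u : ℝ) : ℂ) * I)).im = p.im * Real.cos u - p.re * Real.sin u := by
    rw [mul_im, Complex.exp_ofReal_mul_I_re, Complex.exp_ofReal_mul_I_im, Real.cos_neg, Real.sin_neg]
    ring
  rw [← h1]
  refine (Complex.abs_im_le_norm _).trans (le_of_eq ?_)
  rw [norm_mul, Complex.norm_exp_ofReal_mul_I, mul_one]

/-- Points in separated directions are far apart. -/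
theorem far_of_angle {i₀ : ℤ} {τ₀ τ₁ x : ℂ} (hi₀ : P.h i₀ τ₀ = 0) (hx : 0 ≤ P.h i₀ x)
    {w : ℝ} (hw0 : 0 < w) (hw1 : w ≤ 1) (hω : |P.Th i₀ τ₀ τ₁| ≤ 1)
    (hd : w ≤ |P.Th i₀ τ₀ τ₁ - P.Th i₀ τ₀ x|) :
    (w / 2) * ‖τ₁ - τ₀‖ ≤ ‖τ₁ - x‖ := by
  set W₁ := conj (P.n i₀) * (τ₀ - τ₁) with hW₁
  set Wx := conj (P.n i₀) * (τ₀ - x) with hWx
  have hr₁ : ‖W₁‖ = ‖τ₁ - τ₀‖ := by
    rw [hW₁, norm_mul, Complex.norm_conj, n_norm, one_mul, norm_sub_rev]
  have hdist : ‖W₁ - Wx‖ = ‖τ₁ - x‖ := by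
    have e : W₁ - Wx = conj (P.n i₀) * (x - τ₁) := by rw [hW₁, hWx]; ring
    rw [e, norm_mul, Complex.norm_conj, n_norm, one_mul, norm_sub_rev]
  set ω₁ := arg W₁ with hω₁
  set ωx := arg Wx with hωx
  have hThx : P.Th i₀ τ₀ x = ωx := rfl
  have hTh1 : P.Th i₀ τ₀ τ₁ = ω₁ := rfl
  rw [hTh1] at hω hd
  rw [hThx] at hd
  have hxre : 0 ≤ Wx.re := by
    rw [hWx, P.re_W i₀ hi₀]
    exact hx
  have hxa := abs_le.1 ((Complex.abs_arg_le_pi_div_two_iff).2 hxre)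
  rw [← hωx] at hxa
  have h0 : Wx.im * Real.cos ωx - Wx.re * Real.sin ωx = 0 := by
    rw [← Complex.norm_mul_sin_arg Wx, ← Complex.norm_mul_cos_arg Wx, ← hωx]
    ring
  have h1 : W₁.im * Real.cos ωx - W₁.re * Real.sin ωx = ‖W₁‖ * Real.sin (ω₁ - ωx) := by
    rw [← Complex.norm_mul_sin_arg W₁, ← Complex.norm_mul_cos_arg W₁, ← hω₁, Real.sin_sub]
    ring
  have h2 := abs_rot (W₁ - Wx) ωx
  have e3 : (W₁ - Wx).im * Real.cos ωx - (W₁ - Wx).re * Real.sin ωx = ‖W₁‖ * Real.sin (ω₁ - ωx) := by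
    simp only [sub_im, sub_re]
    linarith
  rw [e3, abs_mul, abs_norm, hdist, hr₁] at h2
  refine le_trans ?_ h2
  rw [mul_comm]
  apply mul_le_mul_of_nonneg_left _ (norm_nonneg _)
  -- the lower bound for the sine
  set φ := ω₁ - ωx with hφ
  have hpi3 := Real.pi_gt_three
  have hω' := abs_le.1 hω
  have hφabs : |φ| ≤ 1 + Real.pi / 2 := by
    rw [abs_le]
    constructor <;> linarith [hxa.1, hxa.2]
  have hsin : Real.sin |φ| ≤ |Real.sin φ| := by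
    rcases abs_cases φ with ⟨h, _⟩ | ⟨h, _⟩
    · rw [h]; exact le_abs_self _
    · rw [h, Real.sin_neg]; exact neg_le_abs _
  refine le_trans ?_ hsin
  by_cases hc : |φ| ≤ Real.pi / 2
  · have := half_le_sin (abs_nonneg φ) hc
    linarith
  · push_neg at hc
    have e : Real.sin |φ| = Real.cos (|φ| - Real.pi / 2) := by
      rw [← Real.sin_pi_div_two_sub, ← Real.sin_pi_sub]
      congr 1
      ring
    rw [e]
    have h5 := Real.one_sub_sq_div_two_le_cos (x := |φ| - Real.pi / 2)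
    have h6 : (|φ| - Real.pi / 2) ^ 2 ≤ 1 := by
      have h7 : 0 ≤ |φ| - Real.pi / 2 := by linarith
      have h8 : |φ| - Real.pi / 2 ≤ 1 := by linarith
      nlinarith
    linarith

end Pgn

end Vale.Agent.Lib.P123
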