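import Vale.Agent.Lib.P123.Pg14

open Complex ComplexConjugate MeasureTheory Set Filter Topology
open scoped Interval

set_option linter.unusedSectionVars false

namespace Vale.Agent.Lib.P123

namespace Pgn

variable {P : Pgn}

theorem no_two_O {i : ℤ} {s₀ : ℝ} (h0 : 0 < s₀) (h1 : s₀ < P.ℓ i) {γ r₁ : ℝ} (hγ0 : 0 < γ) (hγ1 : γ ≤ 1 / 128)
    (hr₁ : 0 < r₁) (hfar : ∀ q : ℕ, q < 513 → 400 * γ * r₁ ≤ ‖P.v (P.Xq q) - P.σ i s₀‖)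
    {a b : ℝ} {ka kb : ℕ} {sa sb ra rb : ℝ}
    (Ha : Hit P i (P.σ i s₀) a ka sa ra) (Hb : Hit P i (P.σ i s₀) b kb sb rb)
    (hωa : |a| < Real.pi / 2) (hωb : |b| < Real.pi / 2)
    (hab1 : 1 / 16 ≤ b - a) (hab2 : b - a ≤ 3 / 16) (hrb : rb ≤ 4 * r₁)
    (hOa : 0 < P.Dd ka a) (hOa' : Real.cos (P.Dd ka a) < γ)
    (hOb : 0 < P.Dd kb b) (hOb' : Real.cos (P.Dd kb b) < γ) : False := by
  have hposa := P.h_pos_other h0 h1 ka Ha.k1 Ha.k2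
  have hposb := P.h_pos_other h0 h1 kb Hb.k1 Hb.k2
  obtain ⟨q, w, hq, hq1, hq2, hq3⟩ := P.marks_cover (i + ka)
  obtain ⟨p, hp⟩ := Int.eq_ofNat_of_zero_le (show 0 ≤ P.Xq (q + 1) + w * P.m - 1 - (i + ka) by linarith)
  have hD := P.D_pos
  have hpD : (p : ℝ) * P.D ≤ 1 / 64 := by
    refine le_trans (mul_le_mul_of_nonneg_right ?_ hD.le) hq3
    have h2 : (p : ℤ) ≤ P.Xq (q + 1) - 1 - P.Xq q := by linarith
    exact_mod_cast h2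
  have hO := O_lemma Ha Hb hposa hposb hωa hωb hab1 hab2 hγ0 hγ1 hOa hOa' hOb hOb' p hpD
  have e : i + (ka : ℤ) + ((p + 1 : ℕ) : ℤ) = P.Xq (q + 1) + w * P.m := by
    push_cast
    linarith
  rw [e] at hO
  have e2 : P.v (P.Xq (q + 1) + w * P.m) = P.v (P.Xq (q + 1)) :=
    P.per_mul (F := fun j => P.v j) (fun j => P.v_add_m j) _ w
  rw [e2] at hO
  have hf := hfar (q + 1) (by omega)
  have h3 : 96 * γ * rb ≤ 96 * γ * (4 * r₁) := mul_le_mul_of_nonneg_left hrb (by positivity)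
  have h4 : 0 < γ * r₁ := mul_pos hγ0 hr₁
  nlinarith

theorem no_two_I {i : ℤ} {s₀ : ℝ} (h0 : 0 < s₀) (h1 : s₀ < P.ℓ i) {γ r₁ : ℝ} (hγ0 : 0 < γ) (hγ1 : γ ≤ 1 / 128)
    (hr₁ : 0 < r₁) (hfar : ∀ q : ℕ, q < 513 → 400 * γ * r₁ ≤ ‖P.v (P.Xq q) - P.σ i s₀‖)
    {a b : ℝ} {ka kb : ℕ} {sa sb ra rb : ℝ}
    (Ha : Hit P i (P.σ i s₀) a ka sa ra) (Hb : Hit P i (P.σ i s₀) b kb sb rb)
    (hωa : |a| < Real.pi / 2) (hωb : |b| < Real.pi / 2)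
    (hab1 : 1 / 16 ≤ b - a) (hab2 : b - a ≤ 3 / 16) (hra : ra ≤ 4 * r₁)
    (hOa : P.Dd ka a < 0) (hOa' : Real.cos (P.Dd ka a) < γ)
    (hOb : P.Dd kb b < 0) (hOb' : Real.cos (P.Dd kb b) < γ) : False := by
  have hposa := P.h_pos_other h0 h1 ka Ha.k1 Ha.k2
  have hposb := P.h_pos_other h0 h1 kb Hb.k1 Hb.k2
  obtain ⟨q, w, hq, hq1, hq2, hq3⟩ := P.marks_cover (i + kb)
  obtain ⟨p, hp⟩ := Int.eq_ofNat_of_zero_le (show 0 ≤ (i + kb) - (P.Xq q + w * P.m) by linarith)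
  have hD := P.D_pos
  have hpD : (p : ℝ) * P.D ≤ 1 / 64 := by
    refine le_trans (mul_le_mul_of_nonneg_right ?_ hD.le) hq3
    have h2 : (p : ℤ) ≤ P.Xq (q + 1) - 1 - P.Xq q := by linarith
    exact_mod_cast h2
  have hO := I_lemma Ha Hb hposa hposb hωa hωb hab1 hab2 hγ0 hγ1 hOa hOa' hOb hOb' p hpD
  have e : i + (kb : ℤ) - (p : ℤ) = P.Xq q + w * P.m := by
    linarith
  rw [e] at hO
  have e2 : P.v (P.Xq q + w * P.m) = P.v (P.Xq q) :=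
    P.per_mul (F := fun j => P.v j) (fun j => P.v_add_m j) _ w
  rw [e2] at hO
  have hf := hfar q (by omega)
  have h3 : 96 * γ * ra ≤ 96 * γ * (4 * r₁) := mul_le_mul_of_nonneg_left hra (by positivity)
  have h4 : 0 < γ * r₁ := mul_pos hγ0 hr₁
  nlinarith

/-- Transversal hits. -/
def Good (P : Pgn) (i : ℤ) (τ : ℂ) (γ ω : ℝ) : Prop :=
  ∀ (k : ℕ) (s r : ℝ), Hit P i τ ω k s r → γ ≤ Real.cos (P.Dd k ω)

theorem bad_type {i : ℤ} {τ : ℂ} {γ ω : ℝ} (hγ1 : γ ≤ 1) (h : ¬ Good P i τ γ ω) :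
    ∃ (k : ℕ) (s r : ℝ), Hit P i τ ω k s r ∧ Real.cos (P.Dd k ω) < γ ∧
      (0 < P.Dd k ω ∨ P.Dd k ω < 0) := by
  unfold Good at h
  push_neg at h
  obtain ⟨k, s, r, H, hc⟩ := h
  refine ⟨k, s, r, H, hc, ?_⟩
  rcases lt_trichotomy (P.Dd k ω) 0 with h1 | h1 | h1
  · exact Or.inr h1
  · exfalso
    rw [h1, Real.cos_zero] at hc
    linarith
  · exact Or.inl h1

/-- In an interval of length `3 / 16` of short rays there are two close transversal directions. -/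
theorem sector_exists {i : ℤ} {s₀ : ℝ} (h0 : 0 < s₀) (h1 : s₀ < P.ℓ i) {α γ r₁ : ℝ} (hγ0 : 0 < γ)
    (hγ1 : γ ≤ 1 / 128) (hr₁ : 0 < r₁)
    (hfar : ∀ q : ℕ, q < 513 → 400 * γ * r₁ ≤ ‖P.v (P.Xq q) - P.σ i s₀‖)
    (hI : ∀ ω ∈ Icc α (α + 3 / 16), |ω| < Real.pi / 2)
    (hr : ∀ ω ∈ Icc α (α + 3 / 16), ∀ (k : ℕ) (s r : ℝ), Hit P i (P.σ i s₀) ω k s r → r ≤ 4 * r₁) :
    ∃ u, α ≤ u ∧ u + γ / 2 ≤ α + 3 / 16 ∧ Good P i (P.σ i s₀) γ u ∧ Good P i (P.σ i s₀) γ (u + γ / 2) := by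
  by_contra hcon
  push_neg at hcon
  have hstep : ∀ u, α ≤ u → u + γ / 2 ≤ α + 3 / 16 → ∃ ω, u ≤ ω ∧ ω ≤ u + γ / 2 ∧ ¬ Good P i (P.σ i s₀) γ ω := by
    intro u h2 h3
    by_cases hg : Good P i (P.σ i s₀) γ u
    · exact ⟨u + γ / 2, by linarith, le_rfl, hcon u h2 h3 hg⟩
    · exact ⟨u, le_rfl, by linarith, hg⟩
  obtain ⟨ω₁, h11, h12, hb1⟩ := hstep α le_rfl (by linarith)
  obtain ⟨ω₂, h21, h22, hb2⟩ := hstep (α + 3 / 32) (by linarith) (by linarith)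
  obtain ⟨ω₃, h31, h32, hb3⟩ := hstep (α + 3 / 16 - γ / 2) (by linarith) (by linarith)
  have hγ1' : γ ≤ 1 := by linarith
  obtain ⟨k₁, s₁, r₁', H₁, c₁, t₁⟩ := bad_type hγ1' hb1
  obtain ⟨k₂, s₂, r₂', H₂, c₂, t₂⟩ := bad_type hγ1' hb2
  obtain ⟨k₃, s₃, r₃', H₃, c₃, t₃⟩ := bad_type hγ1' hb3
  have m1 : ω₁ ∈ Icc α (α + 3 / 16) := ⟨by linarith, by linarith⟩
  have m2 : ω₂ ∈ Icc α (α + 3 / 16) := ⟨by linarith, by linarith⟩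
  have m3 : ω₃ ∈ Icc α (α + 3 / 16) := ⟨by linarith, by linarith⟩
  rcases t₁ with t₁ | t₁ <;> rcases t₂ with t₂ | t₂ <;> rcases t₃ with t₃ | t₃
  · exact no_two_O h0 h1 hγ0 hγ1 hr₁ hfar H₁ H₂ (hI _ m1) (hI _ m2) (by linarith) (by linarith)
      (hr _ m2 _ _ _ H₂) t₁ c₁ t₂ c₂
  · exact no_two_O h0 h1 hγ0 hγ1 hr₁ hfar H₁ H₂ (hI _ m1) (hI _ m2) (by linarith) (by linarith)
      (hr _ m2 _ _ _ H₂) t₁ c₁ t₂ c₂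
  · exact no_two_O h0 h1 hγ0 hγ1 hr₁ hfar H₁ H₃ (hI _ m1) (hI _ m3) (by linarith) (by linarith)
      (hr _ m3 _ _ _ H₃) t₁ c₁ t₃ c₃
  · exact no_two_I h0 h1 hγ0 hγ1 hr₁ hfar H₂ H₃ (hI _ m2) (hI _ m3) (by linarith) (by linarith)
      (hr _ m2 _ _ _ H₂) t₂ c₂ t₃ c₃
  · exact no_two_O h0 h1 hγ0 hγ1 hr₁ hfar H₂ H₃ (hI _ m2) (hI _ m3) (by linarith) (by linarith)
      (hr _ m3 _ _ _ H₃) t₂ c₂ t₃ c₃
  · exact no_two_I h0 h1 hγ0 hγ1 hr₁ hfar H₁ H₃ (hI _ m1) (hI _ m3) (by linarith) (by linarith)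
      (hr _ m1 _ _ _ H₁) t₁ c₁ t₃ c₃
  · exact no_two_I h0 h1 hγ0 hγ1 hr₁ hfar H₁ H₂ (hI _ m1) (hI _ m2) (by linarith) (by linarith)
      (hr _ m1 _ _ _ H₁) t₁ c₁ t₂ c₂
  · exact no_two_I h0 h1 hγ0 hγ1 hr₁ hfar H₁ H₂ (hI _ m1) (hI _ m2) (by linarith) (by linarith)
      (hr _ m1 _ _ _ H₁) t₁ c₁ t₂ c₂

end Pgn

/-- The geometric selection theorem: universal constants for chords without flat sides. -/
theorem geom : ∃ κ c : ℝ, 0 < κ ∧ κ ≤ 1 ∧ 0 < c ∧ c ≤ 1 ∧ ∀ (P : Pgn) (i₀ : ℤ) (s₀ : ℝ), 0 < s₀ → s₀ < P.ℓ i₀ →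
    ∃ x₀ y₀ : ℝ, -1 ≤ x₀ ∧ y₀ ≤ 1 ∧ x₀ + c ≤ y₀ ∧ ∀ (i₁ : ℤ) (s₁ : ℝ), 0 < s₁ → s₁ < P.ℓ i₁ →
      0 < P.h i₁ (P.σ i₀ s₀) → P.Th i₀ (P.σ i₀ s₀) (P.σ i₁ s₁) ∈ Icc x₀ y₀ →
      ∃ x₁ y₁ : ℝ, - (Real.pi / 2) ≤ x₁ ∧ y₁ ≤ Real.pi / 2 ∧ x₁ + c ≤ y₁ ∧
        ∀ (j : ℤ) (s : ℝ), s ∈ Ioo 0 (P.ℓ j) → 0 < P.h j (P.σ i₁ s₁) →
          P.Th i₁ (P.σ i₁ s₁) (P.σ j s) ∈ Icc x₁ y₁ →
          ∀ l : ℤ, κ * ‖P.σ j s - P.σ i₁ s₁‖ ≤ max (P.h l (P.σ i₁ s₁)) (P.h l (P.σ j s)) := by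
  set w : ℝ := 1 / 3 ^ 513 with hw
  have hw0 : 0 < w := by positivity
  have hw1 : w ≤ 1 := by
    rw [hw, div_le_one (by positivity)]
    exact one_le_pow₀ (by norm_num)
  set γ : ℝ := w / 1000 with hγ
  have hγ0 : 0 < γ := by positivity
  have hγ1 : γ ≤ 1 / 128 := by
    rw [hγ]; linarith
  have hpi3 := Real.pi_gt_three
  refine ⟨γ ^ 2 / 1000, γ / 6, by positivity, ?_, by positivity, by linarith, ?_⟩
  · have : γ ^ 2 ≤ 1 := pow_le_one₀ hγ0.le (by linarith)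
    linarith
  intro P i₀ s₀ h0 h1
  set τ₀ := P.σ i₀ s₀ with hτ₀
  obtain ⟨x₀, y₀, hx₀, hy₀, hxy, hgap⟩ := Pgn.gap (fun q => P.Th i₀ τ₀ (P.v (P.Xq q))) 513
  refine ⟨x₀, y₀, hx₀, hy₀, ?_, ?_⟩
  · have e : (2 : ℝ) / 3 ^ 513 = 2 * w := by rw [hw]; ring
    rw [e] at hxy
    rw [hγ]
    linarith
  intro i₁ s₁ h0' h1' hpos hmem
  set τ₁ := P.σ i₁ s₁ with hτ₁
  have hi₀ : P.h i₀ τ₀ = 0 := P.h_σ_self i₀ s₀
  have hτ₁O : τ₁ ∈ P.Ob := P.σ_mem_Ob' h0' h1'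
  have hnd : ¬ ((P.m : ℤ) ∣ i₀ - i₁) := by
    intro hd
    obtain ⟨w', hw'⟩ := hd
    have e : i₁ = i₀ + (- w') * P.m := by linarith
    rw [e, P.h_per, hi₀] at hpos
    exact lt_irrefl _ hpos
  have hh0 : 0 < P.h i₀ τ₁ := P.h_σ_pos i₀ i₁ h0' h1' hnd
  set r₁ := ‖τ₁ - τ₀‖ with hr₁
  have hr₁0 : 0 < r₁ := by
    rw [hr₁, norm_pos_iff]
    intro h
    have e : τ₁ = τ₀ := sub_eq_zero.1 h
    rw [e, hi₀] at hh0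
    exact lt_irrefl _ hh0
  set ω₁ := P.Th i₀ τ₀ τ₁ with hω₁
  have hω₁abs : |ω₁| ≤ 1 := by
    rw [abs_le]
    exact ⟨by linarith [hmem.1], by linarith [hmem.2]⟩
  have hfar : ∀ q : ℕ, q < 513 → 400 * γ * r₁ ≤ ‖P.v (P.Xq q) - τ₁‖ := by
    intro q hq
    have h2 := hgap q hq ω₁ hmem
    have h3 := Pgn.far_of_angle (P := P) (i₀ := i₀) (τ₀ := τ₀) (τ₁ := τ₁) (x := P.v (P.Xq q)) hi₀
      (P.h_v_nonneg _ _) hw0 hw1 hω₁abs h2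
    rw [norm_sub_rev τ₁ (P.v (P.Xq q)), ← hr₁] at h3
    refine le_trans ?_ h3
    apply mul_le_mul_of_nonneg_right _ hr₁0.le
    rw [hγ]
    linarith
  -- the heights
  set W₁ := conj (P.n i₀) * (τ₀ - τ₁) with hW₁
  have hW₁re : W₁.re = P.h i₀ τ₁ := P.re_W i₀ hi₀ τ₁
  have hW₁n : ‖W₁‖ = r₁ := by
    rw [hW₁, norm_mul, Complex.norm_conj, P.n_norm, one_mul, norm_sub_rev]
  have hcos : P.h i₀ τ₁ = r₁ * Real.cos ω₁ := by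
    rw [← hW₁re, ← hW₁n]
    exact (Complex.norm_mul_cos_arg W₁).symm
  have hcos1 : 1 / 2 ≤ Real.cos ω₁ := by
    have h2 := Real.one_sub_sq_div_two_le_cos (x := ω₁)
    have h3 : ω₁ ^ 2 ≤ 1 := by
      rw [← sq_abs]
      exact pow_le_one₀ (abs_nonneg _) hω₁abs
    linarith
  have hup : P.h i₀ τ₁ ≤ r₁ := by
    rw [hcos]
    have := Real.cos_le_one ω₁
    nlinarith
  have hlow : r₁ / 2 ≤ P.h i₀ τ₁ := by
    rw [hcos]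
    nlinarith
  -- the direction back
  set ωe := P.Th i₁ τ₁ τ₀ with hωe
  have hωeabs : |ωe| < Real.pi / 2 := by
    rw [hωe]
    unfold Pgn.Th
    rw [Complex.abs_arg_lt_pi_div_two_iff]
    left
    rw [P.re_W i₁ (P.h_σ_self i₁ s₁)]
    exact hpos
  have hpolar := P.polar_eq i₁ τ₁ τ₀
  have hn : ‖τ₀ - τ₁‖ = r₁ := norm_sub_rev _ _
  rw [hn] at hpolar
  have hdote : 1 / 2 ≤ P.dot i₀ (P.ee i₁ ωe) := by
    have h2 := P.h_ray i₀ i₁ τ₁ r₁ ωe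
    rw [← hpolar, hi₀] at h2
    have h3 : r₁ * (1 / 2) ≤ r₁ * P.dot i₀ (P.ee i₁ ωe) := by linarith
    exact le_of_mul_le_mul_left h3 hr₁0
  set α : ℝ := if ωe < 0 then ωe else ωe - 3 / 16 with hα
  have hωe' := abs_lt.1 hωeabs
  have hI : ∀ ω ∈ Icc α (α + 3 / 16), |ω| < Real.pi / 2 ∧ |ωe - ω| ≤ 3 / 16 := by
    intro ω hω
    by_cases hs : ωe < 0
    · have e : α = ωe := by rw [hα, if_pos hs]
      rw [e] at hω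
      constructor
      · rw [abs_lt]
        constructor <;> linarith [hω.1, hω.2]
      · rw [abs_le]
        constructor <;> linarith [hω.1, hω.2]
    · have e : α = ωe - 3 / 16 := by rw [hα, if_neg hs]
      rw [e] at hω
      push_neg at hs
      constructor
      · rw [abs_lt]
        constructor <;> linarith [hω.1, hω.2]
      · rw [abs_le]
        constructor <;> linarith [hω.1, hω.2]
  have hr : ∀ ω ∈ Icc α (α + 3 / 16), ∀ (k : ℕ) (s r : ℝ), Pgn.Hit P i₁ τ₁ ω k s r → r ≤ 4 * r₁ := by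
    intro ω hω k s r H
    have h2 := H.le i₀
    have h3 := P.dot_ee_lip i₀ i₁ ωe ω
    have h4 := (hI ω hω).2
    have h5 : 1 / 4 ≤ P.dot i₀ (P.ee i₁ ω) := by linarith
    have h6 := H.r0
    nlinarith
  obtain ⟨u, hu1, hu2, hg1, hg2⟩ := Pgn.sector_exists h0' h1' hγ0 hγ1 hr₁0 hfar
    (fun ω hω => (hI ω hω).1) hr
  have hum1 : u ∈ Icc α (α + 3 / 16) := ⟨hu1, by linarith⟩
  have hum2 : u + γ / 2 ∈ Icc α (α + 3 / 16) := ⟨by linarith, hu2⟩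
  have hua1 := abs_lt.1 (hI u hum1).1
  have hua2 := abs_lt.1 (hI _ hum2).1
  obtain ⟨k₁, t₁, q₁, H₁⟩ := Pgn.exists_hit h0' h1' (hI u hum1).1
  obtain ⟨k₂, t₂, q₂, H₂⟩ := Pgn.exists_hit h0' h1' (hI _ hum2).1
  refine ⟨u + γ / 6, u + γ / 3, by linarith, by linarith, by linarith, ?_⟩
  intro j s hs hpos' hmem' l
  have hξO : P.σ j s ∈ P.Ob := P.σ_mem_Ob' hs.1 hs.2
  have ha : 0 < ‖P.σ j s - τ₁‖ := by
    rw [norm_pos_iff]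
    intro h
    have e : P.σ j s = τ₁ := sub_eq_zero.1 h
    have := P.h_σ_self j s
    rw [e] at this
    linarith
  exact Pgn.nf_of_hits hγ0 hγ1 H₁ H₂ (hg1 _ _ _ H₁) (hg2 _ _ _ H₂) hτ₁O hξO ha
    (P.polar_eq i₁ τ₁ (P.σ j s)) hmem'.1 hmem'.2 l

end Vale.Agent.Lib.P123
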