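import Vale.Agent.Lib.P123.Pg15

open Complex ComplexConjugate MeasureTheory Set Filter Topology
open scoped Interval

set_option linter.unusedSectionVars false

namespace Vale.Agent.Lib.P123

namespace Pgn

variable {P : Pgn}

theorem TT_mono {ψ₁ ψ₂ : ℂ → ℝ} (h1 : ContinuousOn ψ₁ P.bd) (h2 : ContinuousOn ψ₂ P.bd) {τ : ℂ} (hτ : τ ∈ P.Ob)
    (h : ∀ z ∈ P.bd, ψ₁ z ≤ ψ₂ z) : P.TT ψ₁ τ ≤ P.TT ψ₂ τ := by
  apply bint_mono (P.TT_SC h1 hτ) (P.TT_SC h2 hτ)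
  intro j s hs
  exact mul_le_mul_of_nonneg_right (h _ (P.σ_mem_bd j hs.1.le hs.2.le)) (P.K_nonneg hτ j s)

theorem TT_add {ψ₁ ψ₂ : ℂ → ℝ} (h1 : ContinuousOn ψ₁ P.bd) (h2 : ContinuousOn ψ₂ P.bd) {τ : ℂ} (hτ : τ ∈ P.Ob) :
    P.TT (fun z => ψ₁ z + ψ₂ z) τ = P.TT ψ₁ τ + P.TT ψ₂ τ := by
  unfold TT
  rw [← bint_add (P.TT_SC h1 hτ) (P.TT_SC h2 hτ)]
  congr 2
  ext j s
  ring

theorem TT_const_mul (c : ℝ) (ψ : ℂ → ℝ) (τ : ℂ) :
    P.TT (fun z => c * ψ z) τ = c * P.TT ψ τ := by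
  unfold TT
  have := bint_const_mul (P := P) c (fun j s => ψ (P.σ j s) * P.K τ j s)
  rw [← this]
  congr 2
  ext j s
  ring

theorem TT_const (c : ℝ) {i : ℤ} {s₀ : ℝ} (h0 : 0 < s₀) (h1 : s₀ < P.ℓ i) :
    P.TT (fun _ => c) (P.σ i s₀) = c := by
  unfold TT
  have := bint_const_mul (P := P) c (fun j s => P.K (P.σ i s₀) j s)
  change P.bint (fun j s => c * P.K (P.σ i s₀) j s) = c
  rw [this]
  change c * P.bint (P.K (P.σ i s₀)) = c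
  rw [P.K_mass h0 h1, mul_one]

theorem TT_affine (A B : ℝ) {ψ : ℂ → ℝ} (hψ : ContinuousOn ψ P.bd) {i : ℤ} {s₀ : ℝ} (h0 : 0 < s₀)
    (h1 : s₀ < P.ℓ i) :
    P.TT (fun z => A + B * ψ z) (P.σ i s₀) = A + B * P.TT ψ (P.σ i s₀) := by
  have hτ := P.σ_mem_Ob' h0 h1
  have hB : ContinuousOn (fun z => B * ψ z) P.bd := continuousOn_const.mul hψ
  have hA : ContinuousOn (fun _ : ℂ => A) P.bd := continuousOn_const
  rw [TT_add hA hB hτ, TT_const A h0 h1, TT_const_mul]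

/-- the defect -/
noncomputable def Wf (f : ℂ → ℂ) (z : ℂ) : ℝ := 1 - ‖f z‖ ^ 2

theorem Wf_cont {f : ℂ → ℂ} (hf : ContinuousOn f P.bd) : ContinuousOn (Wf f) P.bd := by
  unfold Wf
  exact continuousOn_const.sub (hf.norm.pow 2)

theorem Wf_nonneg {f : ℂ → ℂ} {z : ℂ} (h : ‖f z‖ ≤ 1) : 0 ≤ Wf f z := by
  unfold Wf
  have := pow_le_one₀ (norm_nonneg _) h (n := 2)
  linarith

theorem sq_cont {f : ℂ → ℂ} (hf : ContinuousOn f P.bd) (a : ℂ) :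
    ContinuousOn (fun w => ‖a + f w‖ ^ 2) P.bd :=
  (continuousOn_const.add hf).norm.pow 2

/-- Pointwise estimate for the defect. -/
theorem Wf_point {a b : ℂ} (ha : ‖a‖ ≤ 1) (hb : ‖b‖ ≤ 1) {t : ℝ} (ht : 0 < t) :
    1 - ‖b‖ ^ 2 ≤ (1 - ‖a‖ ^ 2) + t + (1 / t) * ‖a + b‖ ^ 2 := by
  have h1 : ‖a‖ - ‖b‖ ≤ ‖a + b‖ := by
    have : a = (a + b) - b := by ring
    have h2 := norm_sub_le (a + b) b
    rw [← this] at h2
    linarith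
  have h3 : ‖b‖ - ‖a‖ ≤ ‖a + b‖ := by
    have : b = (a + b) - a := by ring
    have h2 := norm_sub_le (a + b) a
    rw [← this] at h2
    linarith
  have hn := norm_nonneg (a + b)
  have h4 : ‖a‖ ^ 2 - ‖b‖ ^ 2 ≤ 2 * ‖a + b‖ := by
    have e : ‖a‖ ^ 2 - ‖b‖ ^ 2 = (‖a‖ - ‖b‖) * (‖a‖ + ‖b‖) := by ring
    rw [e]
    have h5 : 0 ≤ ‖a‖ + ‖b‖ := by positivity
    have h6 : ‖a‖ + ‖b‖ ≤ 2 := by linarith
    calc (‖a‖ - ‖b‖) * (‖a‖ + ‖b‖) ≤ ‖a + b‖ * (‖a‖ + ‖b‖) := mul_le_mul_of_nonneg_right h1 h5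
      _ ≤ ‖a + b‖ * 2 := mul_le_mul_of_nonneg_left h6 hn
      _ = 2 * ‖a + b‖ := by ring
  have h7 : 2 * ‖a + b‖ ≤ t + (1 / t) * ‖a + b‖ ^ 2 := by
    have e : t + (1 / t) * ‖a + b‖ ^ 2 - 2 * ‖a + b‖ = (1 / t) * (t - ‖a + b‖) ^ 2 := by
      field_simp
      ring
    have : 0 ≤ (1 / t) * (t - ‖a + b‖) ^ 2 := by positivity
    linarith
  linarith

/-- The average of the defect. -/
theorem TT_Wf_le {f : ℂ → ℂ} (hf : ContinuousOn f P.bd) (hf1 : ∀ z ∈ P.bd, ‖f z‖ ≤ 1) {i : ℤ} {s₀ : ℝ}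
    (h0 : 0 < s₀) (h1 : s₀ < P.ℓ i) {t : ℝ} (ht : 0 < t) :
    P.TT (Wf f) (P.σ i s₀) ≤ Wf f (P.σ i s₀) + t + (1 / t) * Fl P f (P.σ i s₀) := by
  set τ := P.σ i s₀ with hτdef
  have hτ : τ ∈ P.Ob := P.σ_mem_Ob' h0 h1
  have hτb : τ ∈ P.bd := P.σ_mem_bd i h0.le h1.le
  have hc := sq_cont hf (f τ)
  have h2 : P.TT (Wf f) τ ≤ P.TT (fun z => (Wf f τ + t) + (1 / t) * ‖f τ + f z‖ ^ 2) τ := by
    have hcc : ContinuousOn (fun z => (Wf f τ + t) + (1 / t) * ‖f τ + f z‖ ^ 2) P.bd :=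
      continuousOn_const.add (continuousOn_const.mul hc)
    apply TT_mono (Wf_cont hf) hcc hτ
    intro z hz
    have := Wf_point (hf1 τ hτb) (hf1 z hz) ht
    unfold Wf
    linarith
  rw [TT_affine _ _ hc h0 h1] at h2
  exact h2

/-- The average of a norm against the kernel. -/
theorem TT_norm_le {f : ℂ → ℂ} (hf : ContinuousOn f P.bd) {i : ℤ} {s₀ : ℝ}
    (h0 : 0 < s₀) (h1 : s₀ < P.ℓ i) {t : ℝ} (ht : 0 < t) :
    P.TT (fun w => ‖f w + f (P.σ i s₀)‖) (P.σ i s₀) ≤ t / 2 + (1 / (2 * t)) * Fl P f (P.σ i s₀) := by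
  set τ := P.σ i s₀ with hτdef
  have hτ : τ ∈ P.Ob := P.σ_mem_Ob' h0 h1
  have hc := sq_cont hf (f τ)
  have hc2 : ContinuousOn (fun w => ‖f w + f τ‖) P.bd := (hf.add continuousOn_const).norm
  have h2 : P.TT (fun w => ‖f w + f τ‖) τ ≤ P.TT (fun z => t / 2 + (1 / (2 * t)) * ‖f τ + f z‖ ^ 2) τ := by
    have hcc : ContinuousOn (fun z => t / 2 + (1 / (2 * t)) * ‖f τ + f z‖ ^ 2) P.bd :=
      continuousOn_const.add (continuousOn_const.mul hc)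
    apply TT_mono hc2 hcc hτ
    intro z _
    have e : f τ + f z = f z + f τ := add_comm _ _
    rw [e]
    set x := ‖f z + f τ‖
    have e2 : t / 2 + (1 / (2 * t)) * x ^ 2 - x = (1 / (2 * t)) * (t - x) ^ 2 := by
      field_simp
      ring
    have : 0 ≤ (1 / (2 * t)) * (t - x) ^ 2 := by positivity
    linarith
  rw [TT_affine _ _ hc h0 h1] at h2
  exact h2

/-- The average with the sign reversed at the other end point. -/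
theorem TT_norm_sub_le {f : ℂ → ℂ} (hf : ContinuousOn f P.bd) {i : ℤ} {s₀ : ℝ}
    (h0 : 0 < s₀) (h1 : s₀ < P.ℓ i) (v : ℂ) {t : ℝ} (ht : 0 < t) :
    P.TT (fun w => ‖f w - v‖) (P.σ i s₀) ≤
      t / 2 + (1 / (2 * t)) * Fl P f (P.σ i s₀) + ‖f (P.σ i s₀) + v‖ := by
  set ξ := P.σ i s₀ with hξdef
  have hξ : ξ ∈ P.Ob := P.σ_mem_Ob' h0 h1
  have hc2 : ContinuousOn (fun w => ‖f w + f ξ‖) P.bd := (hf.add continuousOn_const).norm
  have hc3 : ContinuousOn (fun w => ‖f w - v‖) P.bd := (hf.sub continuousOn_const).norm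
  have h2 : P.TT (fun w => ‖f w - v‖) ξ ≤ P.TT (fun w => ‖f ξ + v‖ + 1 * ‖f w + f ξ‖) ξ := by
    have hcc : ContinuousOn (fun w => ‖f ξ + v‖ + 1 * ‖f w + f ξ‖) P.bd :=
      continuousOn_const.add (continuousOn_const.mul hc2)
    apply TT_mono hc3 hcc hξ
    intro z _
    have e : f z - v = (f z + f ξ) - (f ξ + v) := by ring
    rw [e]
    have := norm_sub_le (f z + f ξ) (f ξ + v)
    linarith
  rw [TT_affine _ _ hc2 h0 h1] at h2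
  have h3 := TT_norm_le hf h0 h1 ht
  rw [← hξdef] at h3
  linarith

end Pgn

end Vale.Agent.Lib.P123
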