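import Vale.Agent.Lib.P123.Pg16

open Complex ComplexConjugate MeasureTheory Set Filter Topology
open scoped Interval

set_option linter.unusedSectionVars false

namespace Vale.Agent.Lib.P123

namespace Pgn

variable {P : Pgn}

/-- First selection: a point of small total defect. -/
theorem first_point {τ : ℝ} (hτ : 0 < τ) {ρ : ℤ → ℝ → ℝ} (hρ : P.SC ρ)
    (hρ0 : ∀ j, ∀ s ∈ Icc 0 (P.ℓ j), 0 ≤ ρ j s) (hρm : P.bint ρ = 2)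
    {f₀ f₁ f₂ f₃ : ℂ → ℂ} (c₀ : ContinuousOn f₀ P.bd) (c₁ : ContinuousOn f₁ P.bd)
    (c₂ : ContinuousOn f₂ P.bd) (c₃ : ContinuousOn f₃ P.bd)
    (a₀ : P.bint (fun j s => (1 - ‖f₀ (P.σ j s)‖ ^ 2) * ρ j s) ≤ 2 * τ)
    (a₁ : P.bint (fun j s => (1 - ‖f₁ (P.σ j s)‖ ^ 2) * ρ j s) ≤ 2 * τ)
    (a₂ : P.bint (fun j s => (1 - ‖f₂ (P.σ j s)‖ ^ 2) * ρ j s) ≤ 2 * τ)
    (a₃ : P.bint (fun j s => (1 - ‖f₃ (P.σ j s)‖ ^ 2) * ρ j s) ≤ 2 * τ) :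
    ∃ (i : ℤ) (s : ℝ), s ∈ Ioo 0 (P.ℓ i) ∧
      Wf f₀ (P.σ i s) + Wf f₁ (P.σ i s) + Wf f₂ (P.σ i s) + Wf f₃ (P.σ i s) ≤ 5 * τ := by
  by_contra hcon
  push_neg at hcon
  have hs : ∀ f : ℂ → ℂ, ContinuousOn f P.bd → P.SC (fun j s => (1 - ‖f (P.σ j s)‖ ^ 2) * ρ j s) := by
    intro f hf j
    exact ((Wf_cont hf).comp (P.σ_cont j).continuousOn (fun _ hs => P.σ_mem_bd' j hs)).mul (hρ j)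
  have h1 : P.bint (fun j s => 5 * τ * ρ j s) ≤ P.bint (fun j s =>
      (1 - ‖f₀ (P.σ j s)‖ ^ 2) * ρ j s + (1 - ‖f₁ (P.σ j s)‖ ^ 2) * ρ j s +
      (1 - ‖f₂ (P.σ j s)‖ ^ 2) * ρ j s + (1 - ‖f₃ (P.σ j s)‖ ^ 2) * ρ j s) := by
    apply bint_mono
    · intro j
      exact continuousOn_const.mul (hρ j)
    · intro j
      exact (((hs f₀ c₀ j).add (hs f₁ c₁ j)).add (hs f₂ c₂ j)).add (hs f₃ c₃ j)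
    · intro j s hss
      have h2 := hcon j s hss
      have h3 := hρ0 j s (Ioo_subset_Icc_self hss)
      unfold Wf at h2
      have := mul_le_mul_of_nonneg_right h2.le h3
      linarith
  have e1 : P.bint (fun j s => 5 * τ * ρ j s) = 5 * τ * 2 := by
    rw [bint_const_mul, hρm]
  have e2 := bint_add (P := P) (hs f₀ c₀) (hs f₁ c₁)
  have e3 := bint_add (P := P) ((hs f₀ c₀).add (hs f₁ c₁)) (hs f₂ c₂)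
  have e4 := bint_add (P := P) (((hs f₀ c₀).add (hs f₁ c₁)).add (hs f₂ c₂)) (hs f₃ c₃)
  rw [e1, e4, e3, e2] at h1
  linarith

/-- The last stage: contradiction from a chord without flat sides with small defects. -/
theorem stage_three {κ : ℝ} (hκ0 : 0 < κ) (hκ1 : κ ≤ 1) {i₁ : ℤ} {s₁ : ℝ} (h0' : 0 < s₁) (h1' : s₁ < P.ℓ i₁)
    {j : ℤ} {s : ℝ} (hs : s ∈ Ioo 0 (P.ℓ j)) (hpos' : 0 < P.h j (P.σ i₁ s₁))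
    (hnf : ∀ l : ℤ, κ * ‖P.σ j s - P.σ i₁ s₁‖ ≤ max (P.h l (P.σ i₁ s₁)) (P.h l (P.σ j s)))
    {t₂ B₁ B₂ : ℝ} (ht₂ : 0 < t₂) (hp3 : B₁ ≤ 3 / 4)
    (hp4 : (432 * Real.pi / κ ^ 4) * ((t₂ / 2 + (1 / (2 * t₂)) * (4 * B₁)) +
      (t₂ / 2 + (1 / (2 * t₂)) * (4 * B₂) + Real.sqrt B₂)) < κ ^ 2 / 12)
    {f₀ f₁ : ℂ → ℂ} (hf₀ : DiffContOnCl ℂ f₀ P.Om)
    (F₀ : ∀ (i : ℤ) (s : ℝ), 0 < s → s < P.ℓ i → Fl P f₀ (P.σ i s) ≤ 4 * (1 - ‖f₁ (P.σ i s)‖ ^ 2))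
    (hW₀ : Wf f₀ (P.σ i₁ s₁) ≤ B₁) (hW₁ : Wf f₁ (P.σ i₁ s₁) ≤ B₁) (hWξ : Wf f₁ (P.σ j s) ≤ B₂)
    (hsqξ : ‖f₀ (P.σ i₁ s₁) + f₀ (P.σ j s)‖ ^ 2 ≤ B₂) : False := by
  have hpi3 := Real.pi_gt_three
  have c₀ : ContinuousOn f₀ P.bd := by
    have := hf₀.continuousOn
    rw [P.closure_Om] at this
    exact this.mono P.bd_subset_Ob
  set τ₁ := P.σ i₁ s₁ with hτ₁
  set ξ := P.σ j s with hξ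
  have hFl₀ : Fl P f₀ τ₁ ≤ 4 * B₁ := by
    have : Fl P f₀ τ₁ ≤ 4 * Wf f₁ τ₁ := F₀ i₁ s₁ h0' h1'
    linarith
  -- index of the second point
  obtain ⟨q, w, hq, hjq⟩ := P.exists_rep (j - i₁)
  have hq0 : q ≠ 0 := by
    intro hq0
    have e : j = i₁ + w * P.m := by
      rw [hq0] at hjq
      simp at hjq
      linarith
    rw [e, P.h_per, hτ₁, P.h_σ_self] at hpos'
    exact lt_irrefl _ hpos'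
  have hje : j = (i₁ + q) + w * P.m := by linarith
  have hσ : ξ = P.σ (i₁ + q) s := by
    rw [hξ, hje]
    exact P.per_mul (F := fun j => P.σ j s) (fun j => P.σ_add_m j s) _ w
  have hl : P.ℓ j = P.ℓ (i₁ + q) := by
    rw [hje]
    exact P.per_mul (F := fun j => P.ℓ j) (fun j => P.ℓ_add_m j) _ w
  have hmain := final hf₀ h0' h1' (k' := q) (by omega) hq hs.1 (hl ▸ hs.2) hκ0 hκ1 (by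
    intro l
    rw [← hσ]
    exact hnf l)
  rw [← hσ] at hmain
  -- estimates of the right side
  have hE1 := TT_norm_le c₀ h0' h1' ht₂
  have hE2 := TT_norm_sub_le c₀ hs.1 hs.2 (f₀ τ₁) ht₂
  have hinv : 0 < 1 / (2 * t₂) := by positivity
  have hFlξ : Fl P f₀ ξ ≤ 4 * B₂ := by
    have : Fl P f₀ ξ ≤ 4 * Wf f₁ ξ := F₀ j s hs.1 hs.2
    linarith
  have hnorm : ‖f₀ ξ + f₀ τ₁‖ ≤ Real.sqrt B₂ := by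
    rw [add_comm]
    exact Real.le_sqrt_of_sq_le hsqξ
  have hR1 : P.TT (fun w => ‖f₀ w + f₀ τ₁‖) τ₁ ≤ t₂ / 2 + (1 / (2 * t₂)) * (4 * B₁) :=
    hE1.trans (by
      have := mul_le_mul_of_nonneg_left hFl₀ hinv.le
      linarith)
  have hR2 : P.TT (fun w => ‖f₀ w - f₀ τ₁‖) ξ ≤ t₂ / 2 + (1 / (2 * t₂)) * (4 * B₂) + Real.sqrt B₂ :=
    hE2.trans (by
      have := mul_le_mul_of_nonneg_left hFlξ hinv.le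
      linarith)
  have hCC : 0 ≤ 432 * Real.pi / κ ^ 4 := by positivity
  have hbig := mul_le_mul_of_nonneg_left (add_le_add hR1 hR2) hCC
  have hlow : 1 / 2 ≤ ‖f₀ τ₁‖ := by
    unfold Wf at hW₀
    have h2 : 1 / 4 ≤ ‖f₀ τ₁‖ ^ 2 := by linarith
    have h3 := norm_nonneg (f₀ τ₁)
    nlinarith
  have hκ2 : 0 < κ ^ 2 / 6 := by positivity
  have hfin : (1 / 2) * (κ ^ 2 / 6) ≤ ‖f₀ τ₁‖ * (κ ^ 2 / 6) := mul_le_mul_of_nonneg_right hlow hκ2.le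
  have e : (1 / 2) * (κ ^ 2 / 6) = κ ^ 2 / 12 := by ring
  linarith

theorem frac_le {c x y : ℝ} (hc0 : 0 < c) (hxy : x + c ≤ y) {B : ℝ} (hB : 0 < B) :
    B * (2 * c / (3 * Real.pi)) ≤ B * (2 * (y - x) / (3 * Real.pi)) := by
  have hpi := Real.pi_pos
  apply mul_le_mul_of_nonneg_left _ hB.le
  apply div_le_div_of_nonneg_right _ (by positivity)
  linarith

/-- The second stage: selection of the other end of the chord. -/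
theorem stage_two {κ c : ℝ} (hκ0 : 0 < κ) (hκ1 : κ ≤ 1) (hc0 : 0 < c) {i₁ : ℤ} {s₁ : ℝ} (h0' : 0 < s₁)
    (h1' : s₁ < P.ℓ i₁) {x₁ y₁ : ℝ} (hx₁ : - (Real.pi / 2) ≤ x₁) (hy₁ : y₁ ≤ Real.pi / 2) (hxy₁ : x₁ + c ≤ y₁)
    (hNF : ∀ (j : ℤ) (s : ℝ), s ∈ Ioo 0 (P.ℓ j) → 0 < P.h j (P.σ i₁ s₁) →
      P.Th i₁ (P.σ i₁ s₁) (P.σ j s) ∈ Icc x₁ y₁ →
      ∀ l : ℤ, κ * ‖P.σ j s - P.σ i₁ s₁‖ ≤ max (P.h l (P.σ i₁ s₁)) (P.h l (P.σ j s)))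
    {t₁ t₂ B₁ B₂ : ℝ} (ht₁ : 0 < t₁) (ht₂ : 0 < t₂) (hB₂ : 0 < B₂)
    (hp2 : 5 * B₁ + t₁ + (1 / t₁) * (4 * B₁) < B₂ * (2 * c / (3 * Real.pi)))
    (hp3 : B₁ ≤ 3 / 4)
    (hp4 : (432 * Real.pi / κ ^ 4) * ((t₂ / 2 + (1 / (2 * t₂)) * (4 * B₁)) +
      (t₂ / 2 + (1 / (2 * t₂)) * (4 * B₂) + Real.sqrt B₂)) < κ ^ 2 / 12)
    {f₀ f₁ f₂ : ℂ → ℂ} (hf₀ : DiffContOnCl ℂ f₀ P.Om) (c₁ : ContinuousOn f₁ P.bd)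
    (b₁ : ∀ z ∈ P.bd, ‖f₁ z‖ ≤ 1)
    (F₀ : ∀ (i : ℤ) (s : ℝ), 0 < s → s < P.ℓ i → Fl P f₀ (P.σ i s) ≤ 4 * (1 - ‖f₁ (P.σ i s)‖ ^ 2))
    (F₁ : ∀ (i : ℤ) (s : ℝ), 0 < s → s < P.ℓ i → Fl P f₁ (P.σ i s) ≤ 4 * (1 - ‖f₂ (P.σ i s)‖ ^ 2))
    (hW₀ : Wf f₀ (P.σ i₁ s₁) ≤ B₁) (hW₁ : Wf f₁ (P.σ i₁ s₁) ≤ B₁) (hW₂ : Wf f₂ (P.σ i₁ s₁) ≤ B₁) :
    False := by
  have hpi3 := Real.pi_gt_three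
  have c₀ : ContinuousOn f₀ P.bd := by
    have := hf₀.continuousOn
    rw [P.closure_Om] at this
    exact this.mono P.bd_subset_Ob
  have W₁c := Wf_cont c₁
  set τ₁ := P.σ i₁ s₁ with hτ₁
  have hτ₁O : τ₁ ∈ P.Ob := P.σ_mem_Ob' h0' h1'
  have hFl₀ : Fl P f₀ τ₁ ≤ 4 * B₁ := by
    have : Fl P f₀ τ₁ ≤ 4 * Wf f₁ τ₁ := F₀ i₁ s₁ h0' h1'
    linarith
  have hFl₁ : Fl P f₁ τ₁ ≤ 4 * B₁ := by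
    have : Fl P f₁ τ₁ ≤ 4 * Wf f₂ τ₁ := F₁ i₁ s₁ h0' h1'
    linarith
  have hsq := sq_cont c₀ (f₀ τ₁)
  have hψ₂c : ContinuousOn (fun z => Wf f₁ z + ‖f₀ τ₁ + f₀ z‖ ^ 2) P.bd := W₁c.add hsq
  have hψ₂0 : ∀ z ∈ P.bd, 0 ≤ Wf f₁ z + ‖f₀ τ₁ + f₀ z‖ ^ 2 := by
    intro z hz
    have h2 := Wf_nonneg (b₁ z hz)
    positivity
  have hTψ₂ : P.TT (fun z => Wf f₁ z + ‖f₀ τ₁ + f₀ z‖ ^ 2) τ₁ ≤ 5 * B₁ + t₁ + (1 / t₁) * (4 * B₁) := by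
    rw [TT_add W₁c hsq hτ₁O]
    have h2 := TT_Wf_le c₁ b₁ h0' h1' ht₁
    rw [← hτ₁] at h2
    have hinv : 0 < 1 / t₁ := by positivity
    have h3 := mul_le_mul_of_nonneg_left hFl₁ hinv.le
    have e : P.TT (fun z => ‖f₀ τ₁ + f₀ z‖ ^ 2) τ₁ = Fl P f₀ τ₁ := rfl
    rw [e]
    linarith
  have hyx₁ : x₁ < y₁ := by linarith
  obtain ⟨j, s, hs, hpos', hTh', hψ₂⟩ := P.select h0' h1' hψ₂c hψ₂0 (x := x₁) (y := y₁) (B := B₂) hyx₁ hx₁ hy₁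
    (by
      refine lt_of_le_of_lt hTψ₂ ?_
      exact lt_of_lt_of_le hp2 (frac_le hc0 hxy₁ hB₂))
  have hnf := hNF j s hs hpos' hTh'
  have hξb : P.σ j s ∈ P.bd := P.σ_mem_bd j hs.1.le hs.2.le
  have hWξ : Wf f₁ (P.σ j s) ≤ B₂ := by
    have : 0 ≤ ‖f₀ τ₁ + f₀ (P.σ j s)‖ ^ 2 := by positivity
    linarith
  have hsqξ : ‖f₀ τ₁ + f₀ (P.σ j s)‖ ^ 2 ≤ B₂ := by
    have := Wf_nonneg (b₁ _ hξb)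
    linarith
  exact stage_three hκ0 hκ1 h0' h1' hs hpos' hnf ht₂ hp3 hp4 hf₀ F₀ hW₀ hW₁ hWξ hsqξ

/-- The contradiction from a long near extremal chain. -/
theorem chain_false {κ c : ℝ} (hκ0 : 0 < κ) (hκ1 : κ ≤ 1) (hc0 : 0 < c)
    (P : Pgn)
    (hgeom : ∀ (i₀ : ℤ) (s₀ : ℝ), 0 < s₀ → s₀ < P.ℓ i₀ →
      ∃ x₀ y₀ : ℝ, -1 ≤ x₀ ∧ y₀ ≤ 1 ∧ x₀ + c ≤ y₀ ∧ ∀ (i₁ : ℤ) (s₁ : ℝ), 0 < s₁ → s₁ < P.ℓ i₁ →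
        0 < P.h i₁ (P.σ i₀ s₀) → P.Th i₀ (P.σ i₀ s₀) (P.σ i₁ s₁) ∈ Icc x₀ y₀ →
        ∃ x₁ y₁ : ℝ, - (Real.pi / 2) ≤ x₁ ∧ y₁ ≤ Real.pi / 2 ∧ x₁ + c ≤ y₁ ∧
          ∀ (j : ℤ) (s : ℝ), s ∈ Ioo 0 (P.ℓ j) → 0 < P.h j (P.σ i₁ s₁) →
            P.Th i₁ (P.σ i₁ s₁) (P.σ j s) ∈ Icc x₁ y₁ →
            ∀ l : ℤ, κ * ‖P.σ j s - P.σ i₁ s₁‖ ≤ max (P.h l (P.σ i₁ s₁)) (P.h l (P.σ j s)))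
    {τ t₀ t₁ t₂ B₁ B₂ : ℝ} (hτ : 0 < τ) (ht₀ : 0 < t₀) (ht₁ : 0 < t₁) (ht₂ : 0 < t₂)
    (hB₁ : 0 < B₁) (hB₂ : 0 < B₂)
    (hp1 : 5 * τ + 3 * t₀ + (1 / t₀) * (4 * (5 * τ)) < B₁ * (2 * c / (3 * Real.pi)))
    (hp2 : 5 * B₁ + t₁ + (1 / t₁) * (4 * B₁) < B₂ * (2 * c / (3 * Real.pi)))
    (hp3 : B₁ ≤ 3 / 4)
    (hp4 : (432 * Real.pi / κ ^ 4) * ((t₂ / 2 + (1 / (2 * t₂)) * (4 * B₁)) +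
      (t₂ / 2 + (1 / (2 * t₂)) * (4 * B₂) + Real.sqrt B₂)) < κ ^ 2 / 12)
    {ρ : ℤ → ℝ → ℝ} (hρ : P.SC ρ) (hρ0 : ∀ j, ∀ s ∈ Icc 0 (P.ℓ j), 0 ≤ ρ j s) (hρm : P.bint ρ = 2)
    {f₀ f₁ f₂ f₃ : ℂ → ℂ} (hf₀ : DiffContOnCl ℂ f₀ P.Om) (c₁ : ContinuousOn f₁ P.bd)
    (c₂ : ContinuousOn f₂ P.bd) (c₃ : ContinuousOn f₃ P.bd)
    (b₀ : ∀ z ∈ P.bd, ‖f₀ z‖ ≤ 1) (b₁ : ∀ z ∈ P.bd, ‖f₁ z‖ ≤ 1) (b₂ : ∀ z ∈ P.bd, ‖f₂ z‖ ≤ 1)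
    (b₃ : ∀ z ∈ P.bd, ‖f₃ z‖ ≤ 1)
    (a₀ : P.bint (fun j s => (1 - ‖f₀ (P.σ j s)‖ ^ 2) * ρ j s) ≤ 2 * τ)
    (a₁ : P.bint (fun j s => (1 - ‖f₁ (P.σ j s)‖ ^ 2) * ρ j s) ≤ 2 * τ)
    (a₂ : P.bint (fun j s => (1 - ‖f₂ (P.σ j s)‖ ^ 2) * ρ j s) ≤ 2 * τ)
    (a₃ : P.bint (fun j s => (1 - ‖f₃ (P.σ j s)‖ ^ 2) * ρ j s) ≤ 2 * τ)
    (F₀ : ∀ (i : ℤ) (s : ℝ), 0 < s → s < P.ℓ i → Fl P f₀ (P.σ i s) ≤ 4 * (1 - ‖f₁ (P.σ i s)‖ ^ 2))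
    (F₁ : ∀ (i : ℤ) (s : ℝ), 0 < s → s < P.ℓ i → Fl P f₁ (P.σ i s) ≤ 4 * (1 - ‖f₂ (P.σ i s)‖ ^ 2))
    (F₂ : ∀ (i : ℤ) (s : ℝ), 0 < s → s < P.ℓ i → Fl P f₂ (P.σ i s) ≤ 4 * (1 - ‖f₃ (P.σ i s)‖ ^ 2)) :
    False := by
  have hpi3 := Real.pi_gt_three
  have c₀ : ContinuousOn f₀ P.bd := by
    have := hf₀.continuousOn
    rw [P.closure_Om] at this
    exact this.mono P.bd_subset_Ob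
  have W₀c := Wf_cont c₀
  have W₁c := Wf_cont c₁
  have W₂c := Wf_cont c₂
  have W₃c := Wf_cont c₃
  -- the first point
  obtain ⟨i₀, s₀, hs₀, hsum⟩ := first_point hτ hρ hρ0 hρm c₀ c₁ c₂ c₃ a₀ a₁ a₂ a₃
  set τ₀ := P.σ i₀ s₀ with hτ₀
  have h0 := hs₀.1
  have h1 := hs₀.2
  have hτ₀O : τ₀ ∈ P.Ob := P.σ_mem_Ob' h0 h1
  have hτ₀b : τ₀ ∈ P.bd := P.σ_mem_bd i₀ h0.le h1.le
  have n₀ := Wf_nonneg (b₀ τ₀ hτ₀b)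
  have n₁ := Wf_nonneg (b₁ τ₀ hτ₀b)
  have n₂ := Wf_nonneg (b₂ τ₀ hτ₀b)
  have n₃ := Wf_nonneg (b₃ τ₀ hτ₀b)
  have hT₀ := TT_Wf_le c₀ b₀ h0 h1 ht₀
  have hT₁ := TT_Wf_le c₁ b₁ h0 h1 ht₀
  have hT₂ := TT_Wf_le c₂ b₂ h0 h1 ht₀
  have hF₀ : Fl P f₀ τ₀ ≤ 4 * Wf f₁ τ₀ := F₀ i₀ s₀ h0 h1
  have hF₁ : Fl P f₁ τ₀ ≤ 4 * Wf f₂ τ₀ := F₁ i₀ s₀ h0 h1
  have hF₂ : Fl P f₂ τ₀ ≤ 4 * Wf f₃ τ₀ := F₂ i₀ s₀ h0 h1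
  rw [← hτ₀] at hT₀ hT₁ hT₂
  have hψ₁c : ContinuousOn (fun z => Wf f₀ z + Wf f₁ z + Wf f₂ z) P.bd := (W₀c.add W₁c).add W₂c
  have hTψ₁ : P.TT (fun z => Wf f₀ z + Wf f₁ z + Wf f₂ z) τ₀ ≤ 5 * τ + 3 * t₀ + (1 / t₀) * (4 * (5 * τ)) := by
    have e1 : P.TT (fun z => Wf f₀ z + Wf f₁ z + Wf f₂ z) τ₀ = P.TT (Wf f₀) τ₀ + P.TT (Wf f₁) τ₀ + P.TT (Wf f₂) τ₀ := by
      have h01 : ContinuousOn (fun z => Wf f₀ z + Wf f₁ z) P.bd := W₀c.add W₁c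
      rw [TT_add h01 W₂c hτ₀O, TT_add W₀c W₁c hτ₀O]
    rw [e1]
    have hinv : 0 < 1 / t₀ := by positivity
    have e2 : Fl P f₀ τ₀ + Fl P f₁ τ₀ + Fl P f₂ τ₀ ≤ 4 * (5 * τ) := by
      linarith
    have e3 := mul_le_mul_of_nonneg_left e2 hinv.le
    have e4 : (1 / t₀) * (Fl P f₀ τ₀ + Fl P f₁ τ₀ + Fl P f₂ τ₀) =
        (1 / t₀) * Fl P f₀ τ₀ + (1 / t₀) * Fl P f₁ τ₀ + (1 / t₀) * Fl P f₂ τ₀ := by ring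
    rw [e4] at e3
    linarith
  obtain ⟨x₀, y₀, hx₀, hy₀, hxy₀, hrest⟩ := hgeom i₀ s₀ h0 h1
  have hyx₀ : x₀ < y₀ := by linarith
  have hψ₁0 : ∀ z ∈ P.bd, 0 ≤ Wf f₀ z + Wf f₁ z + Wf f₂ z := by
    intro z hz
    have h2 := Wf_nonneg (b₀ z hz)
    have h3 := Wf_nonneg (b₁ z hz)
    have h4 := Wf_nonneg (b₂ z hz)
    linarith
  obtain ⟨i₁, s₁, hs₁, hpos, hTh, hψ₁⟩ := P.select h0 h1 hψ₁c hψ₁0 (x := x₀) (y := y₀) (B := B₁) hyx₀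
    (by linarith) (by linarith)
    (by
      refine lt_of_le_of_lt hTψ₁ ?_
      exact lt_of_lt_of_le hp1 (frac_le hc0 hxy₀ hB₁))
  obtain ⟨x₁, y₁, hx₁, hy₁, hxy₁, hNF⟩ := hrest i₁ s₁ hs₁.1 hs₁.2 hpos hTh
  have hτ₁b : P.σ i₁ s₁ ∈ P.bd := P.σ_mem_bd i₁ hs₁.1.le hs₁.2.le
  have m₀ := Wf_nonneg (b₀ _ hτ₁b)
  have m₁ := Wf_nonneg (b₁ _ hτ₁b)
  have m₂ := Wf_nonneg (b₂ _ hτ₁b)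
  exact stage_two hκ0 hκ1 hc0 hs₁.1 hs₁.2 hx₁ hy₁ hxy₁ hNF ht₁ ht₂ hB₂ hp2 hp3 hp4 hf₀ c₁ b₁ F₀ F₁
    (by linarith) (by linarith) (by linarith)

end Pgn

end Vale.Agent.Lib.P123
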