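import Vale.Agent.Lib.P123.Pg17

open Complex ComplexConjugate MeasureTheory Set Filter Topology
open scoped Interval InnerProductSpace

set_option linter.unusedSectionVars false

namespace Vale.Agent.Lib.P123

variable {H : Type*} [NormedAddCommGroup H] [InnerProductSpace ℂ H] [CompleteSpace H]
variable {P : Pgn} {A : H →L[ℂ] H} {c : ℝ}

/-- Near extremal functions exist. -/
theorem Adm.exists_near [Nontrivial H] (hA : Adm P A c) {δ : ℝ} (hδ : 0 < δ) (hδ1 : δ ≤ 1) :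
    ∃ (f : ℂ → ℂ) (T : H →L[ℂ] H) (x y : H), IsCalc P A f T ∧ (∀ z ∈ P.Ob, ‖f z‖ ≤ 1) ∧
      ‖x‖ = 1 ∧ ‖y‖ = 1 ∧ ‖T y - ((KK P A : ℝ) : ℂ) • x‖ ≤ δ := by
  set K := KK P A with hK
  have hK1 : 1 ≤ K := hA.one_le_KK
  have hne : (Kset P A).Nonempty := ⟨‖(1 : H →L[ℂ] H)‖, fun _ => 1, 1, IsCalc.one, by intro z _; simp, rfl⟩
  obtain ⟨r, ⟨f, T, hf, hf1, rfl⟩, hr⟩ := exists_lt_of_lt_csSup hne (show K - δ < sSup (Kset P A) by
    change K - δ < K
    linarith)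
  have hTK : ‖T‖ ≤ K := hA.le_KK hf hf1
  have hex : ∃ y : H, ‖y‖ = 1 ∧ K - δ < ‖T y‖ := by
    by_contra hcon
    push_neg at hcon
    have := ContinuousLinearMap.opNorm_le_of_unit_norm (f := T) (C := K - δ) (by linarith) (fun y hy => hcon y hy)
    linarith
  obtain ⟨y, hy, hTy⟩ := hex
  have hpos : 0 < ‖T y‖ := by linarith
  have hne0 : ((‖T y‖ : ℝ) : ℂ) ≠ 0 := by exact_mod_cast hpos.ne'
  refine ⟨f, T, ((‖T y‖ : ℝ) : ℂ)⁻¹ • T y, y, hf, hf1, ?_, hy, ?_⟩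
  · rw [norm_smul, norm_inv, Complex.norm_real, norm_norm]
    field_simp
  · have e : T y - ((K : ℝ) : ℂ) • (((‖T y‖ : ℝ) : ℂ)⁻¹ • T y) =
        ((1 - K / ‖T y‖ : ℝ) : ℂ) • T y := by
      rw [smul_smul]
      have e2 : ((1 - K / ‖T y‖ : ℝ) : ℂ) = 1 - ((K : ℝ) : ℂ) * ((‖T y‖ : ℝ) : ℂ)⁻¹ := by
        push_cast
        rw [div_eq_mul_inv]
      rw [e2, sub_smul, one_smul]
    rw [e, norm_smul, Complex.norm_real, Real.norm_eq_abs]
    have hTyK : ‖T y‖ ≤ K := by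
      have := T.le_opNorm y
      rw [hy, mul_one] at this
      exact this.trans hTK
    have e3 : |1 - K / ‖T y‖| * ‖T y‖ = K - ‖T y‖ := by
      have h2 : 1 - K / ‖T y‖ ≤ 0 := by
        have : 1 ≤ K / ‖T y‖ := (one_le_div hpos).2 hTyK
        linarith
      rw [abs_of_nonpos h2]
      field_simp
      ring
    rw [e3]
    linarith

/-- The constant of the polygon is at most one plus square root of two. -/
theorem Adm.KK_le [Nontrivial H] (hA : Adm P A c) : KK P A ≤ 1 + Real.sqrt 2 := by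
  set K := KK P A with hK
  have hK1 : 1 ≤ K := hA.one_le_KK
  have hKpos : 0 < K := by linarith
  have hs2 : Real.sqrt 2 ^ 2 = 2 := Real.sq_sqrt (by norm_num)
  have hs0 : 0 ≤ Real.sqrt 2 := Real.sqrt_nonneg _
  by_contra hcon
  push_neg at hcon
  have hgap : 0 < K - 1 / K - 2 := by
    have h1 : 0 < K ^ 2 - 2 * K - 1 := by nlinarith
    have e : K - 1 / K - 2 = (K ^ 2 - 2 * K - 1) / K := by
      field_simp
      ring
    rw [e]
    positivity
  set g := K - 1 / K - 2 with hg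
  set δ := min 1 (min (g / 4) (g ^ 2 / (32 * K))) with hδ
  have hδ0 : 0 < δ := by
    apply lt_min one_pos
    apply lt_min
    · positivity
    · positivity
  have hδ1 : δ ≤ 1 := min_le_left _ _
  have hδ2 : δ ≤ g / 4 := (min_le_right _ _).trans (min_le_left _ _)
  have hδ3 : δ ≤ g ^ 2 / (32 * K) := (min_le_right _ _).trans (min_le_right _ _)
  obtain ⟨f, T, x, y, hf, hf1, hx, hy, hT⟩ := hA.exists_near hδ0 hδ1
  obtain ⟨f', T', -, -, -, -, hineq, -⟩ := hA.step hx hy hf hf1 hKpos hT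
  rw [← hK] at hineq
  have h3 : Real.sqrt (2 * K * δ) ≤ g / 4 := by
    apply Real.sqrt_le_iff.2
    constructor
    · positivity
    · have : 2 * K * δ ≤ 2 * K * (g ^ 2 / (32 * K)) := mul_le_mul_of_nonneg_left hδ3 (by positivity)
      have e : 2 * K * (g ^ 2 / (32 * K)) = (g / 4) ^ 2 := by
        field_simp
        ring
      linarith
  have h4 : δ / K ≤ g / 4 := by
    have : δ / K ≤ δ := div_le_self hδ0.le hK1
    linarith
  have hg' : K - 1 / K = 2 + g := by rw [hg]; ring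
  linarith

/-- Choice of parameters for the chain. -/
theorem chain_param {τ : ℝ} (hτ : 0 < τ) : ∃ ρ : ℝ, 0 < ρ ∧ ρ ≤ τ ∧ ∀ K : ℝ, |K - (1 + Real.sqrt 2)| ≤ ρ →
    ∀ δ : ℝ, 0 ≤ δ → δ ≤ ρ → Eta K δ ≤ τ ∧ Dlt K δ ≤ τ := by
  set K₀ := 1 + Real.sqrt 2 with hK₀
  have hs2 : Real.sqrt 2 ^ 2 = 2 := Real.sq_sqrt (by norm_num)
  have hs0 : 0 ≤ Real.sqrt 2 := Real.sqrt_nonneg _
  have hK₀pos : 0 < K₀ := by rw [hK₀]; linarith
  have hK₀ne : K₀ ≠ 0 := hK₀pos.ne'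
  have hfst : ContinuousAt (fun p : ℝ × ℝ => p.1) (K₀, (0 : ℝ)) := continuousAt_fst
  have hE : ContinuousAt (fun p : ℝ × ℝ => Eta p.1 p.2) (K₀, (0 : ℝ)) := by
    unfold Eta
    have h1 : ContinuousAt (fun p : ℝ × ℝ => 1 / p.1) (K₀, (0 : ℝ)) :=
      continuousAt_const.div hfst hK₀ne
    have h2 : ContinuousAt (fun p : ℝ × ℝ => p.2 / p.1) (K₀, (0 : ℝ)) :=
      continuousAt_snd.div hfst hK₀ne
    have h3 : ContinuousAt (fun p : ℝ × ℝ => Real.sqrt (2 * p.1 * p.2)) (K₀, (0 : ℝ)) := by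
      apply Continuous.continuousAt
      fun_prop
    exact ((((continuousAt_const.sub hfst).add h1).add continuousAt_snd).add h3).add h2
  have hD : ContinuousAt (fun p : ℝ × ℝ => Dlt p.1 p.2) (K₀, (0 : ℝ)) := by
    unfold Dlt
    have h3 : ContinuousAt (fun p : ℝ × ℝ => Real.sqrt (2 * p.1 * p.2)) (K₀, (0 : ℝ)) := by
      apply Continuous.continuousAt
      fun_prop
    have h4 : ContinuousAt (fun p : ℝ × ℝ => Real.sqrt (Eta p.1 p.2)) (K₀, (0 : ℝ)) :=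
      Real.continuous_sqrt.continuousAt.comp hE
    have h5 : Continuous (fun p : ℝ × ℝ => (1 / 2 : ℝ) * p.2 * (1 + p.1)) := by fun_prop
    have h6 : Continuous (fun p : ℝ × ℝ => (1 / 2 : ℝ) * p.1) := by fun_prop
    have h7 : Continuous (fun p : ℝ × ℝ => |p.1 - 2| * p.2 + |p.1 ^ 2 - 2 * p.1 - 1|) := by fun_prop
    have h8 : ContinuousAt (fun p : ℝ × ℝ => p.1 * (2 * Real.sqrt (Eta p.1 p.2) + Real.sqrt (2 * p.1 * p.2)))
        (K₀, (0 : ℝ)) := hfst.mul ((continuousAt_const.mul h4).add h3)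
    have h9 := h8.add h7.continuousAt
    have h10 := h5.continuousAt.add (h6.continuousAt.mul h9)
    refine h10.congr (Eventually.of_forall ?_)
    intro p
    simp only [Pi.add_apply, Pi.mul_apply]
    ring
  have hinv : 1 / K₀ = Real.sqrt 2 - 1 := by
    rw [div_eq_iff hK₀ne, hK₀]
    nlinarith
  have hE0 : Eta K₀ 0 = 0 := by
    unfold Eta
    rw [hinv, hK₀]
    simp
    ring
  have hD0 : Dlt K₀ 0 = 0 := by
    unfold Dlt
    rw [hE0]
    have : K₀ ^ 2 - 2 * K₀ - 1 = 0 := by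
      rw [hK₀]
      nlinarith
    rw [this]
    simp
  obtain ⟨r₁, hr₁, h₁⟩ := Metric.continuousAt_iff.1 hE τ hτ
  obtain ⟨r₂, hr₂, h₂⟩ := Metric.continuousAt_iff.1 hD τ hτ
  refine ⟨min τ (min (r₁ / 2) (r₂ / 2)), ?_, min_le_left _ _, ?_⟩
  · apply lt_min hτ
    apply lt_min <;> positivity
  · intro K hK δ hδ0 hδ1
    set ρ := min τ (min (r₁ / 2) (r₂ / 2)) with hρ
    have hρ1 : ρ ≤ r₁ / 2 := (min_le_right _ _).trans (min_le_left _ _)
    have hρ2 : ρ ≤ r₂ / 2 := (min_le_right _ _).trans (min_le_right _ _)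
    have hdist : ∀ r : ℝ, 0 < r → ρ ≤ r / 2 → dist ((K, δ) : ℝ × ℝ) (K₀, (0 : ℝ)) < r := by
      intro r hr hρr
      rw [Prod.dist_eq]
      apply max_lt
      · rw [Real.dist_eq]
        linarith
      · rw [Real.dist_eq, sub_zero, abs_of_nonneg hδ0]
        linarith
    have h3 := h₁ (hdist r₁ hr₁ hρ1)
    have h4 := h₂ (hdist r₂ hr₂ hρ2)
    simp only [hE0, hD0, Real.dist_eq, sub_zero] at h3 h4
    exact ⟨(le_abs_self _).trans h3.le, (le_abs_self _).trans h4.le⟩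

end Vale.Agent.Lib.P123
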