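import Vale.Agent.Lib.P123.Pg18

open Complex ComplexConjugate MeasureTheory Set Filter Topology
open scoped Interval InnerProductSpace

set_option linter.unusedSectionVars false

namespace Vale.Agent.Lib.P123

theorem param_step {β : ℝ} (h0 : 0 < β) (h1 : β ≤ 1) :
    5 * (β ^ 2 / 100) + β / 3 + (1 / (β / 3)) * (4 * (β ^ 2 / 100)) < β := by
  have e : (1 / (β / 3)) * (4 * (β ^ 2 / 100)) = 12 * β / 100 := by
    field_simp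
    ring
  rw [e]
  have h2 : β ^ 2 ≤ β := by nlinarith
  linarith

theorem param_step₀ {β : ℝ} (h0 : 0 < β) (h1 : β ≤ 1) :
    5 * (β ^ 2 / 1000) + 3 * (β / 6) + (1 / (β / 6)) * (4 * (5 * (β ^ 2 / 1000))) < β := by
  have e : (1 / (β / 6)) * (4 * (5 * (β ^ 2 / 1000))) = 120 * β / 1000 := by
    field_simp
    ring
  rw [e]
  have h2 : β ^ 2 ≤ β := by nlinarith
  linarith

/-- existence of the small parameters -/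
theorem exists_params {κ c : ℝ} (hκ0 : 0 < κ) (hκ1 : κ ≤ 1) (hc0 : 0 < c) (hc1 : c ≤ 1) :
    ∃ τ t₀ t₁ t₂ B₁ B₂ : ℝ, 0 < τ ∧ 0 < t₀ ∧ 0 < t₁ ∧ 0 < t₂ ∧ 0 < B₁ ∧ 0 < B₂ ∧
      5 * τ + 3 * t₀ + (1 / t₀) * (4 * (5 * τ)) < B₁ * (2 * c / (3 * Real.pi)) ∧
      5 * B₁ + t₁ + (1 / t₁) * (4 * B₁) < B₂ * (2 * c / (3 * Real.pi)) ∧
      B₁ ≤ 3 / 4 ∧
      (432 * Real.pi / κ ^ 4) * ((t₂ / 2 + (1 / (2 * t₂)) * (4 * B₁)) +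
        (t₂ / 2 + (1 / (2 * t₂)) * (4 * B₂) + Real.sqrt B₂)) < κ ^ 2 / 12 := by
  have hpi3 := Real.pi_gt_three
  have hpi := Real.pi_pos
  set E : ℝ := κ ^ 6 / (5184 * Real.pi) with hE
  have hE0 : 0 < E := by positivity
  have hE1 : E ≤ 1 := by
    rw [hE, div_le_one (by positivity)]
    have : κ ^ 6 ≤ 1 := pow_le_one₀ hκ0.le hκ1
    nlinarith
  set fr : ℝ := 2 * c / (3 * Real.pi) with hfr
  have hfr0 : 0 < fr := by positivity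
  have hfr1 : fr ≤ 1 := by
    rw [hfr, div_le_one (by positivity)]
    nlinarith
  set B₂ : ℝ := E ^ 2 / 64 with hB₂
  have hB₂0 : 0 < B₂ := by positivity
  have hB₂1 : B₂ ≤ 1 / 64 := by
    rw [hB₂]
    have : E ^ 2 ≤ 1 := pow_le_one₀ hE0.le hE1
    linarith
  set β₂ := B₂ * fr with hβ₂
  have hβ₂0 : 0 < β₂ := by positivity
  have hβ₂le : β₂ ≤ B₂ := by
    rw [hβ₂]
    nlinarith
  have hβ₂1 : β₂ ≤ 1 := by linarith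
  set B₁ : ℝ := β₂ ^ 2 / 100 with hB₁
  have hB₁0 : 0 < B₁ := by positivity
  have hB₁le : B₁ ≤ B₂ := by
    rw [hB₁]
    have : β₂ ^ 2 ≤ β₂ := by nlinarith
    linarith
  have hB₁1 : B₁ ≤ 1 := by linarith
  set β₁ := B₁ * fr with hβ₁
  have hβ₁0 : 0 < β₁ := by positivity
  have hβ₁1 : β₁ ≤ 1 := by
    rw [hβ₁]
    nlinarith
  refine ⟨β₁ ^ 2 / 1000, β₁ / 6, β₂ / 3, E / 4, B₁, B₂, by positivity, by positivity, by positivity,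
    by positivity, hB₁0, hB₂0, param_step₀ hβ₁0 hβ₁1, param_step hβ₂0 hβ₂1, by linarith, ?_⟩
  have hsq : Real.sqrt B₂ = E / 8 := by
    rw [hB₂]
    have : E ^ 2 / 64 = (E / 8) ^ 2 := by ring
    rw [this, Real.sqrt_sq (by positivity)]
  rw [hsq]
  have hX : (E / 4 / 2 + (1 / (2 * (E / 4))) * (4 * B₁)) + (E / 4 / 2 + (1 / (2 * (E / 4))) * (4 * B₂) + E / 8) ≤
      5 * E / 8 := by
    have e : (1 / (2 * (E / 4))) * (4 * B₂) = E / 8 := by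
      rw [hB₂]
      field_simp
      ring
    have e2 : (1 / (2 * (E / 4))) * (4 * B₁) ≤ (1 / (2 * (E / 4))) * (4 * B₂) :=
      mul_le_mul_of_nonneg_left (by linarith) (by positivity)
    rw [e] at e2 ⊢
    linarith
  have hC : 0 < 432 * Real.pi / κ ^ 4 := by positivity
  have h1 := mul_le_mul_of_nonneg_left hX hC.le
  have e3 : (432 * Real.pi / κ ^ 4) * (5 * E / 8) = (5 / 8) * (κ ^ 2 / 12) := by
    rw [hE]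
    field_simp
    ring
  rw [e3] at h1
  have : 0 < κ ^ 2 / 12 := by positivity
  linarith

/-- The uniform strict bound for polygons. -/
theorem main_bound.{u} : ∃ ε₀ : ℝ, 0 < ε₀ ∧ ∀ (H : Type u) [NormedAddCommGroup H] [InnerProductSpace ℂ H]
    [CompleteSpace H] [Nontrivial H] (P : Pgn) (A : H →L[ℂ] H) (c : ℝ), Adm P A c →
    KK P A ≤ 1 + Real.sqrt 2 - ε₀ := by
  obtain ⟨κ, c₀, hκ0, hκ1, hc0, hc1, hgeom⟩ := geom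
  obtain ⟨τ, t₀, t₁, t₂, B₁, B₂, hτ, ht₀, ht₁, ht₂, hB₁, hB₂, hp1, hp2, hp3, hp4⟩ :=
    exists_params hκ0 hκ1 hc0 hc1
  obtain ⟨ρ₃, hρ₃, hρ₃τ, h₃⟩ := chain_param hτ
  obtain ⟨ρ₂, hρ₂, hρ₂τ, h₂⟩ := chain_param (lt_min hτ hρ₃)
  obtain ⟨ρ₁, hρ₁, hρ₁τ, h₁⟩ := chain_param (lt_min hτ hρ₂)
  obtain ⟨ρ₀, hρ₀, hρ₀τ, h₀⟩ := chain_param (lt_min hτ hρ₁)
  refine ⟨ρ₀, hρ₀, ?_⟩
  intro H _ _ _ _ P A c hA
  by_contra hcon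
  push_neg at hcon
  set K := KK P A with hK
  have hK1 : 1 ≤ K := hA.one_le_KK
  have hKpos : 0 < K := by linarith
  have hKle : K ≤ 1 + Real.sqrt 2 := hA.KK_le
  have l01 : ρ₀ ≤ ρ₁ := hρ₀τ.trans (min_le_right _ _)
  have l12 : ρ₁ ≤ ρ₂ := hρ₁τ.trans (min_le_right _ _)
  have l23 : ρ₂ ≤ ρ₃ := hρ₂τ.trans (min_le_right _ _)
  have hKa : |K - (1 + Real.sqrt 2)| ≤ ρ₀ := by
    rw [abs_le]
    constructor <;> linarith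
  set δ₀ := min ρ₀ 1 with hδ₀
  have hδ₀0 : 0 < δ₀ := lt_min hρ₀ one_pos
  obtain ⟨f₀, T₀, x, y, hf₀, hf₀1, hx, hy, hT₀⟩ := hA.exists_near hδ₀0 (min_le_right _ _)
  obtain ⟨e₀, d₀⟩ := h₀ K hKa δ₀ hδ₀0.le (min_le_left _ _)
  obtain ⟨f₁, T₁, hf₁, hf₁1, hT₁, a₀, -, F₀⟩ := hA.step hx hy hf₀ hf₀1 hKpos hT₀
  have hT₁' : ‖T₁ y - ((KK P A : ℝ) : ℂ) • x‖ ≤ ρ₁ := hT₁.trans (d₀.trans (min_le_right _ _))
  obtain ⟨e₁, d₁⟩ := h₁ K (hKa.trans l01) ρ₁ hρ₁.le le_rfl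
  obtain ⟨f₂, T₂, hf₂, hf₂1, hT₂, a₁, -, F₁⟩ := hA.step hx hy hf₁ hf₁1 hKpos hT₁'
  have hT₂' : ‖T₂ y - ((KK P A : ℝ) : ℂ) • x‖ ≤ ρ₂ := hT₂.trans (d₁.trans (min_le_right _ _))
  obtain ⟨e₂, d₂⟩ := h₂ K (hKa.trans (l01.trans l12)) ρ₂ hρ₂.le le_rfl
  obtain ⟨f₃, T₃, hf₃, hf₃1, hT₃, a₂, -, F₂⟩ := hA.step hx hy hf₂ hf₂1 hKpos hT₂'
  have hT₃' : ‖T₃ y - ((KK P A : ℝ) : ℂ) • x‖ ≤ ρ₃ := hT₃.trans (d₂.trans (min_le_right _ _))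
  obtain ⟨e₃, -⟩ := h₃ K (hKa.trans (l01.trans (l12.trans l23))) ρ₃ hρ₃.le le_rfl
  obtain ⟨f₄, T₄, -, -, -, a₃, -, -⟩ := hA.step hx hy hf₃ hf₃1 hKpos hT₃'
  have hcb : ∀ {f : ℂ → ℂ} {T : H →L[ℂ] H}, IsCalc P A f T → ContinuousOn f P.bd := by
    intro f T hf
    have := hf.1.continuousOn
    rw [P.closure_Om] at this
    exact this.mono P.bd_subset_Ob
  have hbb : ∀ {f : ℂ → ℂ}, (∀ z ∈ P.Ob, ‖f z‖ ≤ 1) → ∀ z ∈ P.bd, ‖f z‖ ≤ 1 :=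
    fun h z hz => h z (P.bd_subset_Ob hz)
  have hm : P.bint (rho P A x) = 2 := by
    rw [hA.rho_mass, hx]
    norm_num
  have le₀ : 2 * Eta K δ₀ ≤ 2 * τ := by
    have := e₀.trans (min_le_left _ _)
    linarith
  have le₁ : 2 * Eta K ρ₁ ≤ 2 * τ := by
    have := e₁.trans (min_le_left _ _)
    linarith
  have le₂ : 2 * Eta K ρ₂ ≤ 2 * τ := by
    have := e₂.trans (min_le_left _ _)
    linarith
  have le₃ : 2 * Eta K ρ₃ ≤ 2 * τ := by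
    linarith
  exact Pgn.chain_false hκ0 hκ1 hc0 P (hgeom P) hτ ht₀ ht₁ ht₂ hB₁ hB₂ hp1 hp2 hp3 hp4
    (hA.rho_SC x) (fun j s hs => hA.rho_nonneg x j hs) hm hf₀.1 (hcb hf₁) (hcb hf₂) (hcb hf₃)
    (hbb hf₀1) (hbb hf₁1) (hbb hf₂1) (hbb hf₃1)
    (a₀.trans le₀) (a₁.trans le₁) (a₂.trans le₂) (a₃.trans le₃) F₀ F₁ F₂

end Vale.Agent.Lib.P123
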