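import Vale.Agent.Lib.P123.Pg1

open Complex ComplexConjugate MeasureTheory Set Filter Topology

set_option linter.unusedSectionVars false

namespace Vale.Agent.Lib.P123

namespace Pgn

variable (P : Pgn)

theorem exists_nearest (z : ℂ) : ∃ j : ℤ, ‖z‖ * Real.cos P.D ≤ P.dot j z := by
  have hD := P.D_pos
  set α := arg z
  set j : ℤ := ⌊α / P.D⌋
  refine ⟨j, ?_⟩
  have h1 : (j : ℝ) ≤ α / P.D := Int.floor_le _
  have h2 : α / P.D < j + 1 := Int.lt_floor_add_one _
  have h3 : (j : ℝ) * P.D ≤ α := by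
    rwa [le_div_iff₀ hD] at h1
  have h4 : α < (j + 1) * P.D := by
    rwa [div_lt_iff₀ hD] at h2
  have e : P.dot j z = ‖z‖ * Real.cos (α - P.θ j) := by
    unfold dot
    rw [Real.cos_sub, mul_add, ← mul_assoc, ← mul_assoc]
    rw [Complex.norm_mul_cos_arg, Complex.norm_mul_sin_arg]
  rw [e]
  apply mul_le_mul_of_nonneg_left _ (norm_nonneg _)
  have h5 : α - P.θ j ≤ P.D := by
    unfold θ; nlinarith
  have h6 : 0 ≤ α - P.θ j := by
    unfold θ; linarith
  exact Real.cos_le_cos_of_nonneg_of_le_pi h6 (by linarith [P.D_le, Real.pi_pos]) h5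

/-- a bound for the support numbers -/
noncomputable def B : ℝ := ∑ k ∈ Finset.range P.m, |P.b k|

theorem b_le_B (j : ℤ) : P.b j ≤ P.B := by
  obtain ⟨q, w, hq, hj⟩ := P.exists_rep j
  have e : P.b j = P.b q := by
    rw [hj]
    exact P.per_mul (F := P.b) P.per q w
  rw [e]
  calc P.b q ≤ |P.b q| := le_abs_self _
    _ ≤ P.B := by
      unfold B
      exact Finset.single_le_sum (f := fun k : ℕ => |P.b k|) (fun _ _ => abs_nonneg _)
        (Finset.mem_range.2 hq)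

theorem norm_le_of_mem_Ob {z : ℂ} (hz : z ∈ P.Ob) : ‖z‖ ≤ P.B / Real.cos P.D := by
  obtain ⟨j, hj⟩ := P.exists_nearest z
  have h1 := hz j
  rw [h_eq_dot] at h1
  have h2 := P.b_le_B j
  rw [le_div_iff₀ P.cosD_pos]
  linarith

theorem isBounded_Ob : Bornology.IsBounded P.Ob := by
  rw [isBounded_iff_forall_norm_le]
  exact ⟨_, fun z hz => P.norm_le_of_mem_Ob hz⟩

theorem isBounded_Om : Bornology.IsBounded P.Om := P.isBounded_Ob.subset P.Om_subset_Ob

theorem isCompact_Ob : IsCompact P.Ob :=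
  Metric.isCompact_of_isClosed_isBounded P.isClosed_Ob P.isBounded_Ob

theorem h_convex (k : ℤ) (a c : ℝ) (z w : ℂ) (hac : a + c = 1) :
    P.h k (a • z + c • w) = a * P.h k z + c * P.h k w := by
  have : a = 1 - c := by linarith
  subst this
  simp only [h, add_re, add_im, Complex.real_smul, mul_re, mul_im, ofReal_re, ofReal_im]
  ring

theorem convex_Ob : Convex ℝ P.Ob := by
  intro z hz w hw a c ha hc hac k
  rw [P.h_convex k a c z w hac]
  exact add_nonneg (mul_nonneg ha (hz k)) (mul_nonneg hc (hw k))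

/-! ### Integrals over the sides -/

section bint

variable {E : Type*} [NormedAddCommGroup E] [NormedSpace ℝ E]

/-- integral over the boundary in the arc length parameters -/
noncomputable def bint (F : ℤ → ℝ → E) : E :=
  ∑ k ∈ Finset.range P.m, ∫ s in (0 : ℝ)..P.ℓ k, F k s

/-- continuity on every closed side -/
def SC {E : Type*} [TopologicalSpace E] (F : ℤ → ℝ → E) : Prop :=
  ∀ j : ℤ, ContinuousOn (F j) (Icc 0 (P.ℓ j))

variable {P}

theorem SC.ii {F : ℤ → ℝ → E} (hF : P.SC F) (j : ℤ) :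
    IntervalIntegrable (F j) volume 0 (P.ℓ j) := by
  apply ContinuousOn.intervalIntegrable
  rw [uIcc_of_le (P.ℓ_pos j).le]
  exact hF j

theorem SC.add {F G : ℤ → ℝ → E} (hF : P.SC F) (hG : P.SC G) : P.SC (fun j s => F j s + G j s) :=
  fun j => (hF j).add (hG j)

theorem SC.sub {F G : ℤ → ℝ → E} (hF : P.SC F) (hG : P.SC G) : P.SC (fun j s => F j s - G j s) :=
  fun j => (hF j).sub (hG j)

theorem SC.const_smul {E' : Type*} [NormedAddCommGroup E'] [NormedSpace ℂ E'] {F : ℤ → ℝ → E'} (c : ℂ)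
    (hF : P.SC F) : P.SC (fun j s => c • F j s) :=
  fun j => (hF j).const_smul c

theorem bint_add {F G : ℤ → ℝ → E} (hF : P.SC F) (hG : P.SC G) :
    P.bint (fun j s => F j s + G j s) = P.bint F + P.bint G := by
  unfold bint
  rw [← Finset.sum_add_distrib]
  apply Finset.sum_congr rfl
  intro k _
  exact intervalIntegral.integral_add (hF.ii k) (hG.ii k)

theorem bint_sub {F G : ℤ → ℝ → E} (hF : P.SC F) (hG : P.SC G) :
    P.bint (fun j s => F j s - G j s) = P.bint F - P.bint G := by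
  unfold bint
  rw [← Finset.sum_sub_distrib]
  apply Finset.sum_congr rfl
  intro k _
  exact intervalIntegral.integral_sub (hF.ii k) (hG.ii k)

theorem bint_const_smul {E' : Type*} [NormedAddCommGroup E'] [NormedSpace ℂ E'] (c : ℂ) (F : ℤ → ℝ → E') :
    P.bint (fun j s => c • F j s) = c • P.bint F := by
  unfold bint
  rw [Finset.smul_sum]
  apply Finset.sum_congr rfl
  intro k _
  exact intervalIntegral.integral_smul c _

theorem bint_congr {F G : ℤ → ℝ → E} (h : ∀ j, ∀ s ∈ Ioo 0 (P.ℓ j), F j s = G j s) :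
    P.bint F = P.bint G := by
  unfold bint
  apply Finset.sum_congr rfl
  intro k _
  have hl := P.ℓ_pos k
  apply intervalIntegral.integral_congr_ae
  rw [uIoc_of_le hl.le]
  have hne : ∀ᵐ s : ℝ, s ≠ P.ℓ k := by
    simp [ae_iff, measure_singleton]
  filter_upwards [hne] with s hs hmem
  exact h k s ⟨hmem.1, lt_of_le_of_ne hmem.2 hs⟩

theorem norm_bint_le {F : ℤ → ℝ → E} {G : ℤ → ℝ → ℝ} (hG : P.SC G)
    (h : ∀ j, ∀ s ∈ Ioo 0 (P.ℓ j), ‖F j s‖ ≤ G j s) : ‖P.bint F‖ ≤ P.bint G := by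
  unfold bint
  refine (norm_sum_le _ _).trans (Finset.sum_le_sum ?_)
  intro k _
  have hl := P.ℓ_pos k
  apply intervalIntegral.norm_integral_le_of_norm_le hl.le _ (hG.ii k)
  have hne : ∀ᵐ s : ℝ, s ≠ P.ℓ k := by
    simp [ae_iff, measure_singleton]
  filter_upwards [hne] with s hs hmem
  exact h k s ⟨hmem.1, lt_of_le_of_ne hmem.2 hs⟩

theorem bint_mono {F G : ℤ → ℝ → ℝ} (hF : P.SC F) (hG : P.SC G)
    (h : ∀ j, ∀ s ∈ Ioo 0 (P.ℓ j), F j s ≤ G j s) : P.bint F ≤ P.bint G := by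
  unfold bint
  apply Finset.sum_le_sum
  intro k _
  exact intervalIntegral.integral_mono_on_of_le_Ioo (P.ℓ_pos k).le (hF.ii k) (hG.ii k) (h k)

theorem bint_nonneg {F : ℤ → ℝ → ℝ} (hF : P.SC F)
    (h : ∀ j, ∀ s ∈ Ioo 0 (P.ℓ j), 0 ≤ F j s) : 0 ≤ P.bint F := by
  have h0 : P.SC (fun _ _ => (0 : ℝ)) := fun j => continuousOn_const
  have := bint_mono h0 hF h
  simpa [bint] using this

variable (P)

/-- perimeter -/
noncomputable def L : ℝ := ∑ k ∈ Finset.range P.m, P.ℓ k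

theorem L_pos : 0 < P.L := by
  unfold L
  exact Finset.sum_pos (f := fun k : ℕ => P.ℓ (k : ℤ)) (fun k _ => P.ℓ_pos (k : ℤ))
    ⟨0, Finset.mem_range.2 (by have := P.hm; omega)⟩

theorem bint_const (c : ℝ) : P.bint (fun _ _ => c) = c * P.L := by
  simp only [bint, intervalIntegral.integral_const, sub_zero, L, Finset.mul_sum, smul_eq_mul]
  apply Finset.sum_congr rfl
  intro k _
  ring

variable {P}

theorem norm_bint_le_const {F : ℤ → ℝ → E} {C : ℝ}
    (h : ∀ j, ∀ s ∈ Ioo 0 (P.ℓ j), ‖F j s‖ ≤ C) : ‖P.bint F‖ ≤ C * P.L := by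
  have h0 : P.SC (fun _ _ => C) := fun j => continuousOn_const
  have := norm_bint_le h0 h
  rwa [bint_const] at this

/-- shifting a periodic sum -/
theorem sum_shift {α : Type*} [AddCommGroup α] (m : ℕ) {f : ℤ → α} (hf : ∀ j : ℤ, f (j + m) = f j) (i : ℤ) :
    ∑ k ∈ Finset.range m, f (i + k) = ∑ k ∈ Finset.range m, f k := by
  have step : ∀ a : ℤ, ∑ k ∈ Finset.range m, f (a + 1 + k) = ∑ k ∈ Finset.range m, f (a + k) := by
    intro a
    have e1 := Finset.sum_range_succ (fun k : ℕ => f (a + k)) m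
    have e2 := Finset.sum_range_succ' (fun k : ℕ => f (a + k)) m
    have e3 : ∑ k ∈ Finset.range m, f (a + 1 + k) = ∑ k ∈ Finset.range m, f (a + ((k + 1 : ℕ) : ℤ)) := by
      apply Finset.sum_congr rfl
      intro k _
      congr 1
      push_cast; ring
    rw [e3]
    simp only [Nat.cast_zero, add_zero] at e2
    have e4 : f (a + m) = f a := hf a
    rw [e1, e4] at e2
    exact (add_right_cancel e2).symm
  have hall : ∀ a : ℤ, ∑ k ∈ Finset.range m, f (a + k) = ∑ k ∈ Finset.range m, f (0 + k) := by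
    intro a
    induction a using Int.induction_on with
    | zero => rfl
    | succ i ih => rw [step]; exact ih
    | pred i ih =>
      have := step (-(i : ℤ) - 1)
      have e : -(i : ℤ) - 1 + 1 = -(i : ℤ) := by ring
      rw [e] at this
      rw [← this]; exact ih
  rw [hall i]
  simp

end bint

/-! ### Contour integrals -/

section cint

variable {E : Type*} [NormedAddCommGroup E] [NormedSpace ℂ E]

/-- contour integral over the boundary -/
noncomputable def cint (F : ℂ → E) : E := P.bint (fun j s => (P.t j) • F (P.σ j s))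

/-- the boundary -/
def bd : Set ℂ := P.Ob \ P.Om

theorem σ_cont (j : ℤ) : Continuous (P.σ j) := by
  unfold σ; fun_prop

theorem hasDerivAt_σ (j : ℤ) (s : ℝ) : HasDerivAt (P.σ j) (P.t j) s := by
  unfold σ
  have h1 : HasDerivAt (fun s : ℝ => (s : ℂ)) 1 s := Complex.ofRealCLM.hasDerivAt
  have h2 := (h1.mul_const (P.t j)).const_add (P.v j)
  simpa using h2

theorem σ_mem_bd (j : ℤ) {s : ℝ} (h0 : 0 ≤ s) (h1 : s ≤ P.ℓ j) : P.σ j s ∈ P.bd := by
  refine ⟨P.σ_mem_Ob j h0 h1, ?_⟩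
  intro hm
  have := hm j
  rw [h_σ_self] at this
  exact lt_irrefl _ this

theorem σ_mem_bd' (j : ℤ) {s : ℝ} (hs : s ∈ Icc 0 (P.ℓ j)) : P.σ j s ∈ P.bd :=
  P.σ_mem_bd j hs.1 hs.2

theorem bd_subset_Ob : P.bd ⊆ P.Ob := diff_subset

variable {P}

theorem SC_comp {F : ℂ → E} (hF : ContinuousOn F P.bd) : P.SC (fun j s => F (P.σ j s)) := by
  intro j
  apply hF.comp (P.σ_cont j).continuousOn
  intro s hs
  exact P.σ_mem_bd' j hs

theorem SC_cint {F : ℂ → E} (hF : ContinuousOn F P.bd) :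
    P.SC (fun j s => (P.t j) • F (P.σ j s)) :=
  fun j => (SC_comp hF j).const_smul (P.t j)

theorem cint_sub {F G : ℂ → E} (hF : ContinuousOn F P.bd) (hG : ContinuousOn G P.bd) :
    P.cint (fun z => F z - G z) = P.cint F - P.cint G := by
  unfold cint
  rw [← bint_sub (SC_cint hF) (SC_cint hG)]
  congr 2
  ext j s
  rw [smul_sub]

theorem cint_add {F G : ℂ → E} (hF : ContinuousOn F P.bd) (hG : ContinuousOn G P.bd) :
    P.cint (fun z => F z + G z) = P.cint F + P.cint G := by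
  unfold cint
  rw [← bint_add (SC_cint hF) (SC_cint hG)]
  congr 2
  ext j s
  rw [smul_add]

theorem cint_smul (c : ℂ) (F : ℂ → E) : P.cint (fun z => c • F z) = c • P.cint F := by
  unfold cint
  rw [← bint_const_smul]
  congr 2
  ext j s
  rw [smul_comm]

theorem norm_cint_le {F : ℂ → E} {C : ℝ} (h : ∀ z ∈ P.bd, ‖F z‖ ≤ C) :
    ‖P.cint F‖ ≤ C * P.L := by
  apply norm_bint_le_const
  intro j s hs
  rw [norm_smul, t_norm, one_mul]
  exact h _ (P.σ_mem_bd j hs.1.le hs.2.le)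

variable [CompleteSpace E]

theorem side_ftc {G F : ℂ → E} (j : ℤ)
    (hG : ∀ s ∈ Icc 0 (P.ℓ j), HasDerivAt G (F (P.σ j s)) (P.σ j s))
    (hF : ContinuousOn (fun s => F (P.σ j s)) (Icc 0 (P.ℓ j))) :
    ∫ s in (0 : ℝ)..P.ℓ j, (P.t j) • F (P.σ j s) = G (P.v (j + 1)) - G (P.v j) := by
  have hl := (P.ℓ_pos j).le
  have key := intervalIntegral.integral_eq_sub_of_hasDerivAt (a := 0) (b := P.ℓ j)
    (f := fun s => G (P.σ j s)) (f' := fun s => (P.t j) • F (P.σ j s)) ?_ ?_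
  · rw [key, σ_zero, v_succ]
  · intro s hs
    rw [uIcc_of_le hl] at hs
    exact (hG s hs).scomp s (P.hasDerivAt_σ j s)
  · apply ContinuousOn.intervalIntegrable
    rw [uIcc_of_le hl]
    exact hF.const_smul _

theorem cint_of_primitive {G F : ℂ → E}
    (hG : ∀ j : ℤ, ∀ s ∈ Icc 0 (P.ℓ j), HasDerivAt G (F (P.σ j s)) (P.σ j s))
    (hF : ContinuousOn F P.bd) : P.cint F = 0 := by
  unfold cint bint
  have e : ∀ k ∈ Finset.range P.m, ∫ s in (0 : ℝ)..P.ℓ k, (P.t k) • F (P.σ k s) =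
      G (P.v ((k + 1 : ℕ) : ℤ)) - G (P.v (k : ℤ)) := by
    intro k _
    have := side_ftc (k : ℤ) (hG k) (SC_comp hF k)
    rw [this]
    push_cast
    rfl
  rw [Finset.sum_congr rfl e, Finset.sum_range_sub (fun k : ℕ => G (P.v (k : ℤ)))]
  have := P.v_add_m 0
  simp only [zero_add] at this
  simp [this]

theorem cint_zero_open {U : Set ℂ} (hU : IsOpen U) (hc : Convex ℝ U) (hsub : P.Ob ⊆ U) {F : ℂ → E}
    (hF : DifferentiableOn ℂ F U) : P.cint F = 0 := by
  obtain ⟨G, hG⟩ := hc.exists_forall_hasDerivWithinAt hF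
  apply cint_of_primitive (G := G)
  · intro j s hs
    have hm : P.σ j s ∈ U := hsub (P.σ_mem_Ob j hs.1 hs.2)
    exact (hG _ hm).hasDerivAt (hU.mem_nhds hm)
  · exact hF.continuousOn.mono (fun z hz => hsub (P.bd_subset_Ob hz))

variable (P)

/-- the dilated domain -/
def Ud (ρ : ℝ) : Set ℂ := {ζ | P.z₀ + (ρ : ℂ) * (ζ - P.z₀) ∈ P.Om}

theorem convex_Om : Convex ℝ P.Om := by
  intro z hz w hw a c ha hc hac k
  rw [P.h_convex k a c z w hac]
  rcases eq_or_lt_of_le ha with h0 | h0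
  · have : c = 1 := by linarith
    rw [← h0, this]
    simpa using hw k
  · have := mul_pos h0 (hz k)
    have := mul_nonneg hc (hw k).le
    linarith

theorem isOpen_Ud (ρ : ℝ) : IsOpen (P.Ud ρ) := by
  unfold Ud
  apply P.isOpen_Om.preimage
  fun_prop

theorem convex_Ud (ρ : ℝ) : Convex ℝ (P.Ud ρ) := by
  intro z hz w hw a c ha hc hac
  unfold Ud at *
  have := P.convex_Om hz hw ha hc hac
  simp only [mem_setOf_eq] at this ⊢
  convert this using 1
  have hac' : ((a : ℂ) + (c : ℂ)) = 1 := by exact_mod_cast hac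
  simp only [Complex.real_smul]
  have : P.z₀ = ((a : ℂ) + (c : ℂ)) * P.z₀ := by rw [hac']; ring
  linear_combination (1 - (ρ : ℂ)) * this

theorem Ob_subset_Ud {ρ : ℝ} (h0 : 0 ≤ ρ) (h1 : ρ < 1) : P.Ob ⊆ P.Ud ρ :=
  fun _ hz => P.dilate_mem hz h0 h1

/-- the dilation of a function -/
def dil (ρ : ℝ) (F : ℂ → E) : ℂ → E := fun ζ => F (P.z₀ + (ρ : ℂ) * (ζ - P.z₀))

variable {P}

theorem dil_diff {F : ℂ → E} (hF : DifferentiableOn ℂ F P.Om) (ρ : ℝ) :
    DifferentiableOn ℂ (P.dil ρ F) (P.Ud ρ) := by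
  unfold dil
  apply hF.comp
  · fun_prop
  · intro ζ hζ
    exact hζ

theorem dil_cont {F : ℂ → E} (hF : ContinuousOn F P.Ob) {ρ : ℝ} (h0 : 0 ≤ ρ) (h1 : ρ < 1) :
    ContinuousOn (P.dil ρ F) P.Ob := by
  unfold dil
  apply hF.comp
  · fun_prop
  · intro ζ hζ
    exact P.Om_subset_Ob (P.dilate_mem hζ h0 h1)

/-- dilations converge uniformly -/
theorem dil_close {F : ℂ → E} (hF : ContinuousOn F P.Ob) {ε : ℝ} (hε : 0 < ε) :
    ∃ ρ₀ : ℝ, 0 ≤ ρ₀ ∧ ρ₀ < 1 ∧ ∀ ρ : ℝ, ρ₀ ≤ ρ → ρ < 1 → ∀ z ∈ P.Ob, ‖P.dil ρ F z - F z‖ < ε := by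
  have hU := P.isCompact_Ob.uniformContinuousOn_of_continuous hF
  rw [Metric.uniformContinuousOn_iff] at hU
  obtain ⟨δ, hδ, hU⟩ := hU ε hε
  set R : ℝ := P.B / Real.cos P.D + ‖P.z₀‖ + 1 with hR
  have hzn : ∀ z ∈ P.Ob, ‖z - P.z₀‖ < R := by
    intro z hz
    have h1 := P.norm_le_of_mem_Ob hz
    have h2 := norm_sub_le z P.z₀
    linarith
  have hRpos : 0 < R := by
    have := hzn _ (P.Om_subset_Ob P.z₀_mem)
    have h3 := norm_nonneg (P.z₀ - P.z₀)
    linarith
  refine ⟨max 0 (1 - δ / R), le_max_left _ _, ?_, ?_⟩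
  · apply max_lt (by norm_num)
    have := div_pos hδ hRpos
    linarith
  · intro ρ hρ hρ1 z hz
    have hρ0 : 0 ≤ ρ := le_trans (le_max_left _ _) hρ
    have hρ2 : 1 - δ / R ≤ ρ := le_trans (le_max_right _ _) hρ
    have hm := P.Om_subset_Ob (P.dilate_mem hz hρ0 hρ1)
    rw [← dist_eq_norm]
    apply hU _ hm _ hz
    rw [dist_eq_norm]
    have e : P.z₀ + (ρ : ℂ) * (z - P.z₀) - z = ((ρ - 1 : ℝ) : ℂ) * (z - P.z₀) := by
      push_cast; ring
    rw [e, norm_mul, Complex.norm_real, Real.norm_eq_abs, abs_of_nonpos (by linarith)]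
    have h3 := hzn z hz
    have h4 : 1 - ρ ≤ δ / R := by linarith
    have h5 := norm_nonneg (z - P.z₀)
    calc -(ρ - 1) * ‖z - P.z₀‖ ≤ δ / R * ‖z - P.z₀‖ := by
          apply mul_le_mul_of_nonneg_right _ h5
          linarith
      _ < δ / R * R := by
          apply mul_lt_mul_of_pos_left h3 (div_pos hδ hRpos)
      _ = δ := by field_simp

/-- Cauchy's theorem on the polygon. -/
theorem cint_eq_zero {F : ℂ → E} (hF : DiffContOnCl ℂ F P.Om) : P.cint F = 0 := by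
  have hFc : ContinuousOn F P.Ob := by
    have := hF.continuousOn
    rwa [P.closure_Om] at this
  have hFb : ContinuousOn F P.bd := hFc.mono P.bd_subset_Ob
  by_contra hne
  have hpos : 0 < ‖P.cint F‖ := norm_pos_iff.2 hne
  have hL := P.L_pos
  obtain ⟨ρ₀, h0, h1, hρ⟩ := dil_close hFc (ε := ‖P.cint F‖ / (2 * P.L)) (by positivity)
  have hz : P.cint (P.dil ρ₀ F) = 0 :=
    cint_zero_open (P.isOpen_Ud ρ₀) (P.convex_Ud ρ₀) (P.Ob_subset_Ud h0 h1) (dil_diff hF.differentiableOn ρ₀)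
  have hdc : ContinuousOn (P.dil ρ₀ F) P.bd := (dil_cont hFc h0 h1).mono P.bd_subset_Ob
  have e : P.cint F = - P.cint (fun z => P.dil ρ₀ F z - F z) := by
    rw [cint_sub hdc hFb, hz]; simp
  have hb : ‖P.cint (fun z => P.dil ρ₀ F z - F z)‖ ≤ (‖P.cint F‖ / (2 * P.L)) * P.L := by
    apply norm_cint_le
    intro z hzb
    exact (hρ ρ₀ le_rfl h1 z (P.bd_subset_Ob hzb)).le
  rw [e, norm_neg] at hpos
  have hb2 : (‖P.cint F‖ / (2 * P.L)) * P.L = ‖P.cint F‖ / 2 := by
    field_simp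
  rw [hb2] at hb
  have : ‖P.cint F‖ = ‖P.cint (fun z => P.dil ρ₀ F z - F z)‖ := by
    rw [e, norm_neg]
  linarith

end cint

end Pgn

end Vale.Agent.Lib.P123
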