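import Vale.Agent.Lib.P123.Pg19

open Complex ComplexConjugate MeasureTheory Set Filter Topology
open scoped Interval InnerProductSpace

set_option linter.unusedSectionVars false

namespace Vale.Agent.Lib.P123

variable {H : Type*} [NormedAddCommGroup H] [InnerProductSpace ℂ H]

/-- numerical range -/
def Wset (A : H →L[ℂ] H) : Set ℂ := {w | ∃ x : H, ‖x‖ = 1 ∧ w = ⟪x, A x⟫_ℂ}

/-- The choice of phase in the Toeplitz Hausdorff theorem. -/
theorem th_phase (C : H →L[ℂ] H) {x : H} (y : H) (hx : ‖x‖ = 1) (hx0 : ⟪x, C x⟫_ℂ = 0) :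
    ∃ x' : H, ‖x'‖ = 1 ∧ ⟪x', C x'⟫_ℂ = 0 ∧ (⟪x', C y⟫_ℂ + ⟪y, C x'⟫_ℂ).im = 0 := by
  set p := ⟪x, C y⟫_ℂ with hp
  set q := ⟪y, C x⟫_ℂ with hq
  set r := p - conj q with hr
  obtain ⟨l, hl1, hl2⟩ : ∃ l : ℂ, ‖l‖ = 1 ∧ (conj l * r).im = 0 := by
    by_cases h0 : r = 0
    · exact ⟨1, by simp, by simp [h0]⟩
    · have hn : ‖r‖ ≠ 0 := norm_ne_zero_iff.2 h0
      have hnc : ((‖r‖ : ℝ) : ℂ) ≠ 0 := by exact_mod_cast hn
      refine ⟨r / ((‖r‖ : ℝ) : ℂ), ?_, ?_⟩
      · rw [norm_div, Complex.norm_real, norm_norm]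
        field_simp
      · have e : conj (r / ((‖r‖ : ℝ) : ℂ)) * r = ((‖r‖ : ℝ) : ℂ) := by
          rw [map_div₀, Complex.conj_ofReal, div_mul_eq_mul_div, mul_comm, Complex.mul_conj,
            Complex.normSq_eq_norm_sq]
          push_cast
          field_simp
        rw [e]
        simp
  refine ⟨l • x, ?_, ?_, ?_⟩
  · rw [norm_smul, hl1, hx, one_mul]
  · rw [map_smul, inner_smul_left, inner_smul_right, hx0]
    simp
  · have e1 : ⟪l • x, C y⟫_ℂ = conj l * p := by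
      rw [inner_smul_left]
    have e2 : ⟪y, C (l • x)⟫_ℂ = l * q := by
      rw [map_smul, inner_smul_right]
    rw [e1, e2, add_im]
    have e3 : (conj l * r).im = (conj l * p).im + (l * q).im := by
      rw [hr, mul_sub, sub_im]
      have e4 : conj l * conj q = conj (l * q) := by rw [map_mul]
      rw [e4, Complex.conj_im]
      ring
    rw [← e3]
    exact hl2

/-- The core of the Toeplitz Hausdorff theorem. -/
theorem th_core (C : H →L[ℂ] H) {x' y : H} (hx'n : ‖x'‖ = 1) (hy : ‖y‖ = 1) (hx'0 : ⟪x', C x'⟫_ℂ = 0)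
    (hy1 : ⟪y, C y⟫_ℂ = 1) (hgim : (⟪x', C y⟫_ℂ + ⟪y, C x'⟫_ℂ).im = 0) {t : ℝ} (ht : t ∈ Icc (0 : ℝ) 1) :
    ∃ u : H, ‖u‖ = 1 ∧ ⟪u, C u⟫_ℂ = t := by
  set g := ⟪x', C y⟫_ℂ + ⟪y, C x'⟫_ℂ with hg
  set G := g.re with hG
  have hgG : g = (G : ℂ) := Complex.ext (by simp [hG]) (by simp [hgim])
  set z : ℝ → H := fun s => ((1 - s : ℝ) : ℂ) • x' + ((s : ℝ) : ℂ) • y with hz
  have hzc : Continuous z := by
    simp only [hz]
    fun_prop
  have hΨ : ∀ s : ℝ, ⟪z s, C (z s)⟫_ℂ = (((1 - s) * s * G + s ^ 2 : ℝ) : ℂ) := by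
    intro s
    simp only [hz]
    simp only [map_add, map_smul, inner_add_left, inner_add_right, inner_smul_left, inner_smul_right,
      hx'0, hy1, Complex.conj_ofReal]
    have e : ⟪x', C y⟫_ℂ = g - ⟪y, C x'⟫_ℂ := by rw [hg]; ring
    rw [e, hgG]
    push_cast
    ring
  have hzne : ∀ s ∈ Icc (0 : ℝ) 1, z s ≠ 0 := by
    intro s _ h0
    by_cases hs : s = 0
    · subst hs
      simp only [hz] at h0
      simp at h0
      rw [h0] at hx'n
      simp at hx'n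
    · have hsc : ((s : ℝ) : ℂ) ≠ 0 := by exact_mod_cast hs
      have hy' : y = (- (((1 - s : ℝ) : ℂ) / ((s : ℝ) : ℂ))) • x' := by
        have h1 : ((s : ℝ) : ℂ) • y = - (((1 - s : ℝ) : ℂ) • x') := by
          simp only [hz] at h0
          exact (eq_neg_of_add_eq_zero_right h0)
        have h2 : y = ((s : ℝ) : ℂ)⁻¹ • (((s : ℝ) : ℂ) • y) := by
          rw [smul_smul, inv_mul_cancel₀ hsc, one_smul]
        rw [h2, h1, smul_neg, smul_smul, neg_smul]
        congr 2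
        field_simp
      have : ⟪y, C y⟫_ℂ = 0 := by
        rw [hy', map_smul, inner_smul_left, inner_smul_right, hx'0]
        simp
      rw [hy1] at this
      exact one_ne_zero this
  set F : ℝ → ℝ := fun s => ((1 - s) * s * G + s ^ 2) / ‖z s‖ ^ 2 with hF
  have hFc : ContinuousOn F (Icc 0 1) := by
    apply ContinuousOn.div
    · apply Continuous.continuousOn
      fun_prop
    · exact (hzc.norm.pow 2).continuousOn
    · intro s hs
      have := norm_pos_iff.2 (hzne s hs)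
      positivity
  have hF0 : F 0 = 0 := by
    simp [hF]
  have hF1 : F 1 = 1 := by
    have e : z 1 = y := by
      simp [hz]
    simp [hF, e, hy]
  have hIVT := intermediate_value_Icc (zero_le_one) hFc
  rw [hF0, hF1] at hIVT
  obtain ⟨s, hs, hFs⟩ := hIVT ht
  have hn : 0 < ‖z s‖ := norm_pos_iff.2 (hzne s hs)
  have hnc : ((‖z s‖ : ℝ) : ℂ) ≠ 0 := by exact_mod_cast hn.ne'
  refine ⟨((‖z s‖ : ℝ) : ℂ)⁻¹ • z s, ?_, ?_⟩
  · rw [norm_smul, norm_inv, Complex.norm_real, norm_norm]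
    field_simp
  · rw [map_smul, inner_smul_left, inner_smul_right, hΨ, map_inv₀, Complex.conj_ofReal, ← hFs]
    simp only [hF]
    push_cast
    field_simp

/-- The Toeplitz Hausdorff theorem. -/
theorem toeplitz_hausdorff (A : H →L[ℂ] H) : Convex ℝ (Wset A) := by
  intro a ha b hb α β hα hβ hαβ
  obtain ⟨x, hx, rfl⟩ := ha
  obtain ⟨y, hy, rfl⟩ := hb
  set a := ⟪x, A x⟫_ℂ with hadef
  set b := ⟪y, A y⟫_ℂ with hbdef
  have hxx : ⟪x, x⟫_ℂ = 1 := by
    rw [inner_self_eq_norm_sq_to_K, hx]; simp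
  have hyy : ⟪y, y⟫_ℂ = 1 := by
    rw [inner_self_eq_norm_sq_to_K, hy]; simp
  by_cases hab : a = b
  · rw [← hab]
    refine ⟨x, hx, ?_⟩
    rw [← add_smul, hαβ, one_smul]
  · have hne : b - a ≠ 0 := sub_ne_zero.2 (Ne.symm hab)
    set C : H →L[ℂ] H := (b - a)⁻¹ • (A - a • (1 : H →L[ℂ] H)) with hC
    have hCx : ∀ u : H, ⟪u, C u⟫_ℂ = (b - a)⁻¹ * (⟪u, A u⟫_ℂ - a * ⟪u, u⟫_ℂ) := by
      intro u
      rw [hC]
      simp only [ContinuousLinearMap.smul_apply, ContinuousLinearMap.sub_apply, ContinuousLinearMap.one_apply]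
      rw [inner_smul_right, inner_sub_right, inner_smul_right]
    have h0 : ⟪x, C x⟫_ℂ = 0 := by
      rw [hCx, hxx, ← hadef]
      simp
    have h1 : ⟪y, C y⟫_ℂ = 1 := by
      rw [hCx, hyy, ← hbdef, mul_one]
      exact inv_mul_cancel₀ hne
    obtain ⟨x', hx'n, hx'0, hgim⟩ := th_phase C y hx h0
    obtain ⟨u, hu, huC⟩ := th_core C hx'n hy hx'0 h1 hgim (t := β) ⟨hβ, by linarith⟩
    refine ⟨u, hu, ?_⟩
    have huu : ⟪u, u⟫_ℂ = 1 := by
      rw [inner_self_eq_norm_sq_to_K, hu]; simp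
    rw [hCx, huu, mul_one] at huC
    have e : ⟪u, A u⟫_ℂ = a + (β : ℂ) * (b - a) := by
      field_simp at huC
      linear_combination huC
    rw [e]
    have hα' : α = 1 - β := by linarith
    rw [hα']
    simp only [Complex.real_smul]
    push_cast
    ring

end Vale.Agent.Lib.P123
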