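import Vale.Agent.Lib.P123.Pg2

open Complex ComplexConjugate MeasureTheory Set Filter Topology
open scoped Interval

set_option linter.unusedSectionVars false

namespace Vale.Agent.Lib.P123

namespace Pgn

variable (P : Pgn)

theorem re_conj_n_mul (j : ℤ) (x : ℂ) : (conj (P.n j) * x).re = P.dot j x := by
  simp [dot]; ring

theorem im_conj_n_mul (j : ℤ) (x : ℂ) :
    (conj (P.n j) * x).im = x.im * Real.cos (P.θ j) - x.re * Real.sin (P.θ j) := by
  simp; ring

theorem conj_n_ne (j : ℤ) : conj (P.n j) ≠ 0 := by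
  intro h
  have := P.n_norm j
  rw [← Complex.norm_conj, h] at this
  simp at this

theorem n_ne (j : ℤ) : P.n j ≠ 0 := by
  intro h
  have := P.n_norm j
  rw [h] at this
  simp at this

theorem t_ne (j : ℤ) : P.t j ≠ 0 := by
  intro h
  have := P.t_norm j
  rw [h] at this
  simp at this

theorem conj_n_mul_n (j : ℤ) : conj (P.n j) * P.n j = 1 := by
  rw [mul_comm, Complex.mul_conj, Complex.normSq_eq_norm_sq, n_norm]
  simp

/-- rotation by the angle step -/
noncomputable def rD : ℂ := ⟨Real.cos P.D, Real.sin P.D⟩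

theorem rD_ne : P.rD ≠ 0 := by
  intro h
  have := congrArg Complex.re h
  simp only [rD, zero_re] at this
  linarith [P.cosD_pos]

theorem arg_rD : arg P.rD = P.D := by
  have hD0 := P.D_pos
  have hD1 := P.D_le
  have hpi := Real.pi_pos
  have h1 := Complex.arg_cos_add_sin_mul_I (θ := P.D) ⟨by linarith, by linarith⟩
  have e : P.rD = (Complex.cos (P.D : ℂ) + Complex.sin (P.D : ℂ) * I) := by
    apply Complex.ext
    · simp [rD, ← Complex.ofReal_cos, ← Complex.ofReal_sin]
    · simp [rD, ← Complex.ofReal_cos, ← Complex.ofReal_sin]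
  rw [e, h1]

/-- rotation relating consecutive normals -/
theorem conj_n_rot (j : ℤ) : conj (P.n j) = P.rD * conj (P.n (j + 1)) := by
  apply Complex.ext
  · simp only [rD, mul_re, conj_re, conj_im, n_re, n_im, θ_succ, Real.cos_add, Real.sin_add]
    have := Real.sin_sq_add_cos_sq P.D
    linear_combination (- Real.cos (P.θ j)) * this
  · simp only [rD, mul_im, conj_re, conj_im, n_re, n_im, θ_succ, Real.cos_add, Real.sin_add]
    have := Real.sin_sq_add_cos_sq P.D
    linear_combination (Real.sin (P.θ j)) * this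

theorem dot_σ_sub (j : ℤ) (s : ℝ) (z : ℂ) : P.dot j (P.σ j s - z) = P.h j z := by
  have := P.h_sub_dot j z (P.σ j s)
  rw [h_σ_self, sub_zero] at this
  exact this.symm

theorem dot_v_sub' (j : ℤ) (z : ℂ) : P.dot j (P.v j - z) = P.h j z := by
  have := P.dot_σ_sub j 0 z
  rwa [σ_zero] at this

theorem norm_sub_ge_h (j : ℤ) (s : ℝ) (z : ℂ) : P.h j z ≤ ‖P.σ j s - z‖ := by
  have h1 := P.dot_le_norm j (P.σ j s - z)
  rw [dot_σ_sub] at h1
  exact (le_abs_self _).trans h1

theorem σ_sub_ne (j : ℤ) (s : ℝ) {z : ℂ} (hz : 0 < P.h j z) : P.σ j s - z ≠ 0 := by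
  intro h0
  have := P.norm_sub_ge_h j s z
  rw [h0] at this
  simp at this
  linarith

/-- integral of the Cauchy kernel over a side -/
theorem side_log (j : ℤ) {z : ℂ} (hz : 0 < P.h j z) :
    ∫ s in (0 : ℝ)..P.ℓ j, (P.t j) • (P.σ j s - z)⁻¹ =
      log (conj (P.n j) * (P.v (j + 1) - z)) - log (conj (P.n j) * (P.v j - z)) := by
  have hl := (P.ℓ_pos j).le
  have key := intervalIntegral.integral_eq_sub_of_hasDerivAt (a := 0) (b := P.ℓ j)
    (f := fun s => log (conj (P.n j) * (P.σ j s - z))) (f' := fun s => (P.t j) • (P.σ j s - z)⁻¹) ?_ ?_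
  · rw [key, σ_zero, v_succ]
  · intro s _
    have h1 : HasDerivAt (fun s => conj (P.n j) * (P.σ j s - z)) (conj (P.n j) * P.t j) s :=
      ((P.hasDerivAt_σ j s).sub_const z).const_mul _
    have h2 : conj (P.n j) * (P.σ j s - z) ∈ slitPlane := by
      left
      rw [re_conj_n_mul, dot_σ_sub]
      exact hz
    have h3 := h1.clog_real h2
    have e : conj (P.n j) * P.t j / (conj (P.n j) * (P.σ j s - z)) = (P.t j) • (P.σ j s - z)⁻¹ := by
      rw [mul_div_mul_left _ _ (P.conj_n_ne j), smul_eq_mul, div_eq_mul_inv]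
    rwa [e] at h3
  · apply ContinuousOn.intervalIntegrable
    apply Continuous.continuousOn
    have hc : Continuous (fun s => (P.σ j s - z)⁻¹) := by
      apply Continuous.inv₀
      · exact (P.σ_cont j).sub continuous_const
      · intro s
        exact P.σ_sub_ne j s hz
    exact hc.const_smul (P.t j)

/-- angle of a point seen from `z` relative to the normal of side `j` -/
noncomputable def ang (j : ℤ) (w z : ℂ) : ℝ := arg (conj (P.n j) * (w - z))

theorem ang_add_m (j : ℤ) (w z : ℂ) : P.ang (j + P.m) w z = P.ang j w z := by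
  simp [ang, n_add_m]

theorem log_conj_n (j : ℤ) (x : ℂ) :
    log (conj (P.n j) * x) = (Real.log ‖x‖ : ℂ) + (arg (conj (P.n j) * x) : ℂ) * I := by
  rw [Complex.log, norm_mul, Complex.norm_conj, n_norm, one_mul]

/-- rotation formula for the angle -/
theorem ang_rot (j : ℤ) {w z : ℂ} (hre : 0 < P.dot (j + 1) (w - z)) :
    P.ang j w z = P.D + P.ang (j + 1) w z := by
  unfold ang
  rw [P.conj_n_rot j, mul_assoc]
  have hD0 := P.D_pos
  have hD1 := P.D_le
  have hpi := Real.pi_pos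
  set y := conj (P.n (j + 1)) * (w - z) with hy
  have hyre : 0 < y.re := by rw [hy, re_conj_n_mul]; exact hre
  have hy0 : y ≠ 0 := by
    intro h; rw [h] at hyre; simp at hyre
  have hy1 : |arg y| < Real.pi / 2 := Complex.abs_arg_lt_pi_div_two_iff.2 (Or.inl hyre)
  rw [abs_lt] at hy1
  rw [(Complex.arg_mul_eq_add_arg_iff P.rD_ne hy0).2, P.arg_rD]
  rw [P.arg_rD]
  constructor <;> linarith [hy1.1, hy1.2]

/-- Winding number one. -/
theorem cint_inv {z : ℂ} (hz : z ∈ P.Om) :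
    P.cint (fun w => (w - z)⁻¹) = 2 * (Real.pi : ℂ) * I := by
  unfold cint bint
  have e : ∀ k ∈ Finset.range P.m, ∫ s in (0 : ℝ)..P.ℓ k, (P.t k) • (P.σ k s - z)⁻¹ =
      (((Real.log ‖P.v ((k + 1 : ℕ) : ℤ) - z‖ - Real.log ‖P.v (k : ℤ) - z‖ : ℝ) : ℂ)) +
      (((P.ang ((k + 1 : ℕ) : ℤ) (P.v ((k + 1 : ℕ) : ℤ)) z - P.ang (k : ℤ) (P.v (k : ℤ)) z + P.D : ℝ)) : ℂ) * I := by
    intro k _
    rw [P.side_log k (hz k), log_conj_n, log_conj_n]
    have h1 : 0 < P.dot ((k : ℤ) + 1) (P.v ((k : ℤ) + 1) - z) := by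
      rw [dot_v_sub']; exact hz _
    have h2 := P.ang_rot (k : ℤ) h1
    unfold ang at h2
    rw [h2]
    unfold ang
    push_cast
    ring
  rw [Finset.sum_congr rfl e, Finset.sum_add_distrib]
  have s1 : ∑ k ∈ Finset.range P.m, (((Real.log ‖P.v ((k + 1 : ℕ) : ℤ) - z‖ - Real.log ‖P.v (k : ℤ) - z‖ : ℝ) : ℂ)) = 0 := by
    rw [← Complex.ofReal_sum, Finset.sum_range_sub (fun k : ℕ => Real.log ‖P.v (k : ℤ) - z‖)]
    have := P.v_add_m 0
    simp only [zero_add] at this
    simp [this]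
  have s2 : ∑ k ∈ Finset.range P.m, (((P.ang ((k + 1 : ℕ) : ℤ) (P.v ((k + 1 : ℕ) : ℤ)) z - P.ang (k : ℤ) (P.v (k : ℤ)) z + P.D : ℝ)) : ℂ) * I
      = 2 * (Real.pi : ℂ) * I := by
    rw [← Finset.sum_mul, ← Complex.ofReal_sum, Finset.sum_add_distrib,
      Finset.sum_range_sub (fun k : ℕ => P.ang (k : ℤ) (P.v (k : ℤ)) z)]
    have h0 := P.v_add_m 0
    simp only [zero_add] at h0
    have h1 := P.ang_add_m 0 (P.v 0) z
    simp only [zero_add] at h1
    simp only [Nat.cast_zero, h0, h1, sub_self, zero_add, Finset.sum_const, Finset.card_range, nsmul_eq_mul]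
    rw [mul_comm (P.m : ℝ), P.D_mul_m]
    push_cast
    ring
  rw [s1, s2, zero_add]

/-! ### Holomorphy of Cauchy integrals -/

section par

variable {E : Type*} [NormedAddCommGroup E] [NormedSpace ℂ E] [CompleteSpace E]

theorem side_cauchy_diff (j : ℤ) {φ : ℝ → E} (hφ : ContinuousOn φ (Icc 0 (P.ℓ j))) {ζ₀ : ℂ}
    (h0 : 0 < P.h j ζ₀) :
    DifferentiableAt ℂ (fun ζ => ∫ s in (0 : ℝ)..P.ℓ j, (P.σ j s - ζ)⁻¹ • φ s) ζ₀ := by
  set d := P.h j ζ₀ with hd
  have hl := (P.ℓ_pos j).le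
  obtain ⟨C, hC⟩ := isCompact_Icc.exists_bound_of_continuousOn hφ
  have hball : ∀ x ∈ Metric.ball ζ₀ (d / 2), d / 2 ≤ P.h j x := by
    intro x hx
    rw [Metric.mem_ball, dist_eq_norm] at hx
    have := P.abs_h_sub_le j x ζ₀
    have h3 := (abs_le.1 this).1
    linarith
  have hne : ∀ x ∈ Metric.ball ζ₀ (d / 2), ∀ s, P.σ j s - x ≠ 0 := by
    intro x hx s
    exact P.σ_sub_ne j s (by linarith [hball x hx])
  have hnorm : ∀ x ∈ Metric.ball ζ₀ (d / 2), ∀ s, ‖(P.σ j s - x)⁻¹‖ ≤ 2 / d := by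
    intro x hx s
    have h1 := hball x hx
    have h2 := P.norm_sub_ge_h j s x
    rw [norm_inv, inv_le_comm₀ (norm_pos_iff.2 (hne x hx s)) (by positivity)]
    rw [inv_div]
    linarith
  have hcont : ∀ x ∈ Metric.ball ζ₀ (d / 2), ContinuousOn (fun s => (P.σ j s - x)⁻¹) (Icc 0 (P.ℓ j)) := by
    intro x hx
    apply Continuous.continuousOn
    apply Continuous.inv₀
    · exact (P.σ_cont j).sub continuous_const
    · exact hne x hx
  have hmeas : ∀ {G : ℝ → E}, ContinuousOn G (Icc 0 (P.ℓ j)) →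
      AEStronglyMeasurable G (volume.restrict (Ι (0 : ℝ) (P.ℓ j))) := by
    intro G hG
    have h1 := hG.aestronglyMeasurable (μ := volume) measurableSet_Icc
    apply h1.mono_measure
    apply Measure.restrict_mono _ le_rfl
    rw [uIoc_of_le hl]
    exact Ioc_subset_Icc_self
  have hb := Metric.ball_mem_nhds ζ₀ (by positivity : 0 < d / 2)
  have key := intervalIntegral.hasDerivAt_integral_of_dominated_loc_of_deriv_le (μ := volume)
    (a := 0) (b := P.ℓ j)
    (F := fun ζ s => (P.σ j s - ζ)⁻¹ • φ s)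
    (F' := fun ζ s => (((P.σ j s - ζ)⁻¹) ^ 2) • φ s)
    (bound := fun _ => (2 / d) ^ 2 * C) hb ?_ ?_ ?_ ?_ ?_ ?_
  · exact key.2.differentiableAt
  · filter_upwards [hb] with x hx
    exact hmeas ((hcont x hx).smul hφ)
  · apply ContinuousOn.intervalIntegrable
    rw [uIcc_of_le hl]
    exact (hcont ζ₀ (Metric.mem_ball_self (by positivity))).smul hφ
  · apply hmeas
    exact ((hcont ζ₀ (Metric.mem_ball_self (by positivity))).pow 2).smul hφ
  · refine Eventually.of_forall ?_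
    intro s hs x hx
    rw [uIoc_of_le hl] at hs
    rw [norm_smul, norm_pow]
    have h1 := hnorm x hx s
    have h2 := hC s (Ioc_subset_Icc_self hs)
    have hC0 : 0 ≤ C := (norm_nonneg _).trans h2
    exact mul_le_mul (pow_le_pow_left₀ (norm_nonneg _) h1 2) h2 (norm_nonneg _) (by positivity)
  · exact intervalIntegrable_const
  · refine Eventually.of_forall ?_
    intro s _ x hx
    have h1 : HasDerivAt (fun ζ => P.σ j s - ζ) (-1) x := by
      simpa using (hasDerivAt_id x).const_sub (P.σ j s)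
    have h2 := h1.inv (hne x hx s)
    have e : - (-1 : ℂ) / (P.σ j s - x) ^ 2 = ((P.σ j s - x)⁻¹) ^ 2 := by
      field_simp [hne x hx s]
    rw [e] at h2
    exact h2.smul_const (φ s)

variable {P}

theorem cint_eq_sum_smul (F : ℂ → E) (ζ : ℂ) :
    P.cint (fun w => (w - ζ)⁻¹ • F w) =
      ∑ k ∈ Finset.range P.m, ∫ s in (0 : ℝ)..P.ℓ k, (P.σ k s - ζ)⁻¹ • ((P.t k) • F (P.σ k s)) := by
  unfold cint bint
  apply Finset.sum_congr rfl
  intro k _
  congr 1
  ext s
  rw [smul_comm]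

/-- A Cauchy integral is holomorphic inside the polygon. -/
theorem cauchy_diff {F : ℂ → E} (hF : ContinuousOn F P.bd) :
    DifferentiableOn ℂ (fun ζ => P.cint (fun w => (w - ζ)⁻¹ • F w)) P.Om := by
  intro ζ₀ hζ
  apply DifferentiableAt.differentiableWithinAt
  have : (fun ζ => P.cint (fun w => (w - ζ)⁻¹ • F w)) =
      fun ζ => ∑ k ∈ Finset.range P.m, ∫ s in (0 : ℝ)..P.ℓ k, (P.σ k s - ζ)⁻¹ • ((P.t k) • F (P.σ k s)) := by
    ext ζ
    exact cint_eq_sum_smul F ζ
  rw [this]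
  apply DifferentiableAt.fun_sum
  intro k _
  apply P.side_cauchy_diff (k : ℤ) _ (hζ k)
  exact (SC_comp hF k).const_smul _

end par

end Pgn

end Vale.Agent.Lib.P123
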