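import Vale.Agent.Lib.P123.Pg3

open Complex ComplexConjugate MeasureTheory Set Filter Topology
open scoped Interval NNReal

set_option linter.unusedSectionVars false

namespace Vale.Agent.Lib.P123

namespace Pgn

section gen

variable {P : Pgn}

theorem bint_map {𝕜 E E' : Type*} [RCLike 𝕜] [NormedAddCommGroup E] [NormedSpace 𝕜 E]
    [NormedSpace ℝ E] [CompleteSpace E]
    [NormedAddCommGroup E'] [NormedSpace 𝕜 E'] [NormedSpace ℝ E'] [CompleteSpace E']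
    (L : E →L[𝕜] E') {F : ℤ → ℝ → E} (hF : P.SC F) :
    P.bint (fun j s => L (F j s)) = L (P.bint F) := by
  unfold bint
  rw [map_sum]
  apply Finset.sum_congr rfl
  intro k _
  exact L.intervalIntegral_comp_comm (hF.ii k)

variable {E E' : Type*} [NormedAddCommGroup E] [NormedSpace ℂ E] [CompleteSpace E]
  [NormedAddCommGroup E'] [NormedSpace ℂ E'] [CompleteSpace E']

theorem cint_map (L : E →L[ℂ] E') {F : ℂ → E} (hF : ContinuousOn F P.bd) :
    P.cint (fun z => L (F z)) = L (P.cint F) := by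
  unfold cint
  rw [← bint_map L (SC_cint hF)]
  congr 2
  ext j s
  rw [map_smul]

omit [CompleteSpace E] [CompleteSpace E'] in
theorem cint_congr {F G : ℂ → E} (h : ∀ z ∈ P.bd, F z = G z) : P.cint F = P.cint G := by
  unfold cint
  apply bint_congr
  intro j s hs
  rw [h _ (P.σ_mem_bd j hs.1.le hs.2.le)]

end gen

end Pgn

variable {H : Type*} [NormedAddCommGroup H] [InnerProductSpace ℂ H] [CompleteSpace H]

/-- the numerical range lies inside the polygon with margin `c`. -/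
def Adm (P : Pgn) (A : H →L[ℂ] H) (c : ℝ) : Prop :=
  0 < c ∧ ∀ x : H, ‖x‖ = 1 → ∀ j : ℤ, c ≤ P.h j (inner ℂ x (A x))

/-- the resolvent -/
noncomputable def Res (A : H →L[ℂ] H) (ζ : ℂ) : H →L[ℂ] H := Ring.inverse (ζ • (1 : H →L[ℂ] H) - A)

variable {P : Pgn} {A : H →L[ℂ] H} {c : ℝ}

theorem Adm.dot_le (hA : Adm P A c) (x : H) (j : ℤ) :
    P.dot j (inner ℂ x (A x)) ≤ (P.b j - c) * ‖x‖ ^ 2 := by
  by_cases hx : x = 0
  · subst hx
    simp [Pgn.dot]
  have hn : 0 < ‖x‖ := norm_pos_iff.2 hx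
  have hne : ((‖x‖ : ℝ) : ℂ) ≠ 0 := by exact_mod_cast hn.ne'
  set u : H := ((‖x‖ : ℝ) : ℂ)⁻¹ • x with hu
  have hu1 : ‖u‖ = 1 := by
    rw [hu, norm_smul, norm_inv, Complex.norm_real, norm_norm]
    field_simp
  have h1 := hA.2 u hu1 j
  have e : inner ℂ x (A x) = (((‖x‖ ^ 2 : ℝ)) : ℂ) * inner ℂ u (A u) := by
    rw [hu, map_smul, inner_smul_left, inner_smul_right]
    simp only [map_inv₀, Complex.conj_ofReal]
    push_cast
    field_simp
  rw [e, Pgn.dot_smul]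
  rw [Pgn.h_eq_dot] at h1
  have := sq_nonneg ‖x‖
  nlinarith

theorem inner_sub_res (x : H) (ζ : ℂ) :
    inner ℂ x ((ζ • (1 : H →L[ℂ] H) - A) x) = ζ * ((‖x‖ ^ 2 : ℝ) : ℂ) - inner ℂ x (A x) := by
  have : ((ζ • (1 : H →L[ℂ] H) - A) x) = ζ • x - A x := rfl
  rw [this, inner_sub_right, inner_smul_right, inner_self_eq_norm_sq_to_K]
  simp

/-- Coercivity. -/
theorem Adm.coer (hA : Adm P A c) {ζ : ℂ} (j : ℤ) (x : H) :
    (c - P.h j ζ) * ‖x‖ ^ 2 ≤ (conj (P.n j) * inner ℂ x ((ζ • (1 : H →L[ℂ] H) - A) x)).re := by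
  rw [inner_sub_res, mul_sub, sub_re, P.re_conj_n_mul, P.re_conj_n_mul]
  have h1 := hA.dot_le x j
  have : P.dot j (ζ * ((‖x‖ ^ 2 : ℝ) : ℂ)) = P.dot j ζ * ‖x‖ ^ 2 := by
    rw [mul_comm, Pgn.dot_smul, mul_comm]
  rw [this]
  have e : P.h j ζ = P.b j - P.dot j ζ := rfl
  rw [e]
  nlinarith

theorem Adm.coer_norm (hA : Adm P A c) {ζ : ℂ} (j : ℤ) (x : H) :
    (c - P.h j ζ) * ‖x‖ ^ 2 ≤ ‖inner ℂ x ((ζ • (1 : H →L[ℂ] H) - A) x)‖ := by
  refine (hA.coer j x).trans ((Complex.re_le_norm _).trans ?_)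
  rw [norm_mul, Complex.norm_conj, P.n_norm, one_mul]

theorem Adm.isUnit (hA : Adm P A c) {ζ : ℂ} (j : ℤ) (hg : 0 < c - P.h j ζ) :
    IsUnit (ζ • (1 : H →L[ℂ] H) - A) := by
  apply ContinuousLinearMap.isUnit_of_forall_le_norm_inner_map _ (c := ⟨c - P.h j ζ, hg.le⟩) (by exact_mod_cast hg)
  intro x
  have h1 := hA.coer_norm j x (ζ := ζ)
  have e : ‖inner ℂ ((ζ • (1 : H →L[ℂ] H) - A) x) x‖ = ‖inner ℂ x ((ζ • (1 : H →L[ℂ] H) - A) x)‖ := by
    rw [← inner_conj_symm, Complex.norm_conj]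
  rw [e]
  refine le_trans (le_of_eq ?_) h1
  change ‖x‖ ^ 2 * (c - P.h j ζ) = _
  ring

theorem Adm.mul_res (hA : Adm P A c) {ζ : ℂ} (j : ℤ) (hg : 0 < c - P.h j ζ) :
    (ζ • (1 : H →L[ℂ] H) - A) * Res A ζ = 1 :=
  Ring.mul_inverse_cancel _ (hA.isUnit j hg)

theorem Adm.res_mul (hA : Adm P A c) {ζ : ℂ} (j : ℤ) (hg : 0 < c - P.h j ζ) :
    Res A ζ * (ζ • (1 : H →L[ℂ] H) - A) = 1 :=
  Ring.inverse_mul_cancel _ (hA.isUnit j hg)

theorem Adm.res_norm (hA : Adm P A c) {ζ : ℂ} (j : ℤ) (hg : 0 < c - P.h j ζ) :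
    ‖Res A ζ‖ ≤ 1 / (c - P.h j ζ) := by
  apply ContinuousLinearMap.opNorm_le_bound _ (by positivity)
  intro x
  set y := Res A ζ x with hy
  have hxy : (ζ • (1 : H →L[ℂ] H) - A) y = x := by
    have := congrArg (fun T : H →L[ℂ] H => T x) (hA.mul_res j hg)
    simpa using this
  have h1 := hA.coer_norm j y (ζ := ζ)
  rw [hxy] at h1
  have h2 := norm_inner_le_norm (𝕜 := ℂ) y x
  have h3 : (c - P.h j ζ) * ‖y‖ ^ 2 ≤ ‖y‖ * ‖x‖ := h1.trans h2
  rw [div_mul_eq_mul_div, one_mul, le_div_iff₀ hg]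
  by_cases hy0 : ‖y‖ = 0
  · rw [hy0]
    have := norm_nonneg x
    nlinarith
  · have hypos : 0 < ‖y‖ := lt_of_le_of_ne (norm_nonneg _) (Ne.symm hy0)
    have : ‖y‖ * ((c - P.h j ζ) * ‖y‖) ≤ ‖y‖ * ‖x‖ := by nlinarith
    have := le_of_mul_le_mul_left this hypos
    linarith

/-- The region where the resolvent is under control. -/
def Out (P : Pgn) (c : ℝ) : Set ℂ := {ζ | ∃ j : ℤ, P.h j ζ < c / 2}

theorem isOpen_Out (P : Pgn) (c : ℝ) : IsOpen (Out P c) := by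
  have : Out P c = ⋃ j : ℤ, {ζ | P.h j ζ < c / 2} := by
    ext ζ
    simp [Out]
  rw [this]
  apply isOpen_iUnion
  intro j
  apply isOpen_lt _ continuous_const
  unfold Pgn.h
  fun_prop

theorem bd_subset_Out (hc : 0 < c) : P.bd ⊆ Out P c := by
  intro z hz
  have h2 : z ∉ P.Om := hz.2
  simp only [Pgn.Om, Set.mem_setOf_eq, not_forall, not_lt] at h2
  obtain ⟨j, hj⟩ := h2
  exact ⟨j, by linarith⟩

theorem Om_union_Out (hc : 0 < c) (ζ : ℂ) (h : ζ ∉ P.Om) : ζ ∈ Out P c := by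
  simp only [Pgn.Om, Set.mem_setOf_eq, not_forall, not_lt] at h
  obtain ⟨j, hj⟩ := h
  exact ⟨j, by linarith⟩

theorem Adm.mul_res' (hA : Adm P A c) {ζ : ℂ} (h : ζ ∈ Out P c) :
    (ζ • (1 : H →L[ℂ] H) - A) * Res A ζ = 1 := by
  obtain ⟨j, hj⟩ := h
  exact hA.mul_res j (by linarith [hA.1])

theorem Adm.res_mul' (hA : Adm P A c) {ζ : ℂ} (h : ζ ∈ Out P c) :
    Res A ζ * (ζ • (1 : H →L[ℂ] H) - A) = 1 := by
  obtain ⟨j, hj⟩ := h
  exact hA.res_mul j (by linarith [hA.1])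

theorem Adm.res_norm' (hA : Adm P A c) {ζ : ℂ} (h : ζ ∈ Out P c) : ‖Res A ζ‖ ≤ 2 / c := by
  obtain ⟨j, hj⟩ := h
  have hc := hA.1
  have hg : 0 < c - P.h j ζ := by linarith
  refine (hA.res_norm j hg).trans ?_
  rw [div_le_div_iff₀ hg hc]
  linarith

theorem Adm.res_diff (hA : Adm P A c) {ζ : ℂ} (h : ζ ∈ Out P c) :
    DifferentiableAt ℂ (Res A) ζ := by
  obtain ⟨j, hj⟩ := h
  have hu := hA.isUnit j (ζ := ζ) (by linarith [hA.1])
  have h1 : DifferentiableAt ℂ (fun z : ℂ => z • (1 : H →L[ℂ] H) - A) ζ :=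
    (differentiableAt_id.smul_const _).sub_const _
  exact (differentiableAt_inverse (𝕜 := ℂ) hu).comp ζ h1

theorem Adm.res_cont (hA : Adm P A c) : ContinuousOn (Res A) (Out P c) :=
  fun _ hz => (hA.res_diff hz).continuousAt.continuousWithinAt

theorem Adm.res_cont_bd (hA : Adm P A c) : ContinuousOn (Res A) P.bd :=
  hA.res_cont.mono (bd_subset_Out hA.1)

/-- the operator attached to a boundary function -/
noncomputable def Top (P : Pgn) (A : H →L[ℂ] H) (φ : ℂ → ℂ) : H →L[ℂ] H :=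
  (2 * (Real.pi : ℂ) * I)⁻¹ • P.cint (fun σ => φ σ • Res A σ)

/-- the Cauchy transform of a boundary function -/
noncomputable def Cc (P : Pgn) (φ : ℂ → ℂ) (ζ : ℂ) : ℂ :=
  (2 * (Real.pi : ℂ) * I)⁻¹ • P.cint (fun σ => (σ - ζ)⁻¹ • φ σ)

/-- the operator valued Cauchy transform -/
noncomputable def Psi (P : Pgn) (A : H →L[ℂ] H) (φ : ℂ → ℂ) (ζ : ℂ) : H →L[ℂ] H :=
  (2 * (Real.pi : ℂ) * I)⁻¹ • P.cint (fun σ => (σ - ζ)⁻¹ • (φ σ • Res A σ))

theorem two_pi_I_ne : (2 * (Real.pi : ℂ) * I) ≠ 0 := by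
  simp [Real.pi_ne_zero, I_ne_zero]

theorem inv_sub_cont {ζ : ℂ} (hζ : ζ ∈ P.Om) : ContinuousOn (fun σ : ℂ => (σ - ζ)⁻¹) P.bd := by
  apply ContinuousOn.inv₀
  · fun_prop
  · intro σ hσ h0
    have : σ = ζ := sub_eq_zero.1 h0
    rw [this] at hσ
    exact hσ.2 hζ

theorem Adm.Psi_id (hA : Adm P A c) {φ : ℂ → ℂ} (hφ : ContinuousOn φ P.bd) {ζ : ℂ} (hζ : ζ ∈ P.Om) :
    (ζ • (1 : H →L[ℂ] H) - A) * Psi P A φ ζ = Cc P φ ζ • (1 : H →L[ℂ] H) - Top P A φ := by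
  have hR := hA.res_cont_bd
  have hi := inv_sub_cont hζ
  have hF : ContinuousOn (fun σ => (σ - ζ)⁻¹ • (φ σ • Res A σ)) P.bd := hi.smul (hφ.smul hR)
  have hC : ContinuousOn (fun σ => (σ - ζ)⁻¹ • φ σ) P.bd := hi.smul hφ
  have hT : ContinuousOn (fun σ => φ σ • Res A σ) P.bd := hφ.smul hR
  have e1 := Pgn.cint_map (ContinuousLinearMap.mul ℂ (H →L[ℂ] H) (ζ • (1 : H →L[ℂ] H) - A)) hF
  have e2 := Pgn.cint_map (P := P) (ContinuousLinearMap.smulRight (1 : ℂ →L[ℂ] ℂ) (1 : H →L[ℂ] H)) hC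
  have e3 : P.cint (fun σ => (ContinuousLinearMap.mul ℂ (H →L[ℂ] H) (ζ • (1 : H →L[ℂ] H) - A))
      ((σ - ζ)⁻¹ • (φ σ • Res A σ))) =
      P.cint (fun σ => (ContinuousLinearMap.smulRight (1 : ℂ →L[ℂ] ℂ) (1 : H →L[ℂ] H)) ((σ - ζ)⁻¹ • φ σ)
        - φ σ • Res A σ) := by
    apply Pgn.cint_congr
    intro σ hσ
    have hne : σ - ζ ≠ 0 := by
      intro h0
      have : σ = ζ := sub_eq_zero.1 h0
      rw [this] at hσ
      exact hσ.2 hζ
    have hO := hA.mul_res' (bd_subset_Out hA.1 hσ)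
    simp only [ContinuousLinearMap.mul_apply', ContinuousLinearMap.smulRight_apply,
      ContinuousLinearMap.one_apply]
    have e4 : (ζ • (1 : H →L[ℂ] H) - A) = (σ • (1 : H →L[ℂ] H) - A) + (ζ - σ) • (1 : H →L[ℂ] H) := by
      rw [sub_smul]; abel
    rw [mul_smul_comm, mul_smul_comm, e4, add_mul, hO, smul_mul_assoc, one_mul]
    rw [smul_add, smul_add, smul_smul, smul_smul, smul_smul, smul_eq_mul]
    have e5 : (σ - ζ)⁻¹ * φ σ * (ζ - σ) = - φ σ := by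
      field_simp
      ring
    rw [e5, neg_smul, ← sub_eq_add_neg]
  rw [e1] at e3
  have hcr : ContinuousOn (fun σ => (ContinuousLinearMap.smulRight (1 : ℂ →L[ℂ] ℂ) (1 : H →L[ℂ] H)) ((σ - ζ)⁻¹ • φ σ)) P.bd :=
    (ContinuousLinearMap.continuous _).comp_continuousOn hC
  rw [Pgn.cint_sub hcr hT, e2] at e3
  unfold Psi Cc Top
  rw [mul_smul_comm]
  have e6 : (ζ • (1 : H →L[ℂ] H) - A) * P.cint (fun σ => (σ - ζ)⁻¹ • (φ σ • Res A σ)) =
      (ContinuousLinearMap.smulRight (1 : ℂ →L[ℂ] ℂ) (1 : H →L[ℂ] H)) (P.cint fun σ => (σ - ζ)⁻¹ • φ σ) -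
        P.cint fun σ => φ σ • Res A σ := e3
  rw [e6, smul_sub]
  simp only [ContinuousLinearMap.smulRight_apply, ContinuousLinearMap.one_apply, smul_eq_mul]
  rw [smul_smul]

/-- Cauchy transform of the constant one. -/
theorem Cc_one {ζ : ℂ} (hζ : ζ ∈ P.Om) : Cc P (fun _ => 1) ζ = 1 := by
  unfold Cc
  have : (fun σ : ℂ => (σ - ζ)⁻¹ • (1 : ℂ)) = fun σ => (σ - ζ)⁻¹ := by
    ext σ; simp
  rw [this, P.cint_inv hζ, smul_eq_mul]
  exact inv_mul_cancel₀ two_pi_I_ne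

/-- The contour integral of the resolvent. -/
theorem Adm.Top_one (hA : Adm P A c) : Top P A (fun _ => 1) = 1 := by
  set Y : H →L[ℂ] H := Top P A (fun _ => 1) with hY
  have hc := hA.1
  have hone : ContinuousOn (fun _ : ℂ => (1 : ℂ)) P.bd := continuousOn_const
  have hPsi : ∀ ζ ∈ P.Om, (ζ • (1 : H →L[ℂ] H) - A) * Psi P A (fun _ => 1) ζ = 1 - Y := by
    intro ζ hζ
    rw [hA.Psi_id hone hζ, Cc_one hζ, one_smul]
  have hagree : ∀ ζ ∈ P.Om, ζ ∈ Out P c → Psi P A (fun _ => 1) ζ = Res A ζ * (1 - Y) := by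
    intro ζ hζ hO
    rw [← hPsi ζ hζ, ← mul_assoc, hA.res_mul' hO, one_mul]
  classical
  set Φ : ℂ → H →L[ℂ] H := fun ζ => if ζ ∈ P.Om then Psi P A (fun _ => 1) ζ else Res A ζ * (1 - Y) with hΦ
  have hOut : ∀ ζ ∈ Out P c, Φ ζ = Res A ζ * (1 - Y) := by
    intro ζ hO
    simp only [hΦ]
    split_ifs with h
    · exact hagree ζ h hO
    · rfl
  have hPd : DifferentiableOn ℂ (Psi P A (fun _ => 1)) P.Om := by
    have := (Pgn.cauchy_diff (P := P) (F := fun σ => (fun _ => (1 : ℂ)) σ • Res A σ)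
      (hone.smul hA.res_cont_bd)).const_smul (2 * (Real.pi : ℂ) * I)⁻¹
    exact this
  have hdiff : Differentiable ℂ Φ := by
    intro ζ
    by_cases hζ : ζ ∈ P.Om
    · have h1 := (hPd ζ hζ).differentiableAt (P.isOpen_Om.mem_nhds hζ)
      apply h1.congr_of_eventuallyEq
      filter_upwards [P.isOpen_Om.mem_nhds hζ] with z hz
      simp only [hΦ, if_pos hz]
    · have hO := Om_union_Out hc ζ hζ
      have h1 : DifferentiableAt ℂ (fun z => Res A z * (1 - Y)) ζ := (hA.res_diff hO).mul_const _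
      apply h1.congr_of_eventuallyEq
      filter_upwards [(isOpen_Out P c).mem_nhds hO] with z hz
      exact hOut z hz
  have hlim : Tendsto Φ (cocompact ℂ) (𝓝 0) := by
    rw [tendsto_zero_iff_norm_tendsto_zero]
    have hcos := P.cosD_pos
    set C := ‖(1 : H →L[ℂ] H) - Y‖ with hC
    have hg : Tendsto (fun ζ : ℂ => C / (c - P.B + ‖ζ‖ * Real.cos P.D)) (cocompact ℂ) (𝓝 0) := by
      apply Tendsto.const_div_atTop
      apply tendsto_atTop_add_const_left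
      exact (tendsto_norm_cocompact_atTop).atTop_mul_const hcos
    apply squeeze_zero' (Eventually.of_forall fun _ => norm_nonneg _) _ hg
    have hlarge : ∀ᶠ ζ : ℂ in cocompact ℂ, P.B + 1 < ‖ζ‖ * Real.cos P.D := by
      have : Tendsto (fun ζ : ℂ => ‖ζ‖ * Real.cos P.D) (cocompact ℂ) atTop :=
        (tendsto_norm_cocompact_atTop).atTop_mul_const hcos
      exact this.eventually_gt_atTop _
    filter_upwards [hlarge] with ζ hζ
    obtain ⟨j, hj⟩ := P.exists_nearest ζ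
    have hb := P.b_le_B j
    have hh : P.h j ζ ≤ P.B - ‖ζ‖ * Real.cos P.D := by
      rw [Pgn.h_eq_dot]; linarith
    have hg0 : 0 < c - P.h j ζ := by linarith
    have hO : ζ ∈ Out P c := ⟨j, by linarith⟩
    rw [hOut ζ hO]
    have hg1 : 0 < c - P.B + ‖ζ‖ * Real.cos P.D := by linarith
    calc ‖Res A ζ * (1 - Y)‖ ≤ ‖Res A ζ‖ * C := norm_mul_le _ _
      _ ≤ (1 / (c - P.h j ζ)) * C := by
          apply mul_le_mul_of_nonneg_right (hA.res_norm j hg0) (norm_nonneg _)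
      _ ≤ (1 / (c - P.B + ‖ζ‖ * Real.cos P.D)) * C := by
          apply mul_le_mul_of_nonneg_right _ (norm_nonneg _)
          apply one_div_le_one_div_of_le hg1
          linarith
      _ = C / (c - P.B + ‖ζ‖ * Real.cos P.D) := by ring
  have hzero := fun z => hdiff.apply_eq_of_tendsto_cocompact z hlim
  have hv : P.v 0 ∈ Out P c := ⟨0, by rw [P.h_v_self]; linarith⟩
  have h1 := hzero (P.v 0)
  rw [hOut _ hv] at h1
  have h2 : (1 : H →L[ℂ] H) - Y = 0 := by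
    have := congrArg (fun T => ((P.v 0) • (1 : H →L[ℂ] H) - A) * T) h1
    simp only [mul_zero, ← mul_assoc, hA.mul_res' hv, one_mul] at this
    exact this
  exact (sub_eq_zero.1 h2).symm

/-- the functional calculus relation -/
def IsCalc (P : Pgn) (A : H →L[ℂ] H) (f : ℂ → ℂ) (T : H →L[ℂ] H) : Prop :=
  DiffContOnCl ℂ f P.Om ∧ ∃ Ψ : ℂ → H →L[ℂ] H, DiffContOnCl ℂ Ψ P.Om ∧
    ∀ ζ ∈ P.Ob, (ζ • (1 : H →L[ℂ] H) - A) * Ψ ζ = f ζ • (1 : H →L[ℂ] H) - T

theorem dcc_mul {𝔸 : Type*} [NormedRing 𝔸] [NormedAlgebra ℂ 𝔸] {f g : ℂ → 𝔸} {s : Set ℂ}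
    (hf : DiffContOnCl ℂ f s) (hg : DiffContOnCl ℂ g s) : DiffContOnCl ℂ (fun z => f z * g z) s :=
  ⟨hf.differentiableOn.mul hg.differentiableOn, hf.continuousOn.mul hg.continuousOn⟩

theorem IsCalc.one : IsCalc P A (fun _ => 1) 1 := by
  refine ⟨diffContOnCl_const, fun _ => 0, diffContOnCl_const, ?_⟩
  intro ζ _
  simp

theorem IsCalc.id : IsCalc P A (fun z => z) A := by
  refine ⟨differentiable_id.diffContOnCl, fun _ => 1, diffContOnCl_const, ?_⟩
  intro ζ _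
  simp

theorem IsCalc.add {f g : ℂ → ℂ} {S T : H →L[ℂ] H} (hf : IsCalc P A f S) (hg : IsCalc P A g T) :
    IsCalc P A (fun z => f z + g z) (S + T) := by
  obtain ⟨h1, Ψ₁, h2, h3⟩ := hf
  obtain ⟨h4, Ψ₂, h5, h6⟩ := hg
  refine ⟨h1.add h4, fun z => Ψ₁ z + Ψ₂ z, h2.add h5, ?_⟩
  intro ζ hζ
  rw [mul_add, h3 ζ hζ, h6 ζ hζ, add_smul]
  abel

theorem IsCalc.smul {f : ℂ → ℂ} {T : H →L[ℂ] H} (a : ℂ) (hf : IsCalc P A f T) :
    IsCalc P A (fun z => a * f z) (a • T) := by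
  obtain ⟨h1, Ψ₁, h2, h3⟩ := hf
  refine ⟨dcc_mul diffContOnCl_const h1, fun z => a • Ψ₁ z, h2.const_smul a, ?_⟩
  intro ζ hζ
  rw [mul_smul_comm, h3 ζ hζ, smul_sub, smul_smul]

theorem IsCalc.mul {f g : ℂ → ℂ} {S T : H →L[ℂ] H} (hf : IsCalc P A f S) (hg : IsCalc P A g T) :
    IsCalc P A (fun z => f z * g z) (S * T) := by
  obtain ⟨h1, Ψ₁, h2, h3⟩ := hf
  obtain ⟨h4, Ψ₂, h5, h6⟩ := hg
  have hd : DiffContOnCl ℂ (fun z => Ψ₁ z * T) P.Om := dcc_mul h2 diffContOnCl_const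
  have hd2 : DiffContOnCl ℂ (fun z => f z • Ψ₂ z) P.Om := h1.smul h5
  refine ⟨dcc_mul h1 h4, fun z => f z • Ψ₂ z + Ψ₁ z * T, hd2.add hd, ?_⟩
  intro ζ hζ
  rw [mul_add, mul_smul_comm, h6 ζ hζ, ← mul_assoc, h3 ζ hζ, smul_sub, sub_mul, smul_smul, smul_mul_assoc,
    one_mul]
  beta_reduce
  abel

theorem IsCalc.neg {f : ℂ → ℂ} {T : H →L[ℂ] H} (hf : IsCalc P A f T) :
    IsCalc P A (fun z => - f z) (- T) := by
  have := hf.smul (-1)
  simpa using this

/-- polynomials -/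
theorem IsCalc.poly (p : Polynomial ℂ) :
    IsCalc P A (fun z => p.eval z) (Polynomial.aeval A p) := by
  induction p using Polynomial.induction_on' with
  | add p q hp hq =>
    have := hp.add hq
    simpa using this
  | monomial n a =>
    induction n with
    | zero =>
      have := (IsCalc.one (P := P) (A := A)).smul a
      simpa [Polynomial.aeval_monomial, Algebra.algebraMap_eq_smul_one] using this
    | succ n ih =>
      have := ih.mul (IsCalc.id (P := P) (A := A))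
      have e1 : (fun z : ℂ => Polynomial.eval z (Polynomial.monomial n a) * z) =
          fun z => Polynomial.eval z (Polynomial.monomial (n + 1) a) := by
        ext z
        simp [Polynomial.eval_monomial, pow_succ, mul_assoc]
      have e2 : (Polynomial.aeval A) (Polynomial.monomial n a) * A = Polynomial.aeval A (Polynomial.monomial (n + 1) a) := by
        simp [Polynomial.aeval_monomial, pow_succ, mul_assoc]
      rw [e1, e2] at this
      exact this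

/-- Uniqueness: a calculus value is given by the contour integral. -/
theorem Adm.calc_eq (hA : Adm P A c) {f : ℂ → ℂ} {T : H →L[ℂ] H} (hf : IsCalc P A f T) :
    T = Top P A f := by
  obtain ⟨h1, Ψ, h2, h3⟩ := hf
  have hz := Pgn.cint_eq_zero h2
  have hfc : ContinuousOn f P.bd := by
    have := h1.continuousOn
    rw [P.closure_Om] at this
    exact this.mono P.bd_subset_Ob
  have hR := hA.res_cont_bd
  have e1 : P.cint Ψ = P.cint (fun σ => f σ • Res A σ - Res A σ * T) := by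
    apply Pgn.cint_congr
    intro σ hσ
    have hO := bd_subset_Out hA.1 hσ
    have h4 := h3 σ (P.bd_subset_Ob hσ)
    have h5 := congrArg (fun X => Res A σ * X) h4
    simp only [← mul_assoc, hA.res_mul' hO, one_mul] at h5
    rw [h5, mul_sub, mul_smul_comm, mul_one]
  have hR2 : ContinuousOn (fun σ => Res A σ * T) P.bd := hR.mul continuousOn_const
  rw [e1, Pgn.cint_sub (F := fun σ => f σ • Res A σ) (G := fun σ => Res A σ * T) (hfc.smul hR) hR2] at hz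
  have e2 : P.cint (fun σ => Res A σ * T) = P.cint (Res A) * T := by
    have := Pgn.cint_map (P := P) ((ContinuousLinearMap.mul ℂ (H →L[ℂ] H)).flip T) hR
    simpa using this
  have e3 : P.cint (fun σ => f σ • Res A σ) = P.cint (Res A) * T := by
    rw [← e2]; exact sub_eq_zero.1 hz
  have e4 : P.cint (Res A) = (2 * (Real.pi : ℂ) * I) • (1 : H →L[ℂ] H) := by
    have := hA.Top_one
    unfold Top at this
    simp only [one_smul] at this
    have e5 := congrArg (fun X => (2 * (Real.pi : ℂ) * I) • X) this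
    simp only [smul_smul, mul_inv_cancel₀ two_pi_I_ne, one_smul] at e5
    exact e5
  unfold Top
  rw [e3, e4, smul_mul_assoc, one_mul, smul_smul, inv_mul_cancel₀ two_pi_I_ne, one_smul]

end Vale.Agent.Lib.P123
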