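import Vale.Agent.Lib.P123.Pg4

open Complex ComplexConjugate MeasureTheory Set Filter Topology
open scoped Interval NNReal InnerProductSpace

set_option linter.unusedSectionVars false

namespace Vale.Agent.Lib.P123

variable {H : Type*} [NormedAddCommGroup H] [InnerProductSpace ℂ H] [CompleteSpace H]

variable {P : Pgn} {A : H →L[ℂ] H} {c : ℝ}

/-- A function which agrees with a Cauchy transform inside belongs to the calculus. -/
theorem Adm.calc_of_Cc (hA : Adm P A c) {φ g : ℂ → ℂ} (hφ : ContinuousOn φ P.bd)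
    (hg : DiffContOnCl ℂ g P.Om) (hgC : ∀ ζ ∈ P.Om, g ζ = Cc P φ ζ) :
    IsCalc P A g (Top P A φ) := by
  classical
  have hgc : ContinuousOn g P.Ob := by
    have := hg.continuousOn
    rwa [P.closure_Om] at this
  set T := Top P A φ with hT
  set Ψ : ℂ → H →L[ℂ] H := fun ζ => if ζ ∈ P.Om then Psi P A φ ζ else Res A ζ * (g ζ • (1 : H →L[ℂ] H) - T)
    with hΨ
  have hid : ∀ ζ ∈ P.Om, (ζ • (1 : H →L[ℂ] H) - A) * Psi P A φ ζ = g ζ • (1 : H →L[ℂ] H) - T := by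
    intro ζ hζ
    rw [hA.Psi_id hφ hζ, hgC ζ hζ]
  have hOut : ∀ ζ ∈ Out P c, Ψ ζ = Res A ζ * (g ζ • (1 : H →L[ℂ] H) - T) := by
    intro ζ hO
    simp only [hΨ]
    split_ifs with h
    · rw [← hid ζ h, ← mul_assoc, hA.res_mul' hO, one_mul]
    · rfl
  have hPd : DifferentiableOn ℂ (Psi P A φ) P.Om := by
    have := (Pgn.cauchy_diff (P := P) (F := fun σ => φ σ • Res A σ)
      (hφ.smul hA.res_cont_bd)).const_smul (2 * (Real.pi : ℂ) * I)⁻¹
    exact this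
  have hΨOm : ∀ ζ ∈ P.Om, Ψ ζ = Psi P A φ ζ := by
    intro ζ hζ
    simp only [hΨ, if_pos hζ]
  refine ⟨hg, Ψ, ⟨hPd.congr hΨOm, ?_⟩, ?_⟩
  · rw [P.closure_Om]
    intro ζ hζ
    by_cases hm : ζ ∈ P.Om
    · have h1 : DifferentiableAt ℂ (Psi P A φ) ζ := (hPd ζ hm).differentiableAt (P.isOpen_Om.mem_nhds hm)
      have h2 : ContinuousAt Ψ ζ := by
        apply h1.continuousAt.congr
        filter_upwards [P.isOpen_Om.mem_nhds hm] with z hz
        exact (hΨOm z hz).symm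
      exact h2.continuousWithinAt
    · have hO := Om_union_Out hA.1 ζ hm
      have h1 : ContinuousWithinAt (fun z => Res A z * (g z • (1 : H →L[ℂ] H) - T)) P.Ob ζ := by
        apply ContinuousWithinAt.mul
        · exact (hA.res_diff hO).continuousAt.continuousWithinAt
        · apply ContinuousWithinAt.sub _ continuousWithinAt_const
          exact (hgc ζ hζ).smul continuousWithinAt_const
      apply h1.congr_of_eventuallyEq
      · filter_upwards [mem_nhdsWithin_of_mem_nhds ((isOpen_Out P c).mem_nhds hO)] with z hz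
        exact hOut z hz
      · exact hOut ζ hO
  · intro ζ hζ
    by_cases hm : ζ ∈ P.Om
    · rw [hΨOm ζ hm, hid ζ hm]
    · have hO := Om_union_Out hA.1 ζ hm
      rw [hOut ζ hO, ← mul_assoc, hA.mul_res' hO, one_mul]

/-- The kernel form. -/
noncomputable def wf (P : Pgn) (A : H →L[ℂ] H) (v u : H) (j : ℤ) (s : ℝ) : ℂ :=
  P.n j * ⟪v, Res A (P.σ j s) u⟫_ℂ

theorem Adm.wf_SC (hA : Adm P A c) (v u : H) : P.SC (wf P A v u) := by
  intro j
  unfold wf
  apply ContinuousOn.mul continuousOn_const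
  have h1 : ContinuousOn (fun s => Res A (P.σ j s)) (Icc 0 (P.ℓ j)) :=
    hA.res_cont_bd.comp (P.σ_cont j).continuousOn (fun s hs => P.σ_mem_bd' j hs)
  have h2 : ContinuousOn (fun s => Res A (P.σ j s) u) (Icc 0 (P.ℓ j)) := by
    have : Continuous (fun T : H →L[ℂ] H => T u) := by fun_prop
    exact this.comp_continuousOn h1
  exact continuousOn_const.inner h2

/-- the evaluation functional -/
noncomputable def evalL (v u : H) : (H →L[ℂ] H) →L[ℂ] ℂ :=
  (innerSL ℂ v).comp (ContinuousLinearMap.apply ℂ H u)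

@[simp] theorem evalL_apply (v u : H) (X : H →L[ℂ] H) : evalL v u X = ⟪v, X u⟫_ℂ := rfl

theorem two_pi_I_inv_mul_t (j : ℤ) (z : ℂ) :
    (2 * (Real.pi : ℂ) * I)⁻¹ * (P.t j * z) = ((2 * Real.pi)⁻¹ : ℝ) * (P.n j * z) := by
  unfold Pgn.t
  have hpi : (Real.pi : ℂ) ≠ 0 := by exact_mod_cast Real.pi_ne_zero
  push_cast
  field_simp

/-- The contour operator in weak form. -/
theorem Adm.inner_Top (hA : Adm P A c) {φ : ℂ → ℂ} (hφ : ContinuousOn φ P.bd) (v u : H) :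
    ⟪v, Top P A φ u⟫_ℂ =
      ((2 * Real.pi)⁻¹ : ℝ) * P.bint (fun j s => φ (P.σ j s) * wf P A v u j s) := by
  have hF : ContinuousOn (fun σ => φ σ • Res A σ) P.bd := hφ.smul hA.res_cont_bd
  have e1 : ⟪v, Top P A φ u⟫_ℂ = evalL v u (Top P A φ) := rfl
  rw [e1]
  unfold Top
  rw [map_smul]
  unfold Pgn.cint
  rw [← Pgn.bint_map (evalL v u) (Pgn.SC_cint hF), smul_eq_mul]
  have e2 : ∀ j s, evalL v u (P.t j • (φ (P.σ j s) • Res A (P.σ j s))) =
      P.t j * (φ (P.σ j s) * ⟪v, Res A (P.σ j s) u⟫_ℂ) := by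
    intro j s
    simp only [map_smul, evalL_apply, smul_eq_mul]
  simp only [e2]
  have e3 : ∀ j s, P.t j * (φ (P.σ j s) * ⟪v, Res A (P.σ j s) u⟫_ℂ) =
      I • (φ (P.σ j s) * wf P A v u j s) := by
    intro j s
    unfold wf Pgn.t
    simp only [smul_eq_mul]
    ring
  simp only [e3]
  rw [Pgn.bint_const_smul, smul_eq_mul, ← mul_assoc]
  congr 1
  have hpi : (Real.pi : ℂ) ≠ 0 := by exact_mod_cast Real.pi_ne_zero
  push_cast
  field_simp

/-- the normalized kernel -/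
noncomputable def mf (P : Pgn) (A : H →L[ℂ] H) (v u : H) (j : ℤ) (s : ℝ) : ℂ :=
  ((2 * Real.pi)⁻¹ : ℝ) * (wf P A v u j s + conj (wf P A u v j s))

theorem Adm.mf_SC (hA : Adm P A c) (v u : H) : P.SC (mf P A v u) := by
  intro j
  unfold mf
  apply ContinuousOn.mul continuousOn_const
  apply ContinuousOn.add (hA.wf_SC v u j)
  exact Complex.continuous_conj.comp_continuousOn (hA.wf_SC u v j)

theorem conj_bint {F : ℤ → ℝ → ℂ} (hF : P.SC F) :
    conj (P.bint F) = P.bint (fun j s => conj (F j s)) := by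
  have := Pgn.bint_map (𝕜 := ℝ) (P := P) (Complex.conjCLE : ℂ ≃L[ℝ] ℂ).toContinuousLinearMap hF
  exact this.symm

theorem SC_comp_mul {φ : ℂ → ℂ} (hφ : ContinuousOn φ P.bd) {F : ℤ → ℝ → ℂ} (hF : P.SC F) :
    P.SC (fun j s => φ (P.σ j s) * F j s) :=
  fun j => (Pgn.SC_comp hφ j).mul (hF j)

/-- The identity behind the bound for `S`. -/
theorem Adm.S_form (hA : Adm P A c) {f : ℂ → ℂ} (hf : ContinuousOn f P.bd) (v u : H) :
    ⟪v, Top P A f u⟫_ℂ + conj ⟪u, Top P A (fun z => conj (f z)) v⟫_ℂ =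
      P.bint (fun j s => f (P.σ j s) * mf P A v u j s) := by
  have hf' : ContinuousOn (fun z => conj (f z)) P.bd := Complex.continuous_conj.comp_continuousOn hf
  rw [hA.inner_Top hf, hA.inner_Top hf']
  have hG : P.SC (fun j s => conj (conj (f (P.σ j s)) * wf P A u v j s)) :=
    fun j => Complex.continuous_conj.comp_continuousOn (SC_comp_mul hf' (hA.wf_SC u v) j)
  rw [map_mul, Complex.conj_ofReal, conj_bint (SC_comp_mul hf' (hA.wf_SC u v)), ← mul_add,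
    ← Pgn.bint_add (SC_comp_mul hf (hA.wf_SC v u)) hG]
  have e : ∀ j s, f (P.σ j s) * mf P A v u j s = (((2 * Real.pi)⁻¹ : ℝ) : ℂ) •
      (f (P.σ j s) * wf P A v u j s + conj (conj (f (P.σ j s)) * wf P A u v j s)) := by
    intro j s
    unfold mf
    simp only [map_mul, Complex.conj_conj, smul_eq_mul]
    ring
  simp only [e]
  rw [Pgn.bint_const_smul, smul_eq_mul]

/-- Total mass. -/
theorem Adm.mf_mass (hA : Adm P A c) (v u : H) :
    P.bint (mf P A v u) = 2 * ⟪v, u⟫_ℂ := by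
  have hone : ContinuousOn (fun _ : ℂ => (1 : ℂ)) P.bd := continuousOn_const
  have h1 := hA.S_form hone v u
  have e : (fun z : ℂ => conj ((fun _ : ℂ => (1 : ℂ)) z)) = fun _ => 1 := by
    ext z; simp
  rw [e, hA.Top_one] at h1
  simp only [one_mul] at h1
  rw [← h1]
  have : (1 : H →L[ℂ] H) u = u := rfl
  have h2 : (1 : H →L[ℂ] H) v = v := rfl
  rw [this, h2, inner_conj_symm]
  ring

/-- positivity of the kernel -/
theorem Adm.re_wf_nonneg (hA : Adm P A c) (x : H) (j : ℤ) {s : ℝ} (hs : s ∈ Icc 0 (P.ℓ j)) :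
    0 ≤ (wf P A x x j s).re := by
  set σ := P.σ j s with hσ
  have hO : σ ∈ Out P c := bd_subset_Out hA.1 (P.σ_mem_bd' j hs)
  set y := Res A σ x with hy
  have hxy : (σ • (1 : H →L[ℂ] H) - A) y = x := by
    have := congrArg (fun T : H →L[ℂ] H => T x) (hA.mul_res' hO)
    simpa using this
  have h1 := hA.coer (ζ := σ) j y
  rw [hσ, P.h_σ_self, ← hσ, sub_zero, hxy] at h1
  unfold wf
  rw [← hσ, ← hy]
  have e : P.n j * ⟪x, y⟫_ℂ = conj (conj (P.n j) * ⟪y, x⟫_ℂ) := by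
    rw [map_mul, Complex.conj_conj, inner_conj_symm]
  rw [e, Complex.conj_re]
  have := mul_nonneg hA.1.le (sq_nonneg ‖y‖)
  linarith

/-- Cauchy Schwarz for an accretive form. -/
theorem form_cs (X : H →L[ℂ] H) (hX : ∀ x : H, 0 ≤ (⟪x, X x⟫_ℂ).re) (u v : H) {a : ℝ} (ha : 0 ≤ a) :
    a * ‖⟪v, X u⟫_ℂ + conj ⟪u, X v⟫_ℂ‖ ≤ (⟪u, X u⟫_ℂ).re + a ^ 2 * (⟪v, X v⟫_ℂ).re := by
  set z := ⟪v, X u⟫_ℂ + conj ⟪u, X v⟫_ℂ with hz
  by_cases h0 : z = 0
  · rw [h0, norm_zero, mul_zero]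
    have h1 := hX u
    have h2 := hX v
    positivity
  have hn : 0 < ‖z‖ := norm_pos_iff.2 h0
  have hnc : ((‖z‖ : ℝ) : ℂ) ≠ 0 := by exact_mod_cast hn.ne'
  set γ : ℂ := z / ((‖z‖ : ℝ) : ℂ) with hγ
  have hγ1 : conj γ * z = ((‖z‖ : ℝ) : ℂ) := by
    rw [hγ, map_div₀, Complex.conj_ofReal, div_mul_eq_mul_div, Complex.conj_mul']
    field_simp
  have hγ2 : conj γ * γ = 1 := by
    rw [hγ, map_div₀, Complex.conj_ofReal, div_mul_div_comm, Complex.conj_mul']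
    field_simp
  have key := hX (u - ((a : ℂ) * γ) • v)
  have e1 : ⟪u - ((a : ℂ) * γ) • v, X (u - ((a : ℂ) * γ) • v)⟫_ℂ =
      ⟪u, X u⟫_ℂ - (a : ℂ) * γ * ⟪u, X v⟫_ℂ - (a : ℂ) * conj γ * ⟪v, X u⟫_ℂ +
        (a : ℂ) ^ 2 * (conj γ * γ) * ⟪v, X v⟫_ℂ := by
    rw [map_sub, map_smul, inner_sub_left, inner_sub_right, inner_sub_right, inner_smul_left,
      inner_smul_left, inner_smul_right, inner_smul_right]
    simp only [map_mul, Complex.conj_ofReal]
    ring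
  rw [e1, hγ2] at key
  have e2 : ((a : ℂ) * γ * ⟪u, X v⟫_ℂ).re = ((a : ℂ) * conj γ * conj ⟪u, X v⟫_ℂ).re := by
    have : (a : ℂ) * conj γ * conj ⟪u, X v⟫_ℂ = conj ((a : ℂ) * γ * ⟪u, X v⟫_ℂ) := by
      simp only [map_mul, Complex.conj_ofReal]
    rw [this, Complex.conj_re]
  have e3 : ((a : ℂ) * conj γ * conj ⟪u, X v⟫_ℂ).re + ((a : ℂ) * conj γ * ⟪v, X u⟫_ℂ).re = a * ‖z‖ := by
    rw [← Complex.add_re, ← mul_add, add_comm (conj ⟪u, X v⟫_ℂ), ← hz, mul_assoc, hγ1]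
    simp
  simp only [add_re, sub_re, mul_one] at key
  have e4 : ((a : ℂ) ^ 2 * ⟪v, X v⟫_ℂ).re = a ^ 2 * (⟪v, X v⟫_ℂ).re := by
    have : (a : ℂ) ^ 2 = ((a ^ 2 : ℝ) : ℂ) := by push_cast; ring
    rw [this, Complex.re_ofReal_mul]
  rw [e4, e2] at key
  linarith

/-- The density of the positive measure attached to `x`. -/
noncomputable def rho (P : Pgn) (A : H →L[ℂ] H) (x : H) (j : ℤ) (s : ℝ) : ℝ := (mf P A x x j s).re

theorem Adm.rho_SC (hA : Adm P A c) (x : H) : P.SC (rho P A x) :=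
  fun j => Complex.continuous_re.comp_continuousOn (hA.mf_SC x x j)

theorem rho_eq (x : H) (j : ℤ) (s : ℝ) :
    rho P A x j s = (Real.pi)⁻¹ * (wf P A x x j s).re := by
  unfold rho mf
  rw [Complex.re_ofReal_mul, add_re, Complex.conj_re]
  have hpi := Real.pi_ne_zero
  field_simp
  ring

theorem Adm.rho_nonneg (hA : Adm P A c) (x : H) (j : ℤ) {s : ℝ} (hs : s ∈ Icc 0 (P.ℓ j)) :
    0 ≤ rho P A x j s := by
  rw [rho_eq]
  exact mul_nonneg (inv_nonneg.2 Real.pi_pos.le) (hA.re_wf_nonneg x j hs)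

/-- the mass of `rho` -/
theorem Adm.rho_mass (hA : Adm P A c) (x : H) : P.bint (rho P A x) = 2 * ‖x‖ ^ 2 := by
  have h1 := hA.mf_mass x x
  have h2 := Pgn.bint_map (𝕜 := ℝ) (P := P) (Complex.reCLM) (hA.mf_SC x x)
  simp only [Complex.reCLM_apply] at h2
  unfold rho
  rw [h2, h1, inner_self_eq_norm_sq_to_K]
  have : (2 : ℂ) * ((‖x‖ : ℂ) ^ 2) = ((2 * ‖x‖ ^ 2 : ℝ) : ℂ) := by push_cast; ring
  erw [this, Complex.ofReal_re]

/-- pointwise Cauchy Schwarz for the kernel -/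
theorem Adm.mf_cs (hA : Adm P A c) (x y : H) (j : ℤ) {s : ℝ} (hs : s ∈ Icc 0 (P.ℓ j)) {a : ℝ} (ha : 0 ≤ a) :
    a * ‖mf P A x y j s‖ ≤ (rho P A y j s + a ^ 2 * rho P A x j s) / 2 := by
  set X : H →L[ℂ] H := (P.n j) • Res A (P.σ j s) with hX
  have hXe : ∀ v u : H, ⟪v, X u⟫_ℂ = wf P A v u j s := by
    intro v u
    simp only [hX, wf, ContinuousLinearMap.smul_apply, inner_smul_right]
  have h1 := form_cs X (by
    intro z
    rw [hXe]
    exact hA.re_wf_nonneg z j hs) y x ha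
  simp only [hXe] at h1
  rw [rho_eq, rho_eq]
  have hpi := Real.pi_pos
  have e : ‖mf P A x y j s‖ = (2 * Real.pi)⁻¹ * ‖wf P A x y j s + conj (wf P A y x j s)‖ := by
    unfold mf
    rw [norm_mul, Complex.norm_real, Real.norm_eq_abs, abs_of_pos (by positivity)]
  rw [e]
  have h3 : 0 < (2 * Real.pi)⁻¹ := by positivity
  have h4 := mul_le_mul_of_nonneg_left h1 h3.le
  have e5 : (2 * Real.pi)⁻¹ = Real.pi⁻¹ / 2 := by
    field_simp
  calc a * ((2 * Real.pi)⁻¹ * ‖wf P A x y j s + conj (wf P A y x j s)‖)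
      = (2 * Real.pi)⁻¹ * (a * ‖wf P A x y j s + conj (wf P A y x j s)‖) := by ring
    _ ≤ _ := h4
    _ = _ := by rw [e5]; ring

end Vale.Agent.Lib.P123
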