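import Vale.Agent.Lib.P123.Pg5

open Complex ComplexConjugate MeasureTheory Set Filter Topology
open scoped Interval

set_option linter.unusedSectionVars false

namespace Vale.Agent.Lib.P123

namespace Pgn

variable (P : Pgn)

/-- the double layer kernel -/
noncomputable def K (τ : ℂ) (j : ℤ) (s : ℝ) : ℝ := P.h j τ / (Real.pi * ‖P.σ j s - τ‖ ^ 2)

/-- polar angle at a boundary point -/
noncomputable def Th (i : ℤ) (τ w : ℂ) : ℝ := arg (conj (P.n i) * (τ - w))

theorem K_add_m (τ : ℂ) (j : ℤ) (s : ℝ) : P.K τ (j + P.m) s = P.K τ j s := by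
  simp only [K, h_add_m, σ_add_m]

theorem K_nonneg {τ : ℂ} (hτ : τ ∈ P.Ob) (j : ℤ) (s : ℝ) : 0 ≤ P.K τ j s := by
  unfold K
  exact div_nonneg (hτ j) (by positivity)

theorem K_SC {τ : ℂ} (hτ : τ ∈ P.Ob) : P.SC (P.K τ) := by
  intro j
  by_cases h0 : P.h j τ = 0
  · have : P.K τ j = fun _ => 0 := by
      ext s; simp [K, h0]
    rw [this]
    exact continuousOn_const
  · have hpos : 0 < P.h j τ := lt_of_le_of_ne (hτ j) (Ne.symm h0)
    unfold K
    apply Continuous.continuousOn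
    apply Continuous.div continuous_const
    · have := (P.σ_cont j).sub (continuous_const (y := τ))
      exact continuous_const.mul (this.norm.pow 2)
    · intro s
      have := P.σ_sub_ne j s hpos
      positivity

/-- imaginary part of the Cauchy kernel -/
theorem im_t_inv (τ : ℂ) (j : ℤ) (s : ℝ) :
    (P.t j * (P.σ j s - τ)⁻¹).im = Real.pi * P.K τ j s := by
  set x := P.σ j s - τ with hx
  have hpi := Real.pi_pos
  have e : Real.pi * P.K τ j s = P.h j τ / ‖x‖ ^ 2 := by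
    unfold K
    rw [← hx]
    by_cases h0 : ‖x‖ = 0
    · simp [h0]
    · field_simp
  rw [e]
  have h1 := P.dot_σ_sub j s τ
  rw [← hx] at h1
  rw [← h1]
  have e2 : (P.t j * conj x).im = P.dot j x := by
    simp only [mul_im, t_re, t_im, conj_re, conj_im, dot]
    ring
  rw [Complex.inv_def, ← mul_assoc, Complex.im_mul_ofReal, e2, Complex.normSq_eq_norm_sq, div_eq_mul_inv]

variable {P}

/-- shifted form of a periodic boundary integral -/
theorem bint_shift {E : Type*} [NormedAddCommGroup E] [NormedSpace ℝ E] {F : ℤ → ℝ → E}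
    (hF : ∀ j s, F (j + P.m) s = F j s) (i : ℤ) :
    P.bint F = ∑ k ∈ Finset.range P.m, ∫ s in (0 : ℝ)..P.ℓ (i + k), F (i + k) s := by
  unfold bint
  symm
  apply sum_shift (f := fun j : ℤ => ∫ s in (0 : ℝ)..P.ℓ j, F j s) P.m
  intro j
  simp only [ℓ_add_m]
  congr 1
  ext s
  exact hF j s

variable (P)

theorem re_W (i : ℤ) {τ : ℂ} (hi : P.h i τ = 0) (w : ℂ) :
    (conj (P.n i) * (τ - w)).re = P.h i w := by
  rw [re_conj_n_mul]
  have := P.h_sub_dot i w τ
  rw [hi, sub_zero] at this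
  exact this.symm

theorem W_mem (i : ℤ) {τ w : ℂ} (hi : P.h i τ = 0) (hw : 0 ≤ P.h i w) (hne : τ ≠ w) :
    conj (P.n i) * (τ - w) ∈ slitPlane := by
  rw [Complex.mem_slitPlane_iff]
  by_contra hcon
  push_neg at hcon
  obtain ⟨h1, h2⟩ := hcon
  have h3 : (conj (P.n i) * (τ - w)).re = 0 := by
    apply le_antisymm h1
    rw [re_W P i hi]; exact hw
  have h4 : conj (P.n i) * (τ - w) = 0 := Complex.ext h3 h2
  rcases mul_eq_zero.1 h4 with h5 | h5
  · exact P.conj_n_ne i h5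
  · exact hne (sub_eq_zero.1 h5)

/-- derivative of the polar angle along a side -/
theorem Th_deriv (i : ℤ) {τ : ℂ} (hi : P.h i τ = 0) {j : ℤ} (hj : 0 < P.h j τ) {s : ℝ}
    (hs : s ∈ Icc 0 (P.ℓ j)) :
    HasDerivAt (fun s => P.Th i τ (P.σ j s)) (Real.pi * P.K τ j s) s := by
  have hne : τ ≠ P.σ j s := by
    intro h
    have := P.h_σ_self j s
    rw [← h] at this
    linarith
  have h1 : HasDerivAt (fun s => conj (P.n i) * (τ - P.σ j s)) (conj (P.n i) * (- P.t j)) s :=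
    ((P.hasDerivAt_σ j s).const_sub τ).const_mul _
  have h2 := h1.clog_real (P.W_mem i hi (P.h_σ_nonneg i j hs.1 hs.2) hne)
  have h3 := (Complex.imCLM.hasFDerivAt).comp_hasDerivAt s h2
  have e : Complex.imCLM (conj (P.n i) * (- P.t j) / (conj (P.n i) * (τ - P.σ j s))) = Real.pi * P.K τ j s := by
    rw [← im_t_inv, mul_div_mul_left _ _ (P.conj_n_ne i)]
    have hne' : P.σ j s - τ ≠ 0 := fun h => hne (sub_eq_zero.1 h).symm
    have hne'' : τ - P.σ j s ≠ 0 := fun h => hne (sub_eq_zero.1 h)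
    have : - P.t j / (τ - P.σ j s) = P.t j * (P.σ j s - τ)⁻¹ := by
      field_simp
      ring
    rw [this]
    rfl
  rw [e] at h3
  have e2 : (⇑Complex.imCLM ∘ fun s => log (conj (P.n i) * (τ - P.σ j s))) = fun s => P.Th i τ (P.σ j s) := by
    ext s
    simp [Th, Complex.log_im]
  rwa [e2] at h3

theorem Th_cont_side (i : ℤ) {τ : ℂ} (hi : P.h i τ = 0) {j : ℤ} (hj : 0 < P.h j τ) :
    ContinuousOn (fun s => P.Th i τ (P.σ j s)) (Icc 0 (P.ℓ j)) :=
  fun s hs => (P.Th_deriv i hi hj hs).continuousAt.continuousWithinAt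

/-- the change of variables along one side -/
theorem side_polar (i : ℤ) {τ : ℂ} (hτ : τ ∈ P.Ob) (hi : P.h i τ = 0) {j : ℤ} (hj : 0 < P.h j τ)
    {χ : ℝ → ℝ} (hχ : Continuous χ) {X : ℝ → ℝ} (hX : ∀ t, HasDerivAt X (χ t) t) :
    ∫ s in (0 : ℝ)..P.ℓ j, χ (P.Th i τ (P.σ j s)) * (Real.pi * P.K τ j s) =
      X (P.Th i τ (P.v (j + 1))) - X (P.Th i τ (P.v j)) := by
  have hl := (P.ℓ_pos j).le
  have key := intervalIntegral.integral_eq_sub_of_hasDerivAt (a := 0) (b := P.ℓ j)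
    (f := fun s => X (P.Th i τ (P.σ j s)))
    (f' := fun s => χ (P.Th i τ (P.σ j s)) * (Real.pi * P.K τ j s)) ?_ ?_
  · rw [key, σ_zero, v_succ]
  · intro s hs
    rw [uIcc_of_le hl] at hs
    exact (hX _).comp s (P.Th_deriv i hi hj hs)
  · apply ContinuousOn.intervalIntegrable
    rw [uIcc_of_le hl]
    apply ContinuousOn.mul
    · exact hχ.comp_continuousOn (P.Th_cont_side i hi hj)
    · exact continuousOn_const.mul (P.K_SC hτ j)

theorem σ_mem_Ob' {i : ℤ} {s₀ : ℝ} (h0 : 0 < s₀) (h1 : s₀ < P.ℓ i) : P.σ i s₀ ∈ P.Ob :=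
  P.σ_mem_Ob i h0.le h1.le

theorem not_dvd_of_lt (k : ℕ) (h1 : 1 ≤ k) (h2 : k < P.m) (i : ℤ) :
    ¬ ((P.m : ℤ) ∣ i + k - i) := by
  intro h
  have e : i + (k : ℤ) - i = k := by ring
  rw [e] at h
  have := Int.le_of_dvd (by omega) h
  omega

/-- Other sides seen from an open side point. -/
theorem h_pos_other {i : ℤ} {s₀ : ℝ} (h0 : 0 < s₀) (h1 : s₀ < P.ℓ i) (k : ℕ) (hk1 : 1 ≤ k)
    (hk2 : k < P.m) : 0 < P.h (i + k) (P.σ i s₀) :=
  P.h_σ_pos (i + k) i h0 h1 (P.not_dvd_of_lt k hk1 hk2 i)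

theorem Th_v_self {i : ℤ} {s₀ : ℝ} (h0 : 0 < s₀) : P.Th i (P.σ i s₀) (P.v i) = Real.pi / 2 := by
  unfold Th
  have e : conj (P.n i) * (P.σ i s₀ - P.v i) = ((s₀ : ℝ) : ℂ) * I := by
    unfold σ t
    have := P.conj_n_mul_n i
    linear_combination ((s₀ : ℂ) * I) * this
  rw [e, Complex.arg_real_mul _ h0, Complex.arg_I]

theorem Th_v_succ {i : ℤ} {s₀ : ℝ} (h1 : s₀ < P.ℓ i) : P.Th i (P.σ i s₀) (P.v (i + 1)) = - (Real.pi / 2) := by
  unfold Th
  rw [v_succ]
  have e : conj (P.n i) * (P.σ i s₀ - P.σ i (P.ℓ i)) = - (((P.ℓ i - s₀ : ℝ) : ℂ) * I) := by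
    unfold σ t
    have := P.conj_n_mul_n i
    push_cast
    linear_combination ((s₀ : ℂ) - P.ℓ i) * I * this
  rw [e]
  have hpos : 0 < P.ℓ i - s₀ := by linarith
  have e2 : -(((P.ℓ i - s₀ : ℝ) : ℂ) * I) = ((P.ℓ i - s₀ : ℝ) : ℂ) * (-I) := by ring
  rw [e2, Complex.arg_real_mul _ hpos, Complex.arg_neg_I]

/-- The polar integration formula. -/
theorem polar {i : ℤ} {s₀ : ℝ} (h0 : 0 < s₀) (h1 : s₀ < P.ℓ i) {χ : ℝ → ℝ} (hχ : Continuous χ)
    {X : ℝ → ℝ} (hX : ∀ t, HasDerivAt X (χ t) t) :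
    P.bint (fun j s => χ (P.Th i (P.σ i s₀) (P.σ j s)) * (Real.pi * P.K (P.σ i s₀) j s)) =
      X (Real.pi / 2) - X (- (Real.pi / 2)) := by
  set τ := P.σ i s₀ with hτ
  have hτO : τ ∈ P.Ob := P.σ_mem_Ob' h0 h1
  have hi : P.h i τ = 0 := P.h_σ_self i s₀
  rw [bint_shift (i := i)]
  · obtain ⟨m', hm'⟩ : ∃ m' : ℕ, P.m = m' + 1 := ⟨P.m - 1, by have := P.hm; omega⟩
    rw [hm', Finset.sum_range_succ']
    have e0 : ∫ s in (0 : ℝ)..P.ℓ (i + ((0 : ℕ) : ℤ)),
        χ (P.Th i τ (P.σ (i + ((0 : ℕ) : ℤ)) s)) * (Real.pi * P.K τ (i + ((0 : ℕ) : ℤ)) s) = 0 := by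
      have : ∀ s, χ (P.Th i τ (P.σ (i + ((0 : ℕ) : ℤ)) s)) * (Real.pi * P.K τ (i + ((0 : ℕ) : ℤ)) s) = 0 := by
        intro s
        simp [K, hi]
      simp only [this, intervalIntegral.integral_zero]
    rw [e0, add_zero]
    have e1 : ∀ k ∈ Finset.range m', ∫ s in (0 : ℝ)..P.ℓ (i + ((k + 1 : ℕ) : ℤ)),
        χ (P.Th i τ (P.σ (i + ((k + 1 : ℕ) : ℤ)) s)) * (Real.pi * P.K τ (i + ((k + 1 : ℕ) : ℤ)) s) =
        X (P.Th i τ (P.v (i + 1 + ((k + 1 : ℕ) : ℤ)))) - X (P.Th i τ (P.v (i + 1 + (k : ℤ)))) := by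
      intro k hk
      have hk' : k < m' := Finset.mem_range.1 hk
      have hpos := P.h_pos_other h0 h1 (k + 1) (by omega) (by omega)
      rw [P.side_polar i hτO hi hpos hχ hX]
      congr 3
      · congr 1
        push_cast
        ring
      · congr 1
        push_cast
        ring
    rw [Finset.sum_congr rfl e1, Finset.sum_range_sub (fun k : ℕ => X (P.Th i τ (P.v (i + 1 + (k : ℤ)))))]
    have e2 : P.v (i + 1 + (m' : ℤ)) = P.v i := by
      have := P.v_add_m i
      rw [← this, hm']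
      congr 1
      push_cast
      ring
    rw [e2]
    simp only [Nat.cast_zero, add_zero]
    rw [P.Th_v_self h0, P.Th_v_succ h1]
  · intro j s
    simp only [K_add_m, σ_add_m]

/-- total mass of the kernel at an open side point -/
theorem K_mass {i : ℤ} {s₀ : ℝ} (h0 : 0 < s₀) (h1 : s₀ < P.ℓ i) : P.bint (P.K (P.σ i s₀)) = 1 := by
  have h := P.polar h0 h1 (χ := fun _ => 1) continuous_const (X := fun t => t) (fun t => hasDerivAt_id t)
  simp only [one_mul] at h
  have e : (fun j s => Real.pi * P.K (P.σ i s₀) j s) = fun j s => (Real.pi : ℂ).re • P.K (P.σ i s₀) j s := by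
    ext j s; simp
  have hpi := Real.pi_pos
  have e2 : P.bint (fun j s => Real.pi * P.K (P.σ i s₀) j s) = Real.pi * P.bint (P.K (P.σ i s₀)) := by
    unfold bint
    rw [Finset.mul_sum]
    apply Finset.sum_congr rfl
    intro k _
    exact intervalIntegral.integral_const_mul _ _
  rw [e2] at h
  have : Real.pi * P.bint (P.K (P.σ i s₀)) = Real.pi * 1 := by
    rw [h]; ring
  exact mul_left_cancel₀ hpi.ne' this

theorem SC_ThK {i : ℤ} {τ : ℂ} (hτ : τ ∈ P.Ob) (hi : P.h i τ = 0) {χ : ℝ → ℝ} (hχ : Continuous χ) :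
    P.SC (fun j s => χ (P.Th i τ (P.σ j s)) * P.K τ j s) := by
  intro j
  by_cases h0 : P.h j τ = 0
  · have : (fun s => χ (P.Th i τ (P.σ j s)) * P.K τ j s) = fun _ => 0 := by
      ext s; simp [K, h0]
    show ContinuousOn (fun s => χ (P.Th i τ (P.σ j s)) * P.K τ j s) _
    rw [this]
    exact continuousOn_const
  · have hpos : 0 < P.h j τ := lt_of_le_of_ne (hτ j) (Ne.symm h0)
    exact (hχ.comp_continuousOn (P.Th_cont_side i hi hpos)).mul (P.K_SC hτ j)

/-- integral of a continuous function against the kernel -/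
noncomputable def TT (ψ : ℂ → ℝ) (τ : ℂ) : ℝ := P.bint (fun j s => ψ (P.σ j s) * P.K τ j s)

theorem TT_SC {ψ : ℂ → ℝ} (hψ : ContinuousOn ψ P.bd) {τ : ℂ} (hτ : τ ∈ P.Ob) :
    P.SC (fun j s => ψ (P.σ j s) * P.K τ j s) :=
  fun j => (hψ.comp (P.σ_cont j).continuousOn (fun _ hs => P.σ_mem_bd' j hs)).mul (P.K_SC hτ j)

/-- Selection of a good point in a sector. -/
theorem select {i : ℤ} {s₀ : ℝ} (h0 : 0 < s₀) (h1 : s₀ < P.ℓ i) {ψ : ℂ → ℝ}
    (hψ : ContinuousOn ψ P.bd) (hψ0 : ∀ z ∈ P.bd, 0 ≤ ψ z) {x y B : ℝ} (hxy : x < y)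
    (hx : - (Real.pi / 2) ≤ x) (hy : y ≤ Real.pi / 2)
    (hB : P.TT ψ (P.σ i s₀) < B * (2 * (y - x) / (3 * Real.pi))) :
    ∃ (j : ℤ) (s : ℝ), s ∈ Ioo 0 (P.ℓ j) ∧ 0 < P.h j (P.σ i s₀) ∧ P.Th i (P.σ i s₀) (P.σ j s) ∈ Icc x y ∧
      ψ (P.σ j s) ≤ B := by
  set τ := P.σ i s₀ with hτdef
  have hτ : τ ∈ P.Ob := P.σ_mem_Ob' h0 h1
  have hi : P.h i τ = 0 := P.h_σ_self i s₀
  have hpi := Real.pi_pos
  have hyx : 0 < y - x := by linarith
  by_contra hcon
  push_neg at hcon
  set χ : ℝ → ℝ := fun t => max 0 ((t - x) * (y - t)) with hχdef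
  have hχ : Continuous χ := by
    simp only [hχdef]
    fun_prop
  have hχ0 : ∀ t, 0 ≤ χ t := fun t => le_max_left _ _
  set M : ℝ := (y - x) ^ 2 / 4 with hM
  have hMpos : 0 < M := by positivity
  have hχM : ∀ t, χ t ≤ M := by
    intro t
    apply max_le hMpos.le
    rw [hM]
    nlinarith [sq_nonneg (2 * t - x - y)]
  have hχsupp : ∀ t, t ∉ Icc x y → χ t = 0 := by
    intro t ht
    apply max_eq_left
    simp only [mem_Icc, not_and_or, not_le] at ht
    rcases ht with ht | ht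
    · have h2 : 0 < y - t := by linarith
      nlinarith
    · have h2 : 0 < t - x := by linarith
      nlinarith
  set X : ℝ → ℝ := fun t => ∫ u in (-(Real.pi / 2))..t, χ u with hX
  have hXd : ∀ t, HasDerivAt X (χ t) t := by
    intro t
    exact intervalIntegral.integral_hasDerivAt_right (hχ.intervalIntegrable _ _)
      (hχ.stronglyMeasurableAtFilter _ _) hχ.continuousAt
  have hpol := P.polar h0 h1 hχ hXd
  have hint : (y - x) ^ 3 / 6 ≤ X (Real.pi / 2) - X (-(Real.pi / 2)) := by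
    simp only [hX, intervalIntegral.integral_same, sub_zero]
    have h2 : ∫ u in x..y, χ u ≤ ∫ u in (-(Real.pi / 2))..(Real.pi / 2), χ u := by
      apply intervalIntegral.integral_mono_interval hx hxy.le hy
      · exact Eventually.of_forall (fun t => hχ0 t)
      · exact hχ.intervalIntegrable _ _
    refine le_trans (le_of_eq ?_) h2
    have h3 : ∫ u in x..y, χ u = ∫ u in x..y, (u - x) * (y - u) := by
      apply intervalIntegral.integral_congr
      intro u hu
      rw [uIcc_of_le hxy.le] at hu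
      exact max_eq_right (mul_nonneg (by linarith [hu.1]) (by linarith [hu.2]))
    rw [h3]
    have h4 := intervalIntegral.integral_eq_sub_of_hasDerivAt (a := x) (b := y)
      (f := fun u => - u ^ 3 / 3 + (x + y) * u ^ 2 / 2 - x * y * u)
      (f' := fun u => (u - x) * (y - u)) ?_ ?_
    · rw [h4]; ring
    · intro u _
      have h5 : HasDerivAt (fun u : ℝ => - u ^ 3 / 3 + (x + y) * u ^ 2 / 2 - x * y * u)
          (- (3 * u ^ 2) / 3 + (x + y) * (2 * u) / 2 - x * y * 1) u := by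
        have a1 := (hasDerivAt_pow 3 u)
        have a2 := (hasDerivAt_pow 2 u)
        have a3 := hasDerivAt_id u
        simp only [Nat.cast_ofNat, show (3 - 1 : ℕ) = 2 from rfl, show (2 - 1 : ℕ) = 1 from rfl, pow_one] at a1 a2
        exact ((a1.neg.div_const 3).add ((a2.const_mul (x + y)).div_const 2)).sub (a3.const_mul (x * y))
      have e : (u - x) * (y - u) = - (3 * u ^ 2) / 3 + (x + y) * (2 * u) / 2 - x * y * 1 := by ring
      show HasDerivAt _ ((u - x) * (y - u)) u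
      rw [e]
      exact h5
    · apply Continuous.intervalIntegrable
      fun_prop
  have hS1 : P.SC (fun j s => χ (P.Th i τ (P.σ j s)) * P.K τ j s) := P.SC_ThK hτ hi hχ
  have hS2 : P.SC (fun j s => (B / M) * (χ (P.Th i τ (P.σ j s)) * P.K τ j s)) := by
    intro j
    exact continuousOn_const.mul (hS1 j)
  have hmono := bint_mono hS2 (P.TT_SC hψ hτ) (by
    intro j s hs
    have hk := P.K_nonneg hτ j s
    have hp := hψ0 _ (P.σ_mem_bd j hs.1.le hs.2.le)
    by_cases hhj : 0 < P.h j τ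
    swap
    · have hh0 : P.h j τ = 0 := le_antisymm (not_lt.1 hhj) (hτ j)
      have hK0 : P.K τ j s = 0 := by
        unfold K
        rw [hh0, zero_div]
      rw [hK0]
      simp
    by_cases hT : P.Th i τ (P.σ j s) ∈ Icc x y
    · have h3 := hcon j s hs hhj hT
      have hB0 : 0 ≤ B := by
        by_contra hneg
        push_neg at hneg
        have hT0 : 0 ≤ P.TT ψ τ := by
          apply bint_nonneg (P.TT_SC hψ hτ)
          intro j s hs
          exact mul_nonneg (hψ0 _ (P.σ_mem_bd j hs.1.le hs.2.le)) (P.K_nonneg hτ j s)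
        have : B * (2 * (y - x) / (3 * Real.pi)) < 0 := by
          apply mul_neg_of_neg_of_pos hneg
          positivity
        linarith
      have h4 : (B / M) * χ (P.Th i τ (P.σ j s)) ≤ ψ (P.σ j s) := by
        have : (B / M) * χ (P.Th i τ (P.σ j s)) ≤ (B / M) * M :=
          mul_le_mul_of_nonneg_left (hχM _) (by positivity)
        have e : (B / M) * M = B := by field_simp
        linarith
      calc B / M * (χ (P.Th i τ (P.σ j s)) * P.K τ j s)
          = ((B / M) * χ (P.Th i τ (P.σ j s))) * P.K τ j s := by ring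
        _ ≤ _ := mul_le_mul_of_nonneg_right h4 hk
    · rw [hχsupp _ hT]
      simp only [zero_mul, mul_zero]
      exact mul_nonneg hp hk)
  have e1 : P.bint (fun j s => (B / M) * (χ (P.Th i τ (P.σ j s)) * P.K τ j s)) =
      (B / M) * P.bint (fun j s => χ (P.Th i τ (P.σ j s)) * P.K τ j s) := by
    unfold bint
    rw [Finset.mul_sum]
    apply Finset.sum_congr rfl
    intro k _
    exact intervalIntegral.integral_const_mul _ _
  have e2 : P.bint (fun j s => χ (P.Th i τ (P.σ j s)) * (Real.pi * P.K τ j s)) =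
      Real.pi * P.bint (fun j s => χ (P.Th i τ (P.σ j s)) * P.K τ j s) := by
    unfold bint
    rw [Finset.mul_sum]
    apply Finset.sum_congr rfl
    intro k _
    have : (fun s => χ (P.Th i τ (P.σ (k : ℤ) s)) * (Real.pi * P.K τ (k : ℤ) s)) =
        fun s => Real.pi * (χ (P.Th i τ (P.σ (k : ℤ) s)) * P.K τ (k : ℤ) s) := by
      ext s; ring
    rw [this]
    exact intervalIntegral.integral_const_mul _ _
  rw [e1] at hmono
  rw [e2] at hpol
  change _ ≤ P.TT ψ τ at hmono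
  set I0 := P.bint (fun j s => χ (P.Th i τ (P.σ j s)) * P.K τ j s) with hI0
  have hI1 : (y - x) ^ 3 / 6 / Real.pi ≤ I0 := by
    rw [div_le_iff₀ hpi]
    linarith
  have hB0 : 0 ≤ B := by
    by_contra hneg
    push_neg at hneg
    have hT0 : 0 ≤ P.TT ψ τ := by
      apply bint_nonneg (P.TT_SC hψ hτ)
      intro j s hs
      exact mul_nonneg (hψ0 _ (P.σ_mem_bd j hs.1.le hs.2.le)) (P.K_nonneg hτ j s)
    have : B * (2 * (y - x) / (3 * Real.pi)) < 0 := by
      apply mul_neg_of_neg_of_pos hneg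
      positivity
    linarith
  have h5 : (B / M) * ((y - x) ^ 3 / 6 / Real.pi) ≤ (B / M) * I0 :=
    mul_le_mul_of_nonneg_left hI1 (by positivity)
  have e3 : (B / M) * ((y - x) ^ 3 / 6 / Real.pi) = B * (2 * (y - x) / (3 * Real.pi)) := by
    rw [hM]
    field_simp
    ring
  rw [e3] at h5
  linarith

end Pgn

end Vale.Agent.Lib.P123
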