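import Vale.Agent.Lib.P123.Pg6

open Complex ComplexConjugate MeasureTheory Set Filter Topology
open scoped Interval

set_option linter.unusedSectionVars false

namespace Vale.Agent.Lib.P123

namespace Pgn

variable {P : Pgn}

theorem bint_congr_ae {E : Type*} [NormedAddCommGroup E] [NormedSpace ℝ E] {F G : ℤ → ℝ → E}
    (h : ∀ j, ∀ᵐ s : ℝ, F j s = G j s) : P.bint F = P.bint G := by
  unfold bint
  apply Finset.sum_congr rfl
  intro k _
  apply intervalIntegral.integral_congr_ae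
  filter_upwards [h k] with s hs _
  exact hs

theorem σ_inj (j : ℤ) {s s' : ℝ} (h : P.σ j s = P.σ j s') : s = s' := by
  unfold σ at h
  have h1 := add_left_cancel h
  have h2 := mul_right_cancel₀ (P.t_ne j) h1
  exact_mod_cast h2

theorem ae_σ_ne (j : ℤ) (z : ℂ) : ∀ᵐ s : ℝ, P.σ j s ≠ z := by
  have hsub : ({s : ℝ | P.σ j s = z}).Subsingleton := by
    intro a ha b hb
    exact σ_inj j (ha.trans hb.symm)
  have := hsub.measure_zero (volume : Measure ℝ)
  rw [ae_iff]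
  simpa using this

variable (P)

/-- integral of a complex function against the kernel -/
noncomputable def TC (φ : ℂ → ℂ) (τ : ℂ) : ℂ := P.bint (fun j s => φ (P.σ j s) * (P.K τ j s : ℂ))

theorem K_SC' {τ : ℂ} (hτ : τ ∈ P.Ob) : P.SC (fun j s => ((P.K τ j s : ℝ) : ℂ)) :=
  fun j => Complex.continuous_ofReal.comp_continuousOn (P.K_SC hτ j)

theorem TC_SC {φ : ℂ → ℂ} (hφ : ContinuousOn φ P.bd) {τ : ℂ} (hτ : τ ∈ P.Ob) :
    P.SC (fun j s => φ (P.σ j s) * (P.K τ j s : ℂ)) :=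
  fun j => (Pgn.SC_comp hφ j).mul (P.K_SC' hτ j)

variable {P}

theorem K_mass' {i : ℤ} {s₀ : ℝ} (h0 : 0 < s₀) (h1 : s₀ < P.ℓ i) :
    P.bint (fun j s => ((P.K (P.σ i s₀) j s : ℝ) : ℂ)) = 1 := by
  have hτ := P.σ_mem_Ob' h0 h1
  have := bint_map (𝕜 := ℝ) (P := P) Complex.ofRealCLM (P.K_SC hτ)
  simp only [Complex.ofRealCLM_apply] at this
  rw [this, P.K_mass h0 h1]
  simp

theorem TC_const_sub {φ : ℂ → ℂ} (hφ : ContinuousOn φ P.bd) (a : ℂ) {i : ℤ} {s₀ : ℝ} (h0 : 0 < s₀)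
    (h1 : s₀ < P.ℓ i) :
    P.bint (fun j s => (φ (P.σ j s) - a) * ((P.K (P.σ i s₀) j s : ℝ) : ℂ)) = P.TC φ (P.σ i s₀) - a := by
  have hτ := P.σ_mem_Ob' h0 h1
  have e : (fun j s => (φ (P.σ j s) - a) * ((P.K (P.σ i s₀) j s : ℝ) : ℂ)) =
      fun j s => φ (P.σ j s) * ((P.K (P.σ i s₀) j s : ℝ) : ℂ) - a • ((P.K (P.σ i s₀) j s : ℝ) : ℂ) := by
    ext j s
    simp only [smul_eq_mul]
    ring
  rw [e, bint_sub (P.TC_SC hφ hτ) ((P.K_SC' hτ).const_smul a), bint_const_smul, K_mass' h0 h1]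
  simp [TC]

theorem norm_TC_le {φ : ℂ → ℂ} {C : ℝ} (hC : ∀ z ∈ P.bd, ‖φ z‖ ≤ C) {i : ℤ} {s₀ : ℝ} (h0 : 0 < s₀)
    (h1 : s₀ < P.ℓ i) : ‖P.TC φ (P.σ i s₀)‖ ≤ C := by
  have hτ := P.σ_mem_Ob' h0 h1
  have hS : P.SC (fun j s => C * P.K (P.σ i s₀) j s) := fun j => continuousOn_const.mul (P.K_SC hτ j)
  have h2 := norm_bint_le (F := fun j s => φ (P.σ j s) * (P.K (P.σ i s₀) j s : ℂ)) hS (by
    intro j s hs
    rw [norm_mul, Complex.norm_real, Real.norm_eq_abs, abs_of_nonneg (P.K_nonneg hτ j s)]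
    exact mul_le_mul_of_nonneg_right (hC _ (P.σ_mem_bd j hs.1.le hs.2.le)) (P.K_nonneg hτ j s))
  have e : P.bint (fun j s => C * P.K (P.σ i s₀) j s) = C * P.bint (P.K (P.σ i s₀)) := by
    unfold bint
    rw [Finset.mul_sum]
    apply Finset.sum_congr rfl
    intro k _
    exact intervalIntegral.integral_const_mul _ _
  rw [e, P.K_mass h0 h1, mul_one] at h2
  exact h2

section nice

variable {U : Set ℂ} {f : ℂ → ℂ}

/-- Difference quotient of the conjugate. -/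
noncomputable def Qf (f : ℂ → ℂ) (z w : ℂ) : ℂ := (conj (f w) - conj (f z)) / (w - z)

/-- The extension of the Cauchy transform of the conjugate. -/
noncomputable def Gf (P : Pgn) (f : ℂ → ℂ) (z : ℂ) : ℂ :=
  conj (f z) + (2 * (Real.pi : ℂ) * I)⁻¹ * P.cint (fun w => Qf f z w)

theorem lip_of_diff (hU : IsOpen U) (hsub : P.Ob ⊆ U) (hf : DifferentiableOn ℂ f U) :
    ∃ L : ℝ, 0 ≤ L ∧ ∀ z ∈ P.Ob, ∀ w ∈ P.Ob, ‖f w - f z‖ ≤ L * ‖w - z‖ := by
  have hd : ContinuousOn (deriv f) P.Ob :=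
    (hf.deriv hU).continuousOn.mono hsub
  obtain ⟨C, hC⟩ := P.isCompact_Ob.exists_bound_of_continuousOn hd
  have hfd : ∀ x ∈ P.Ob, DifferentiableAt ℂ f x := fun x hx => (hf x (hsub hx)).differentiableAt (hU.mem_nhds (hsub hx))
  refine ⟨max C 0, le_max_right _ _, ?_⟩
  intro z hz w hw
  exact Convex.norm_image_sub_le_of_norm_deriv_le hfd (fun x hx => (hC x hx).trans (le_max_left _ _))
    P.convex_Ob hz hw

theorem Qf_bound {L : ℝ} (hL0 : 0 ≤ L) {z w : ℂ} (h : ‖f w - f z‖ ≤ L * ‖w - z‖) : ‖Qf f z w‖ ≤ L := by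
  unfold Qf
  rw [← map_sub, norm_div, Complex.norm_conj]
  by_cases h0 : ‖w - z‖ = 0
  · rw [h0]; simpa using hL0
  · have hpos : 0 < ‖w - z‖ := lt_of_le_of_ne (norm_nonneg _) (Ne.symm h0)
    rw [div_le_iff₀ hpos]
    exact h

theorem side_Q_cont (hfc : ContinuousOn f P.Ob) {L : ℝ} (hL0 : 0 ≤ L)
    (hL : ∀ z ∈ P.Ob, ∀ w ∈ P.Ob, ‖f w - f z‖ ≤ L * ‖w - z‖) (j : ℤ) {z₀ : ℂ} (hz₀ : z₀ ∈ P.Ob) :
    ContinuousWithinAt (fun z => ∫ s in (0 : ℝ)..P.ℓ j, (P.t j) • Qf f z (P.σ j s)) P.Ob z₀ := by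
  have hl := (P.ℓ_pos j).le
  have hσO : ∀ s ∈ Icc 0 (P.ℓ j), P.σ j s ∈ P.Ob := fun s hs => P.σ_mem_Ob j hs.1 hs.2
  have hσ1 : ContinuousOn (fun s => conj (f (P.σ j s))) (Icc 0 (P.ℓ j)) :=
    Complex.continuous_conj.comp_continuousOn (hfc.comp (P.σ_cont j).continuousOn hσO)
  apply intervalIntegral.continuousWithinAt_of_dominated_interval (bound := fun _ => L)
  · apply Eventually.of_forall
    intro z
    have h1 : AEStronglyMeasurable (fun s => conj (f (P.σ j s)) - conj (f z)) (volume.restrict (Ι (0 : ℝ) (P.ℓ j))) := by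
      have hc : ContinuousOn (fun s => conj (f (P.σ j s)) - conj (f z)) (Icc 0 (P.ℓ j)) :=
        hσ1.sub continuousOn_const
      have h2 := hc.aestronglyMeasurable (μ := volume) measurableSet_Icc
      apply h2.mono_measure
      apply Measure.restrict_mono _ le_rfl
      rw [uIoc_of_le hl]
      exact Ioc_subset_Icc_self
    have h3 : AEMeasurable (fun s => P.σ j s - z) (volume.restrict (Ι (0 : ℝ) (P.ℓ j))) :=
      ((P.σ_cont j).sub continuous_const).aemeasurable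
    have h4 := (h1.aemeasurable.div h3).aestronglyMeasurable
    exact h4.const_smul (P.t j)
  · filter_upwards [self_mem_nhdsWithin] with z hz
    apply Eventually.of_forall
    intro s hs
    rw [uIoc_of_le hl] at hs
    rw [norm_smul, t_norm, one_mul]
    exact Qf_bound hL0 (hL z hz _ (hσO s (Ioc_subset_Icc_self hs)))
  · exact intervalIntegrable_const
  · filter_upwards [ae_σ_ne (P := P) j z₀] with s hs _
    show ContinuousWithinAt (fun x => P.t j * Qf f x (P.σ j s)) P.Ob z₀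
    apply ContinuousWithinAt.mul continuousWithinAt_const
    unfold Qf
    apply ContinuousWithinAt.div
    · exact continuousWithinAt_const.sub (Complex.continuous_conj.continuousAt.comp_continuousWithinAt (hfc z₀ hz₀))
    · exact continuousWithinAt_const.sub continuousWithinAt_id
    · exact sub_ne_zero.2 hs

/-- `Gf` is continuous on the closed polygon. -/
theorem Gf_cont (hfc : ContinuousOn f P.Ob) {L : ℝ} (hL0 : 0 ≤ L)
    (hL : ∀ z ∈ P.Ob, ∀ w ∈ P.Ob, ‖f w - f z‖ ≤ L * ‖w - z‖) : ContinuousOn (Gf P f) P.Ob := by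
  intro z₀ hz₀
  unfold Gf
  apply ContinuousWithinAt.add
  · exact Complex.continuous_conj.continuousAt.comp_continuousWithinAt (hfc z₀ hz₀)
  · apply ContinuousWithinAt.mul continuousWithinAt_const
    unfold cint bint
    apply tendsto_finset_sum
    intro k _
    exact side_Q_cont hfc hL0 hL (k : ℤ) hz₀

/-- Inside the polygon `Gf` is the Cauchy transform of the conjugate. -/
theorem Gf_eq_Cc (hfc : ContinuousOn f P.Ob) {z : ℂ} (hz : z ∈ P.Om) :
    Gf P f z = Cc P (fun w => conj (f w)) z := by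
  have hfb : ContinuousOn (fun w => conj (f w)) P.bd :=
    Complex.continuous_conj.comp_continuousOn (hfc.mono P.bd_subset_Ob)
  have hi := inv_sub_cont hz
  have e : P.cint (fun w => Qf f z w) =
      P.cint (fun w => (w - z)⁻¹ • conj (f w) - (conj (f z)) • (w - z)⁻¹) := by
    apply cint_congr
    intro w _
    unfold Qf
    simp only [smul_eq_mul]
    rw [div_eq_mul_inv]
    ring
  unfold Gf Cc
  have hG : ContinuousOn (fun w => conj (f z) • (w - z)⁻¹) P.bd := by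
    simp only [smul_eq_mul]
    exact continuousOn_const.mul hi
  rw [e, cint_sub (F := fun w => (w - z)⁻¹ • conj (f w)) (G := fun w => conj (f z) • (w - z)⁻¹)
    (hi.smul hfb) hG, cint_smul, P.cint_inv hz, smul_eq_mul, smul_eq_mul,
    mul_sub]
  have h2 : (2 * (Real.pi : ℂ) * I)⁻¹ * (conj (f z) * (2 * (Real.pi : ℂ) * I)) = conj (f z) := by
    field_simp [two_pi_I_ne]
  rw [h2]
  ring

/-- On the open sides `Gf` is the double layer potential of the conjugate. -/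
theorem Gf_eq_TC (hU : IsOpen U) (hc : Convex ℝ U) (hsub : P.Ob ⊆ U) (hf : DifferentiableOn ℂ f U)
    {i : ℤ} {s₀ : ℝ} (h0 : 0 < s₀) (h1 : s₀ < P.ℓ i) :
    Gf P f (P.σ i s₀) = P.TC (fun w => conj (f w)) (P.σ i s₀) := by
  set τ := P.σ i s₀ with hτdef
  have hτ : τ ∈ P.Ob := P.σ_mem_Ob' h0 h1
  have hτU : τ ∈ U := hsub hτ
  have hds : DifferentiableOn ℂ (dslope f τ) U :=
    (Complex.differentiableOn_dslope (hU.mem_nhds hτU)).2 hf
  have hdz : P.cint (dslope f τ) = 0 := cint_zero_open hU hc hsub hds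
  have hdc : ContinuousOn (dslope f τ) P.bd := hds.continuousOn.mono (fun z hz => hsub (P.bd_subset_Ob hz))
  have hfc : ContinuousOn f P.bd := hf.continuousOn.mono (fun z hz => hsub (P.bd_subset_Ob hz))
  have hcf : ContinuousOn (fun w => conj (f w)) P.bd := Complex.continuous_conj.comp_continuousOn hfc
  have hS1 : P.SC (fun j s => (P.t j) • dslope f τ (P.σ j s)) := SC_cint hdc
  have hS1' : P.SC (fun j s => conj ((P.t j) • dslope f τ (P.σ j s))) :=
    fun j => Complex.continuous_conj.comp_continuousOn (hS1 j)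
  have hS2 : P.SC (fun j s => (conj (f (P.σ j s)) - conj (f τ)) * ((P.K τ j s : ℝ) : ℂ)) :=
    fun j => ((SC_comp hcf j).sub continuousOn_const).mul (P.K_SC' hτ j)
  have hS3 : P.SC (fun j s => (2 * (Real.pi : ℂ) * I) • ((conj (f (P.σ j s)) - conj (f τ)) * ((P.K τ j s : ℝ) : ℂ))) :=
    hS2.const_smul _
  have e1 : P.cint (fun w => Qf f τ w) = P.bint (fun j s => conj ((P.t j) • dslope f τ (P.σ j s)) +
      (2 * (Real.pi : ℂ) * I) • ((conj (f (P.σ j s)) - conj (f τ)) * ((P.K τ j s : ℝ) : ℂ))) := by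
    unfold cint
    apply bint_congr_ae
    intro j
    filter_upwards [ae_σ_ne (P := P) j τ] with s hs
    have hne : P.σ j s - τ ≠ 0 := sub_ne_zero.2 hs
    have e2 : dslope f τ (P.σ j s) = (f (P.σ j s) - f τ) * (P.σ j s - τ)⁻¹ := by
      rw [dslope_of_ne _ hs, slope_def_field, div_eq_mul_inv]
    have e3 := P.im_t_inv τ j s
    set x := P.σ j s - τ with hx
    have e4 : P.t j * x⁻¹ - conj (P.t j * x⁻¹) = (((2 * (P.t j * x⁻¹).im : ℝ)) : ℂ) * I :=
      Complex.sub_conj _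
    rw [e3] at e4
    simp only [smul_eq_mul, Qf]
    rw [e2, ← hx, div_eq_mul_inv, map_mul, map_mul, map_sub]
    have e5 : conj (P.t j) * ((conj (f (P.σ j s)) - conj (f τ)) * conj x⁻¹) =
        (conj (f (P.σ j s)) - conj (f τ)) * conj (P.t j * x⁻¹) := by
      rw [map_mul]; ring
    rw [e5]
    have e6 : P.t j * ((conj (f (P.σ j s)) - conj (f τ)) * x⁻¹) =
        (conj (f (P.σ j s)) - conj (f τ)) * (P.t j * x⁻¹) := by ring
    rw [e6]
    have e7 : 2 * (Real.pi : ℂ) * I * ((conj (f (P.σ j s)) - conj (f τ)) * ((P.K τ j s : ℝ) : ℂ)) =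
        (conj (f (P.σ j s)) - conj (f τ)) * (((2 * (Real.pi * P.K τ j s) : ℝ) : ℂ) * I) := by
      push_cast; ring
    rw [e7, ← e4]
    ring
  unfold Gf
  rw [e1, bint_add hS1' hS3, ← conj_bint hS1, bint_const_smul, smul_eq_mul]
  have e8 : P.bint (fun j s => (P.t j) • dslope f τ (P.σ j s)) = 0 := hdz
  rw [e8, map_zero, zero_add, ← mul_assoc, inv_mul_cancel₀ two_pi_I_ne, one_mul]
  have h3 := TC_const_sub hcf (conj (f τ)) h0 h1
  rw [h3]
  ring

/-- The sup bound for `Gf`. -/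
theorem Gf_bound (hU : IsOpen U) (hc : Convex ℝ U) (hsub : P.Ob ⊆ U) (hf : DifferentiableOn ℂ f U)
    {C : ℝ} (hC : ∀ z ∈ P.Ob, ‖f z‖ ≤ C) {z : ℂ} (hz : z ∈ P.Ob) : ‖Gf P f z‖ ≤ C := by
  have hfc : ContinuousOn f P.Ob := hf.continuousOn.mono hsub
  obtain ⟨L, hL0, hL⟩ := lip_of_diff hU hsub hf
  have hGc := Gf_cont hfc hL0 hL
  have hcf : ContinuousOn (fun w => conj (f w)) P.bd :=
    Complex.continuous_conj.comp_continuousOn (hfc.mono P.bd_subset_Ob)
  have hd : DifferentiableOn ℂ (Gf P f) P.Om := by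
    have h1 : DifferentiableOn ℂ (Cc P (fun w => conj (f w))) P.Om := by
      have := (cauchy_diff (P := P) hcf).const_smul (2 * (Real.pi : ℂ) * I)⁻¹
      exact this
    exact h1.congr (fun w hw => Gf_eq_Cc hfc hw)
  have hDC : DiffContOnCl ℂ (Gf P f) P.Om := ⟨hd, by rwa [P.closure_Om]⟩
  have hfr : ∀ w ∈ frontier P.Om, ‖Gf P f w‖ ≤ C := by
    intro w hw
    obtain ⟨j, s, h3, h4, rfl⟩ := P.frontier_sub hw
    have hcont : ContinuousOn (fun s => ‖Gf P f (P.σ j s)‖) (Icc 0 (P.ℓ j)) :=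
      (hGc.comp (P.σ_cont j).continuousOn (fun u hu => P.σ_mem_Ob j hu.1 hu.2)).norm
    have hl := P.ℓ_pos j
    have hopen : ∀ u ∈ Ioo 0 (P.ℓ j), ‖Gf P f (P.σ j u)‖ ≤ C := by
      intro u hu
      rw [Gf_eq_TC hU hc hsub hf hu.1 hu.2]
      apply norm_TC_le _ hu.1 hu.2
      intro y hy
      rw [Complex.norm_conj]
      exact hC y (P.bd_subset_Ob hy)
    have hclosed : IsClosed ({u : ℝ | u ∈ Icc 0 (P.ℓ j) ∧ ‖Gf P f (P.σ j u)‖ ≤ C}) := by
      have : {u : ℝ | u ∈ Icc 0 (P.ℓ j) ∧ ‖Gf P f (P.σ j u)‖ ≤ C} =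
          Icc 0 (P.ℓ j) ∩ (fun u => ‖Gf P f (P.σ j u)‖) ⁻¹' (Iic C) := rfl
      rw [this]
      exact hcont.preimage_isClosed_of_isClosed isClosed_Icc isClosed_Iic
    have hsubs : Ioo 0 (P.ℓ j) ⊆ {u : ℝ | u ∈ Icc 0 (P.ℓ j) ∧ ‖Gf P f (P.σ j u)‖ ≤ C} :=
      fun u hu => ⟨Ioo_subset_Icc_self hu, hopen u hu⟩
    have hcl := closure_minimal hsubs hclosed
    rw [closure_Ioo hl.ne] at hcl
    exact (hcl ⟨h3, h4⟩).2
  have := Complex.norm_le_of_forall_mem_frontier_norm_le P.isBounded_Om hDC hfr (z := z)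
    (by rw [P.closure_Om]; exact hz)
  exact this

end nice

end Pgn

end Vale.Agent.Lib.P123
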