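import Vale.Agent.Lib.P123.Pg7

open Complex ComplexConjugate MeasureTheory Set Filter Topology
open scoped Interval InnerProductSpace

set_option linter.unusedSectionVars false

namespace Vale.Agent.Lib.P123

namespace Pgn

variable {P : Pgn}

/-- Uniform positivity of the heights at an interior point. -/
theorem Om_margin {z : ℂ} (hz : z ∈ P.Om) : ∃ δ : ℝ, 0 < δ ∧ ∀ j : ℤ, δ ≤ P.h j z := by
  have hne : (Finset.range P.m).Nonempty := ⟨0, Finset.mem_range.2 (by have := P.hm; omega)⟩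
  obtain ⟨k, _, hk⟩ := Finset.exists_min_image (Finset.range P.m) (fun k : ℕ => P.h (k : ℤ) z) hne
  refine ⟨P.h (k : ℤ) z, hz k, ?_⟩
  intro j
  obtain ⟨q, w, hq, hj⟩ := P.exists_rep j
  rw [hj, h_per]
  exact hk q (Finset.mem_range.2 hq)

/-- Bound for the Cauchy transform at an interior point. -/
theorem Cc_bound {z : ℂ} (hz : z ∈ P.Om) : ∃ Cz : ℝ, ∀ (φ : ℂ → ℂ) (B : ℝ), (∀ w ∈ P.bd, ‖φ w‖ ≤ B) →
    ‖Cc P φ z‖ ≤ Cz * B := by
  obtain ⟨δ, hδ, hm⟩ := Om_margin hz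
  have hpi := Real.pi_pos
  refine ⟨(2 * Real.pi)⁻¹ * (δ⁻¹ * P.L), ?_⟩
  intro φ B hB
  unfold Cc
  rw [norm_smul]
  have e : ‖(2 * (Real.pi : ℂ) * I)⁻¹‖ = (2 * Real.pi)⁻¹ := by
    simp [abs_of_pos hpi]
  rw [e]
  have hb : ‖P.cint (fun σ => (σ - z)⁻¹ • φ σ)‖ ≤ (δ⁻¹ * B) * P.L := by
    apply norm_cint_le
    intro w hw
    rw [norm_smul]
    have h1 : ‖(w - z)⁻¹‖ ≤ δ⁻¹ := by
      rw [norm_inv]
      apply inv_anti₀ hδ
      obtain ⟨j, hj⟩ : ∃ j : ℤ, P.h j w = 0 := by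
        have h2 : w ∉ P.Om := hw.2
        simp only [Om, mem_setOf_eq, not_forall, not_lt] at h2
        obtain ⟨j, hj⟩ := h2
        exact ⟨j, le_antisymm hj (hw.1 j)⟩
      have h3 := P.abs_h_sub_le j w z
      rw [hj, zero_sub, abs_neg, abs_of_pos (hz j)] at h3
      exact (hm j).trans h3
    have hB0 : 0 ≤ B := (norm_nonneg _).trans (hB w hw)
    exact mul_le_mul h1 (hB w hw) (norm_nonneg _) (by positivity)
  calc (2 * Real.pi)⁻¹ * ‖P.cint (fun σ => (σ - z)⁻¹ • φ σ)‖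
      ≤ (2 * Real.pi)⁻¹ * ((δ⁻¹ * B) * P.L) := mul_le_mul_of_nonneg_left hb (by positivity)
    _ = (2 * Real.pi)⁻¹ * (δ⁻¹ * P.L) * B := by ring

theorem Cc_sub {z : ℂ} (hz : z ∈ P.Om) {φ ψ : ℂ → ℂ} (hφ : ContinuousOn φ P.bd) (hψ : ContinuousOn ψ P.bd) :
    Cc P (fun w => φ w - ψ w) z = Cc P φ z - Cc P ψ z := by
  unfold Cc
  have hi := inv_sub_cont hz
  have e : P.cint (fun σ => (σ - z)⁻¹ • (φ σ - ψ σ)) =
      P.cint (fun σ => (σ - z)⁻¹ • φ σ - (σ - z)⁻¹ • ψ σ) := by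
    apply cint_congr
    intro w _
    rw [smul_sub]
  rw [e, cint_sub (F := fun σ => (σ - z)⁻¹ • φ σ) (G := fun σ => (σ - z)⁻¹ • ψ σ) (hi.smul hφ) (hi.smul hψ), smul_sub]

theorem TC_sub {τ : ℂ} (hτ : τ ∈ P.Ob) {φ ψ : ℂ → ℂ} (hφ : ContinuousOn φ P.bd) (hψ : ContinuousOn ψ P.bd) :
    P.TC (fun w => φ w - ψ w) τ = P.TC φ τ - P.TC ψ τ := by
  unfold TC
  rw [← bint_sub (P.TC_SC hφ hτ) (P.TC_SC hψ hτ)]
  congr 2
  ext j s
  ring

/-- The main extension theorem. -/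
theorem exists_g {f : ℂ → ℂ} (hf : DiffContOnCl ℂ f P.Om) {C : ℝ} (hC : ∀ z ∈ P.Ob, ‖f z‖ ≤ C) :
    ∃ g : ℂ → ℂ, DiffContOnCl ℂ g P.Om ∧ (∀ z ∈ P.Om, g z = Cc P (fun w => conj (f w)) z) ∧
      (∀ z ∈ P.Ob, ‖g z‖ ≤ C) ∧
      ∀ (i : ℤ) (s₀ : ℝ), 0 < s₀ → s₀ < P.ℓ i → g (P.σ i s₀) = P.TC (fun w => conj (f w)) (P.σ i s₀) := by
  have hfc : ContinuousOn f P.Ob := by
    have := hf.continuousOn
    rwa [P.closure_Om] at this
  set ρ : ℕ → ℝ := fun n => 1 - 1 / ((n : ℝ) + 2) with hρ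
  have hρ0 : ∀ n, 0 ≤ ρ n := by
    intro n
    simp only [hρ]
    have : 1 / ((n : ℝ) + 2) ≤ 1 := by
      rw [div_le_one (by positivity)]
      have : (0 : ℝ) ≤ n := by positivity
      linarith
    linarith
  have hρ1 : ∀ n, ρ n < 1 := by
    intro n
    simp only [hρ]
    have : 0 < 1 / ((n : ℝ) + 2) := by positivity
    linarith
  set fn : ℕ → ℂ → ℂ := fun n => P.dil (ρ n) f with hfn
  have hfnd : ∀ n, DifferentiableOn ℂ (fn n) (P.Ud (ρ n)) := fun n => dil_diff hf.differentiableOn (ρ n)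
  have hfnc : ∀ n, ContinuousOn (fn n) P.Ob := fun n => dil_cont hfc (hρ0 n) (hρ1 n)
  have hsubn : ∀ n, P.Ob ⊆ P.Ud (ρ n) := fun n => P.Ob_subset_Ud (hρ0 n) (hρ1 n)
  have hfnb : ∀ n, ∀ z ∈ P.Ob, ‖fn n z‖ ≤ C := by
    intro n z hz
    exact hC _ (P.Om_subset_Ob (P.dilate_mem hz (hρ0 n) (hρ1 n)))
  -- closeness
  have hclose : ∀ ε : ℝ, 0 < ε → ∃ N : ℕ, ∀ n, N ≤ n → ∀ z ∈ P.Ob, ‖fn n z - f z‖ < ε := by
    intro ε hε
    obtain ⟨ρ₀, h0, h1, hρ₀⟩ := dil_close hfc hε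
    obtain ⟨N, hN⟩ := exists_nat_gt (1 / (1 - ρ₀))
    refine ⟨N, ?_⟩
    intro n hn z hz
    apply hρ₀ (ρ n) _ (hρ1 n) z hz
    simp only [hρ]
    have hpos : 0 < 1 - ρ₀ := by linarith
    have hn' : (N : ℝ) ≤ n := by exact_mod_cast hn
    have h2 : 1 / ((n : ℝ) + 2) ≤ 1 - ρ₀ := by
      rw [div_le_iff₀ (by positivity)]
      rw [div_lt_iff₀ hpos] at hN
      nlinarith
    linarith
  set F : ℕ → ℂ → ℂ := fun n => Gf P (fn n) with hF
  have hFc : ∀ n, ContinuousOn (F n) P.Ob := by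
    intro n
    obtain ⟨L, hL0, hL⟩ := lip_of_diff (P.isOpen_Ud (ρ n)) (hsubn n) (hfnd n)
    exact Gf_cont (hfnc n) hL0 hL
  -- difference bound
  have hdiff : ∀ n k : ℕ, ∀ B : ℝ, (∀ z ∈ P.Ob, ‖fn n z - fn k z‖ ≤ B) → ∀ z ∈ P.Ob, ‖F n z - F k z‖ ≤ B := by
    intro n k B hB
    have hU : IsOpen (P.Ud (ρ n) ∩ P.Ud (ρ k)) := (P.isOpen_Ud _).inter (P.isOpen_Ud _)
    have hcv : Convex ℝ (P.Ud (ρ n) ∩ P.Ud (ρ k)) := (P.convex_Ud _).inter (P.convex_Ud _)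
    have hsub : P.Ob ⊆ P.Ud (ρ n) ∩ P.Ud (ρ k) := subset_inter (hsubn n) (hsubn k)
    have hd : DifferentiableOn ℂ (fun z => fn n z - fn k z) (P.Ud (ρ n) ∩ P.Ud (ρ k)) :=
      ((hfnd n).mono inter_subset_left).sub ((hfnd k).mono inter_subset_right)
    have hcu : ContinuousOn (fun z => fn n z - fn k z) P.Ob := (hfnc n).sub (hfnc k)
    have hOm : ∀ z ∈ P.Om, ‖F n z - F k z‖ ≤ B := by
      intro z hz
      have h1 := Gf_bound hU hcv hsub hd hB (P.Om_subset_Ob hz)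
      rw [Gf_eq_Cc hcu hz] at h1
      have hn : ContinuousOn (fun w => conj (fn n w)) P.bd :=
        Complex.continuous_conj.comp_continuousOn ((hfnc n).mono P.bd_subset_Ob)
      have hk : ContinuousOn (fun w => conj (fn k w)) P.bd :=
        Complex.continuous_conj.comp_continuousOn ((hfnc k).mono P.bd_subset_Ob)
      have e : (fun w => conj (fn n w - fn k w)) = fun w => conj (fn n w) - conj (fn k w) := by
        ext w; rw [map_sub]
      rw [e, Cc_sub hz hn hk] at h1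
      simp only [hF]
      rw [Gf_eq_Cc (hfnc n) hz, Gf_eq_Cc (hfnc k) hz]
      exact h1
    intro z hz
    have hcl : z ∈ closure P.Om := by rw [P.closure_Om]; exact hz
    have hcont : ContinuousOn (fun z => ‖F n z - F k z‖) P.Ob := ((hFc n).sub (hFc k)).norm
    have hclosed : IsClosed ({w : ℂ | w ∈ P.Ob ∧ ‖F n w - F k w‖ ≤ B}) := by
      have : {w : ℂ | w ∈ P.Ob ∧ ‖F n w - F k w‖ ≤ B} = P.Ob ∩ (fun z => ‖F n z - F k z‖) ⁻¹' (Iic B) := rfl
      rw [this]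
      exact hcont.preimage_isClosed_of_isClosed P.isClosed_Ob isClosed_Iic
    have hsubs : P.Om ⊆ {w : ℂ | w ∈ P.Ob ∧ ‖F n w - F k w‖ ≤ B} :=
      fun w hw => ⟨P.Om_subset_Ob hw, hOm w hw⟩
    exact (closure_minimal hsubs hclosed hcl).2
  have hcauchy : ∀ ε : ℝ, 0 < ε → ∃ N : ℕ, ∀ n k, N ≤ n → N ≤ k → ∀ z ∈ P.Ob, ‖F n z - F k z‖ ≤ ε := by
    intro ε hε
    obtain ⟨N, hN⟩ := hclose (ε / 2) (by positivity)
    refine ⟨N, ?_⟩
    intro n k hn hk
    apply hdiff n k ε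
    intro z hz
    have h1 := hN n hn z hz
    have h2 := hN k hk z hz
    have h3 : fn n z - fn k z = (fn n z - f z) - (fn k z - f z) := by ring
    rw [h3]
    have := norm_sub_le (fn n z - f z) (fn k z - f z)
    linarith
  have hseq : ∀ z ∈ P.Ob, CauchySeq (fun n => F n z) := by
    intro z hz
    rw [Metric.cauchySeq_iff]
    intro ε hε
    obtain ⟨N, hN⟩ := hcauchy (ε / 2) (by positivity)
    refine ⟨N, fun n hn k hk => ?_⟩
    rw [dist_eq_norm]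
    have := hN n k hn hk z hz
    linarith
  set g : ℂ → ℂ := fun z => limUnder atTop (fun n => F n z) with hg
  have hlim : ∀ z ∈ P.Ob, Tendsto (fun n => F n z) atTop (𝓝 (g z)) := fun z hz => CauchySeq.tendsto_limUnder (hseq z hz)
  have hunif : TendstoUniformlyOn F g atTop P.Ob := by
    rw [Metric.tendstoUniformlyOn_iff]
    intro ε hε
    obtain ⟨N, hN⟩ := hcauchy (ε / 2) (by positivity)
    filter_upwards [eventually_ge_atTop N] with n hn z hz
    rw [dist_comm, dist_eq_norm]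
    have h1 : Tendsto (fun k => ‖F n z - F k z‖) atTop (𝓝 ‖F n z - g z‖) :=
      (tendsto_const_nhds.sub (hlim z hz)).norm
    have h2 : ‖F n z - g z‖ ≤ ε / 2 := by
      apply le_of_tendsto h1
      filter_upwards [eventually_ge_atTop N] with k hk
      exact hN n k hn hk z hz
    linarith
  have hgc : ContinuousOn g P.Ob := hunif.continuousOn (Eventually.of_forall hFc).frequently
  have hcf : ContinuousOn (fun w => conj (f w)) P.bd :=
    Complex.continuous_conj.comp_continuousOn (hfc.mono P.bd_subset_Ob)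
  have hcfn : ∀ n, ContinuousOn (fun w => conj (fn n w)) P.bd := fun n =>
    Complex.continuous_conj.comp_continuousOn ((hfnc n).mono P.bd_subset_Ob)
  have hgCc : ∀ z ∈ P.Om, g z = Cc P (fun w => conj (f w)) z := by
    intro z hz
    have hzO := P.Om_subset_Ob hz
    obtain ⟨Cz, hCz⟩ := Cc_bound (P := P) hz
    have ht : Tendsto (fun n => F n z) atTop (𝓝 (Cc P (fun w => conj (f w)) z)) := by
      rw [Metric.tendsto_atTop]
      intro ε hε
      obtain ⟨N, hN⟩ := hclose (ε / (2 * (|Cz| + 1))) (by positivity)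
      refine ⟨N, fun n hn => ?_⟩
      rw [dist_eq_norm]
      simp only [hF]
      rw [Gf_eq_Cc (hfnc n) hz, ← Cc_sub hz (hcfn n) hcf]
      have h1 := hCz (fun w => conj (fn n w) - conj (f w)) (ε / (2 * (|Cz| + 1))) (by
        intro w hw
        rw [← map_sub, Complex.norm_conj]
        exact (hN n hn w (P.bd_subset_Ob hw)).le)
      have h2 : Cz * (ε / (2 * (|Cz| + 1))) ≤ ε / 2 := by
        have : Cz * (ε / (2 * (|Cz| + 1))) ≤ (|Cz| + 1) * (ε / (2 * (|Cz| + 1))) := by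
          apply mul_le_mul_of_nonneg_right _ (by positivity)
          linarith [le_abs_self Cz]
        have e : (|Cz| + 1) * (ε / (2 * (|Cz| + 1))) = ε / 2 := by
          field_simp
        linarith
      linarith
    exact tendsto_nhds_unique (hlim z hzO) ht
  have hgbd : ∀ z ∈ P.Ob, ‖g z‖ ≤ C := by
    intro z hz
    apply le_of_tendsto (hlim z hz).norm
    apply Eventually.of_forall
    intro n
    exact Gf_bound (P.isOpen_Ud _) (P.convex_Ud _) (hsubn n) (hfnd n) (hfnb n) hz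
  have hgT : ∀ (i : ℤ) (s₀ : ℝ), 0 < s₀ → s₀ < P.ℓ i → g (P.σ i s₀) = P.TC (fun w => conj (f w)) (P.σ i s₀) := by
    intro i s₀ h0 h1
    have hτ := P.σ_mem_Ob' h0 h1
    have ht : Tendsto (fun n => F n (P.σ i s₀)) atTop (𝓝 (P.TC (fun w => conj (f w)) (P.σ i s₀))) := by
      rw [Metric.tendsto_atTop]
      intro ε hε
      obtain ⟨N, hN⟩ := hclose (ε / 2) (by positivity)
      refine ⟨N, fun n hn => ?_⟩
      rw [dist_eq_norm]
      simp only [hF]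
      rw [Gf_eq_TC (P.isOpen_Ud _) (P.convex_Ud _) (hsubn n) (hfnd n) h0 h1, ← TC_sub hτ (hcfn n) hcf]
      have := norm_TC_le (φ := fun w => conj (fn n w) - conj (f w)) (C := ε / 2) (by
        intro w hw
        rw [← map_sub, Complex.norm_conj]
        exact (hN n hn w (P.bd_subset_Ob hw)).le) h0 h1
      linarith
    exact tendsto_nhds_unique (hlim _ hτ) ht
  refine ⟨g, ⟨?_, ?_⟩, hgCc, hgbd, hgT⟩
  · have h1 : DifferentiableOn ℂ (Cc P (fun w => conj (f w))) P.Om := by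
      have := (cauchy_diff (P := P) hcf).const_smul (2 * (Real.pi : ℂ) * I)⁻¹
      exact this
    exact h1.congr hgCc
  · rwa [P.closure_Om]

end Pgn

variable {H : Type*} [NormedAddCommGroup H] [InnerProductSpace ℂ H] [CompleteSpace H]

variable {P : Pgn} {A : H →L[ℂ] H} {c : ℝ}

/-- The involution `f ↦ g` on the calculus. -/
theorem Adm.alpha (hA : Adm P A c) {f : ℂ → ℂ} {T : H →L[ℂ] H} (hf : IsCalc P A f T) {C : ℝ}
    (hC : ∀ z ∈ P.Ob, ‖f z‖ ≤ C) :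
    ∃ (g : ℂ → ℂ) (T' : H →L[ℂ] H), IsCalc P A g T' ∧ (∀ z ∈ P.Ob, ‖g z‖ ≤ C) ∧
      (∀ (i : ℤ) (s₀ : ℝ), 0 < s₀ → s₀ < P.ℓ i → g (P.σ i s₀) = P.TC (fun w => conj (f w)) (P.σ i s₀)) ∧
      ∀ v u : H, ⟪v, T u⟫_ℂ + conj ⟪u, T' v⟫_ℂ = P.bint (fun j s => f (P.σ j s) * mf P A v u j s) := by
  obtain ⟨g, hg1, hg2, hg3, hg4⟩ := Pgn.exists_g hf.1 hC
  have hfc : ContinuousOn f P.bd := by
    have := hf.1.continuousOn
    rw [P.closure_Om] at this
    exact this.mono P.bd_subset_Ob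
  have hcf : ContinuousOn (fun w => conj (f w)) P.bd := Complex.continuous_conj.comp_continuousOn hfc
  refine ⟨g, Top P A (fun w => conj (f w)), hA.calc_of_Cc hcf hg1 hg2, hg3, hg4, ?_⟩
  intro v u
  rw [hA.calc_eq hf]
  exact hA.S_form hfc v u

end Vale.Agent.Lib.P123
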