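import Vale.Agent.Lib.P123.Pg8

open Complex ComplexConjugate MeasureTheory Set Filter Topology
open scoped Interval InnerProductSpace

set_option linter.unusedSectionVars false

namespace Vale.Agent.Lib.P123

variable {H : Type*} [NormedAddCommGroup H] [InnerProductSpace ℂ H] [CompleteSpace H]

/-- the error function of the near extremal chain -/
noncomputable def Eta (K δ : ℝ) : ℝ := 2 - K + 1 / K + δ + Real.sqrt (2 * K * δ) + δ / K

/-- Abstract core of the Crouzeix Palencia argument. -/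
theorem core (T T' S : H →L[ℂ] H) {K δ : ℝ} {x y : H} (hx : ‖x‖ = 1) (hy : ‖y‖ = 1) (hK : 0 < K)
    (hT : ‖T‖ ≤ K) (hT' : ‖T'‖ ≤ K) (hTT' : ‖T * T'‖ ≤ K) (hTTT : ‖T * T' * T‖ ≤ K)
    (hS : S = T + ContinuousLinearMap.adjoint T') (hS2 : ‖S‖ ≤ 2) (hδ : ‖T y - (K : ℂ) • x‖ ≤ δ) :
    0 ≤ Eta K δ ∧ 2 - Eta K δ ≤ (⟪x, S y⟫_ℂ).re ∧
    ‖T' x - ((2 - K : ℝ) : ℂ) • y‖ ≤ 2 * Real.sqrt (Eta K δ) + Real.sqrt (2 * K * δ) := by
  have hδ0 : 0 ≤ δ := (norm_nonneg _).trans hδ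
  set a := Real.sqrt (2 * K * δ) with ha
  have ha0 : 0 ≤ a := Real.sqrt_nonneg _
  have ha2 : a ^ 2 = 2 * K * δ := Real.sq_sqrt (by positivity)
  have hKne : (K : ℂ) ≠ 0 := by exact_mod_cast hK.ne'
  set Td := ContinuousLinearMap.adjoint T with hTd
  have hTdn : ‖Td‖ ≤ K := by
    rw [hTd, LinearIsometryEquiv.norm_map]; exact hT
  have hxx : ⟪x, x⟫_ℂ = 1 := by
    rw [inner_self_eq_norm_sq_to_K, hx]; simp
  have hyy : ⟪y, y⟫_ℂ = 1 := by
    rw [inner_self_eq_norm_sq_to_K, hy]; simp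
  -- real part of the main term
  have hmain : K - δ ≤ (⟪x, T y⟫_ℂ).re := by
    have e : ⟪x, T y⟫_ℂ = K + ⟪x, T y - (K : ℂ) • x⟫_ℂ := by
      rw [inner_sub_right, inner_smul_right, hxx]; ring
    rw [e, add_re, ofReal_re]
    have h1 : |(⟪x, T y - (K : ℂ) • x⟫_ℂ).re| ≤ δ := by
      refine (Complex.abs_re_le_norm _).trans ((norm_inner_le_norm _ _).trans ?_)
      rw [hx, one_mul]; exact hδ
    linarith [(abs_le.1 h1).1]
  -- adjoint estimate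
  have hadj : ‖Td x - (K : ℂ) • y‖ ≤ a := by
    have h1 : ‖Td x - (K : ℂ) • y‖ ^ 2 ≤ a ^ 2 := by
      rw [ha2, @norm_sub_sq ℂ]
      have h2 : ‖Td x‖ ≤ K := by
        have := Td.le_opNorm x
        rw [hx, mul_one] at this
        exact this.trans hTdn
      have h3 : ⟪Td x, (K : ℂ) • y⟫_ℂ = K * ⟪x, T y⟫_ℂ := by
        rw [inner_smul_right, hTd, ContinuousLinearMap.adjoint_inner_left]
      have h4 : RCLike.re ⟪Td x, (K : ℂ) • y⟫_ℂ = K * (⟪x, T y⟫_ℂ).re := by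
        rw [h3]
        simp
      rw [h4, norm_smul, hy, mul_one, Complex.norm_real, Real.norm_eq_abs, abs_of_pos hK]
      have h5 : ‖Td x‖ ^ 2 ≤ K ^ 2 := pow_le_pow_left₀ (norm_nonneg _) h2 2
      nlinarith
    exact (pow_le_pow_iff_left₀ (norm_nonneg _) ha0 (by norm_num)).1 h1
  -- the errors
  set e₁ : H := x - (K : ℂ)⁻¹ • T y with he₁
  set e₂ : H := y - (K : ℂ)⁻¹ • Td x with he₂
  have he₁n : ‖e₁‖ ≤ δ / K := by
    have e : e₁ = - ((K : ℂ)⁻¹ • (T y - (K : ℂ) • x)) := by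
      rw [he₁, smul_sub, smul_smul, inv_mul_cancel₀ hKne, one_smul]
      abel
    rw [e, norm_neg, norm_smul, norm_inv, Complex.norm_real, Real.norm_eq_abs, abs_of_pos hK, div_eq_inv_mul]
    exact mul_le_mul_of_nonneg_left hδ (by positivity)
  have he₂n : ‖e₂‖ ≤ a / K := by
    have e : e₂ = - ((K : ℂ)⁻¹ • (Td x - (K : ℂ) • y)) := by
      rw [he₂, smul_sub, smul_smul, inv_mul_cancel₀ hKne, one_smul]
      abel
    rw [e, norm_neg, norm_smul, norm_inv, Complex.norm_real, Real.norm_eq_abs, abs_of_pos hK, div_eq_inv_mul]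
    exact mul_le_mul_of_nonneg_left hadj (by positivity)
  have hyd : y = e₂ + (K : ℂ)⁻¹ • Td x := by rw [he₂]; abel
  have hxd : x = e₁ + (K : ℂ)⁻¹ • T y := by rw [he₁]; abel
  -- the key bound for the inner product
  have hkey : ‖⟪y, T' x⟫_ℂ‖ ≤ a + δ / K + 1 / K := by
    have e1 : ⟪y, T' x⟫_ℂ = ⟪e₂, T' x⟫_ℂ + (K : ℂ)⁻¹ * ⟪x, (T * T') x⟫_ℂ := by
      conv_lhs => rw [hyd]
      rw [inner_add_left, inner_smul_left, hTd, ContinuousLinearMap.adjoint_inner_left]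
      simp only [map_inv₀, Complex.conj_ofReal]
      rfl
    have e2 : ⟪x, (T * T') x⟫_ℂ = ⟪x, (T * T') e₁⟫_ℂ + (K : ℂ)⁻¹ * ⟪x, (T * T' * T) y⟫_ℂ := by
      have e3 : (T * T') x = (T * T') e₁ + (K : ℂ)⁻¹ • (T * T' * T) y := by
        conv_lhs => rw [hxd]
        rw [map_add, map_smul]
        rfl
      rw [e3, inner_add_right, inner_smul_right]
    rw [e1, e2]
    have b1 : ‖⟪e₂, T' x⟫_ℂ‖ ≤ a := by
      refine (norm_inner_le_norm _ _).trans ?_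
      have h1 : ‖T' x‖ ≤ K := by
        have := T'.le_opNorm x
        rw [hx, mul_one] at this
        exact this.trans hT'
      calc ‖e₂‖ * ‖T' x‖ ≤ (a / K) * K := mul_le_mul he₂n h1 (norm_nonneg _) (by positivity)
        _ = a := by field_simp
    have b2 : ‖⟪x, (T * T') e₁⟫_ℂ‖ ≤ K * (δ / K) := by
      refine (norm_inner_le_norm _ _).trans ?_
      rw [hx, one_mul]
      refine ((T * T').le_opNorm e₁).trans ?_
      exact mul_le_mul hTT' he₁n (norm_nonneg _) hK.le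
    have b3 : ‖⟪x, (T * T' * T) y⟫_ℂ‖ ≤ K := by
      refine (norm_inner_le_norm _ _).trans ?_
      rw [hx, one_mul]
      have := (T * T' * T).le_opNorm y
      rw [hy, mul_one] at this
      exact this.trans hTTT
    have hinv : ‖(K : ℂ)⁻¹‖ = K⁻¹ := by
      rw [norm_inv, Complex.norm_real, Real.norm_eq_abs, abs_of_pos hK]
    calc ‖⟪e₂, T' x⟫_ℂ + (K : ℂ)⁻¹ * (⟪x, (T * T') e₁⟫_ℂ + (K : ℂ)⁻¹ * ⟪x, (T * T' * T) y⟫_ℂ)‖
        ≤ ‖⟪e₂, T' x⟫_ℂ‖ + ‖(K : ℂ)⁻¹‖ * (‖⟪x, (T * T') e₁⟫_ℂ‖ + ‖(K : ℂ)⁻¹‖ * ‖⟪x, (T * T' * T) y⟫_ℂ‖) := by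
          refine (norm_add_le _ _).trans ?_
          rw [norm_mul]
          gcongr
          refine (norm_add_le _ _).trans ?_
          rw [norm_mul]
      _ ≤ a + K⁻¹ * (K * (δ / K) + K⁻¹ * K) := by
          rw [hinv]
          gcongr
      _ = a + δ / K + 1 / K := by
          field_simp
          try ring
  -- the lower bound
  have hSy : ⟪x, S y⟫_ℂ = ⟪x, T y⟫_ℂ + conj ⟪y, T' x⟫_ℂ := by
    rw [hS, ContinuousLinearMap.add_apply, inner_add_right, ContinuousLinearMap.adjoint_inner_right,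
      inner_conj_symm]
  have hlow : 2 - Eta K δ ≤ (⟪x, S y⟫_ℂ).re := by
    rw [hSy, add_re, Complex.conj_re]
    have := (abs_le.1 ((Complex.abs_re_le_norm _).trans hkey)).1
    unfold Eta
    rw [← ha]
    linarith
  have hup : (⟪x, S y⟫_ℂ).re ≤ 2 := by
    refine (Complex.re_le_norm _).trans ((norm_inner_le_norm _ _).trans ?_)
    rw [hx, one_mul]
    have := S.le_opNorm y
    rw [hy, mul_one] at this
    exact this.trans hS2
  have hη : 0 ≤ Eta K δ := by linarith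
  refine ⟨hη, hlow, ?_⟩
  -- second order estimate
  set Sd := ContinuousLinearMap.adjoint S with hSd
  have hSdn : ‖Sd‖ ≤ 2 := by
    rw [hSd, LinearIsometryEquiv.norm_map]; exact hS2
  have hs2 : ‖Sd x - (2 : ℂ) • y‖ ≤ 2 * Real.sqrt (Eta K δ) := by
    have h1 : ‖Sd x - (2 : ℂ) • y‖ ^ 2 ≤ (2 * Real.sqrt (Eta K δ)) ^ 2 := by
      rw [mul_pow, Real.sq_sqrt hη, @norm_sub_sq ℂ]
      have h2 : ‖Sd x‖ ≤ 2 := by
        have := Sd.le_opNorm x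
        rw [hx, mul_one] at this
        exact this.trans hSdn
      have h3 : ⟪Sd x, (2 : ℂ) • y⟫_ℂ = 2 * ⟪x, S y⟫_ℂ := by
        rw [inner_smul_right, hSd, ContinuousLinearMap.adjoint_inner_left]
      have h4 : RCLike.re ⟪Sd x, (2 : ℂ) • y⟫_ℂ = 2 * (⟪x, S y⟫_ℂ).re := by
        rw [h3]
        simp
      rw [h4, norm_smul, hy, mul_one]
      have h5 : ‖Sd x‖ ^ 2 ≤ 2 ^ 2 := pow_le_pow_left₀ (norm_nonneg _) h2 2
      have h6 : ‖(2 : ℂ)‖ = 2 := by simp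
      rw [h6]
      nlinarith
    exact (pow_le_pow_iff_left₀ (norm_nonneg _) (by positivity) (by norm_num)).1 h1
  have hSd2 : Sd x = Td x + T' x := by
    rw [hSd, hS, map_add, ContinuousLinearMap.adjoint_adjoint]
    rfl
  have e : T' x - ((2 - K : ℝ) : ℂ) • y = (Sd x - (2 : ℂ) • y) - (Td x - (K : ℂ) • y) := by
    rw [hSd2]
    push_cast
    rw [sub_smul]
    abel
  rw [e]
  exact (norm_sub_le _ _).trans (add_le_add hs2 hadj)

variable {P : Pgn} {A : H →L[ℂ] H} {c : ℝ}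

theorem bint_const_mul (c₀ : ℝ) (F : ℤ → ℝ → ℝ) :
    P.bint (fun j s => c₀ * F j s) = c₀ * P.bint F := by
  unfold Pgn.bint
  rw [Finset.mul_sum]
  apply Finset.sum_congr rfl
  intro k _
  exact intervalIntegral.integral_const_mul _ _

/-- the set of norms whose supremum is the constant of the polygon -/
def Kset (P : Pgn) (A : H →L[ℂ] H) : Set ℝ :=
  {r | ∃ (f : ℂ → ℂ) (T : H →L[ℂ] H), IsCalc P A f T ∧ (∀ z ∈ P.Ob, ‖f z‖ ≤ 1) ∧ r = ‖T‖}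

/-- the constant of the polygon -/
noncomputable def KK (P : Pgn) (A : H →L[ℂ] H) : ℝ := sSup (Kset P A)

theorem Adm.norm_Top_le (hA : Adm P A c) {φ : ℂ → ℂ} {C : ℝ} (hC : ∀ z ∈ P.bd, ‖φ z‖ ≤ C) :
    ‖Top P A φ‖ ≤ (2 * Real.pi)⁻¹ * ((C * (2 / c)) * P.L) := by
  unfold Top
  have hpi := Real.pi_pos
  rw [norm_smul]
  have e : ‖(2 * (Real.pi : ℂ) * I)⁻¹‖ = (2 * Real.pi)⁻¹ := by
    simp [abs_of_pos hpi]
  rw [e]
  apply mul_le_mul_of_nonneg_left _ (by positivity)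
  apply Pgn.norm_cint_le
  intro z hz
  rw [norm_smul]
  have h1 := hA.res_norm' (bd_subset_Out hA.1 hz)
  have h2 := hC z hz
  have hC0 : 0 ≤ C := (norm_nonneg _).trans h2
  exact mul_le_mul h2 h1 (norm_nonneg _) hC0

theorem Adm.bdd (hA : Adm P A c) : BddAbove (Kset P A) := by
  refine ⟨(2 * Real.pi)⁻¹ * ((1 * (2 / c)) * P.L), ?_⟩
  rintro r ⟨f, T, hf, hf1, rfl⟩
  rw [hA.calc_eq hf]
  exact hA.norm_Top_le (fun z hz => hf1 z (P.bd_subset_Ob hz))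

theorem Adm.le_KK (hA : Adm P A c) {f : ℂ → ℂ} {T : H →L[ℂ] H} (hf : IsCalc P A f T)
    (hf1 : ∀ z ∈ P.Ob, ‖f z‖ ≤ 1) : ‖T‖ ≤ KK P A :=
  le_csSup hA.bdd ⟨f, T, hf, hf1, rfl⟩

theorem Adm.le_KK' (hA : Adm P A c) {f : ℂ → ℂ} {T : H →L[ℂ] H} (hf : IsCalc P A f T) {C : ℝ} (hC0 : 0 < C)
    (hf1 : ∀ z ∈ P.Ob, ‖f z‖ ≤ C) : ‖T‖ ≤ KK P A * C := by
  have h1 := (IsCalc.smul (C : ℂ)⁻¹ hf)
  have h2 := hA.le_KK h1 (by
    intro z hz
    rw [norm_mul, norm_inv, Complex.norm_real, Real.norm_eq_abs, abs_of_pos hC0, inv_mul_le_iff₀ hC0, mul_one]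
    exact hf1 z hz)
  rw [norm_smul, norm_inv, Complex.norm_real, Real.norm_eq_abs, abs_of_pos hC0, inv_mul_le_iff₀ hC0] at h2
  linarith

theorem Adm.one_le_KK [Nontrivial H] (hA : Adm P A c) : 1 ≤ KK P A := by
  have := hA.le_KK (IsCalc.one (P := P) (A := A)) (by intro z _; simp)
  rwa [norm_one] at this

theorem norm_mul_le_one {a b : ℂ} (ha : ‖a‖ ≤ 1) (hb : ‖b‖ ≤ 1) : ‖a * b‖ ≤ 1 := by
  rw [norm_mul]
  exact mul_le_one₀ ha (norm_nonneg _) hb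

/-- operator norm from the bilinear form -/
theorem opNorm_le_of_form (S : H →L[ℂ] H) {M : ℝ} (hM : 0 ≤ M)
    (h : ∀ u v : H, ‖u‖ = 1 → ‖v‖ = 1 → ‖⟪v, S u⟫_ℂ‖ ≤ M) : ‖S‖ ≤ M := by
  apply ContinuousLinearMap.opNorm_le_of_unit_norm hM
  intro u hu
  by_cases h0 : S u = 0
  · rw [h0, norm_zero]; exact hM
  have hn : 0 < ‖S u‖ := norm_pos_iff.2 h0
  have hne : ((‖S u‖ : ℝ) : ℂ) ≠ 0 := by exact_mod_cast hn.ne'
  have hv : ‖((‖S u‖ : ℝ) : ℂ)⁻¹ • S u‖ = 1 := by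
    rw [norm_smul, norm_inv, Complex.norm_real, norm_norm]
    field_simp
  have h1 := h u _ hu hv
  have e : ‖⟪((‖S u‖ : ℝ) : ℂ)⁻¹ • S u, S u⟫_ℂ‖ = ‖S u‖ := by
    rw [inner_smul_left, inner_self_eq_norm_sq_to_K]
    simp only [map_inv₀, Complex.conj_ofReal, norm_mul, norm_inv, Complex.norm_real, norm_norm, norm_pow]
    simp
    field_simp
  rw [e] at h1
  exact h1

/-- The key bound on the form attached to `S`. -/
theorem Adm.form_le (hA : Adm P A c) {f : ℂ → ℂ} (hfc : ContinuousOn f P.bd) (hf1 : ∀ z ∈ P.bd, ‖f z‖ ≤ 1)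
    {u v : H} (hu : ‖u‖ = 1) (hv : ‖v‖ = 1) :
    ‖P.bint (fun j s => f (P.σ j s) * mf P A v u j s)‖ ≤ 2 := by
  have hG : P.SC (fun j s => (rho P A u j s + rho P A v j s) / 2) := by
    intro j
    exact ((hA.rho_SC u j).add (hA.rho_SC v j)).div_const 2
  have h1 := Pgn.norm_bint_le (F := fun j s => f (P.σ j s) * mf P A v u j s) hG (by
    intro j s hs
    have hs' : s ∈ Icc 0 (P.ℓ j) := Ioo_subset_Icc_self hs
    have h2 := hA.mf_cs v u j hs' (a := 1) zero_le_one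
    rw [norm_mul]
    have h3 := hf1 _ (P.σ_mem_bd' j hs')
    have h4 : ‖f (P.σ j s)‖ * ‖mf P A v u j s‖ ≤ 1 * ‖mf P A v u j s‖ :=
      mul_le_mul_of_nonneg_right h3 (norm_nonneg _)
    nlinarith)
  refine h1.trans (le_of_eq ?_)
  have e : (fun j s => (rho P A u j s + rho P A v j s) / 2) =
      fun j s => (1 / 2 : ℝ) * (rho P A u j s + rho P A v j s) := by
    ext j s; ring
  rw [e, bint_const_mul, Pgn.bint_add (hA.rho_SC u) (hA.rho_SC v), hA.rho_mass, hA.rho_mass, hu, hv]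
  norm_num

/-- Typicality. -/
theorem Adm.typ (hA : Adm P A c) {f : ℂ → ℂ} (hfc : ContinuousOn f P.bd) (hf1 : ∀ z ∈ P.bd, ‖f z‖ ≤ 1)
    {x y : H} (hx : ‖x‖ = 1) (hy : ‖y‖ = 1) :
    P.bint (fun j s => (1 - ‖f (P.σ j s)‖ ^ 2) * rho P A x j s) ≤
      4 - 2 * (P.bint (fun j s => f (P.σ j s) * mf P A x y j s)).re := by
  have hfs : P.SC (fun j s => ‖f (P.σ j s)‖ ^ 2) := fun j => ((Pgn.SC_comp hfc j).norm).pow 2
  have hI : P.SC (fun j s => ‖f (P.σ j s)‖ ^ 2 * rho P A x j s) := fun j => (hfs j).mul (hA.rho_SC x j)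
  have hG : P.SC (fun j s => (1 / 2 : ℝ) * (rho P A y j s + ‖f (P.σ j s)‖ ^ 2 * rho P A x j s)) :=
    fun j => continuousOn_const.mul ((hA.rho_SC y j).add (hI j))
  have h1 := Pgn.norm_bint_le (F := fun j s => f (P.σ j s) * mf P A x y j s) hG (by
    intro j s hs
    have hs' : s ∈ Icc 0 (P.ℓ j) := Ioo_subset_Icc_self hs
    have h2 := hA.mf_cs x y j hs' (a := ‖f (P.σ j s)‖) (norm_nonneg _)
    rw [norm_mul]
    linarith)
  rw [bint_const_mul, Pgn.bint_add (hA.rho_SC y) hI, hA.rho_mass, hy] at h1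
  have h2 := (Complex.re_le_norm _).trans h1
  have e : (fun j s => (1 - ‖f (P.σ j s)‖ ^ 2) * rho P A x j s) =
      fun j s => rho P A x j s - ‖f (P.σ j s)‖ ^ 2 * rho P A x j s := by
    ext j s; ring
  rw [e, Pgn.bint_sub (hA.rho_SC x) hI, hA.rho_mass, hx]
  norm_num at h2 ⊢
  linarith

/-- the flatness functional -/
noncomputable def Fl (P : Pgn) (f : ℂ → ℂ) (τ : ℂ) : ℝ := P.TT (fun w => ‖f τ + f w‖ ^ 2) τ

theorem TC_re_const_mul {f : ℂ → ℂ} (hfc : ContinuousOn f P.bd) {τ : ℂ} (hτ : τ ∈ P.Ob) (a : ℂ) :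
    P.bint (fun j s => (a * (f (P.σ j s) * ((P.K τ j s : ℝ) : ℂ))).re) = (a * P.TC f τ).re := by
  have h1 := P.TC_SC hfc hτ
  have h2 : P.SC (fun j s => a • (f (P.σ j s) * ((P.K τ j s : ℝ) : ℂ))) := h1.const_smul a
  have h3 := Pgn.bint_map (𝕜 := ℝ) (P := P) Complex.reCLM h2
  simp only [Complex.reCLM_apply, smul_eq_mul] at h3
  have h4 := Pgn.bint_const_smul (P := P) a (fun j s => f (P.σ j s) * ((P.K τ j s : ℝ) : ℂ))
  simp only [smul_eq_mul] at h4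
  rw [h3, h4]
  rfl

/-- The pointwise inequality. -/
theorem Fl_le {f g : ℂ → ℂ} (hfc : ContinuousOn f P.bd) (hf1 : ∀ z ∈ P.bd, ‖f z‖ ≤ 1)
    {i : ℤ} {s₀ : ℝ} (h0 : 0 < s₀) (h1 : s₀ < P.ℓ i)
    (hg : g (P.σ i s₀) = P.TC (fun w => conj (f w)) (P.σ i s₀)) :
    Fl P f (P.σ i s₀) ≤ 2 * (1 + (f (P.σ i s₀) * g (P.σ i s₀)).re) := by
  set τ := P.σ i s₀ with hτdef
  have hτ : τ ∈ P.Ob := P.σ_mem_Ob' h0 h1
  have hτb : τ ∈ P.bd := P.σ_mem_bd i h0.le h1.le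
  set a := f τ with ha
  have ha1 : ‖a‖ ≤ 1 := hf1 τ hτb
  have hcf : ContinuousOn (fun w => ‖a + f w‖ ^ 2) P.bd := (continuousOn_const.add hfc).norm.pow 2
  have hS1 := P.TT_SC hcf hτ
  have hS2 : P.SC (fun j s => 2 * P.K τ j s) := fun j => continuousOn_const.mul (P.K_SC hτ j)
  have hS3 : P.SC (fun j s => (conj a * (f (P.σ j s) * ((P.K τ j s : ℝ) : ℂ))).re) := by
    intro j
    exact Complex.continuous_re.comp_continuousOn (continuousOn_const.mul (P.TC_SC hfc hτ j))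
  have hS4 : P.SC (fun j s => 2 * (conj a * (f (P.σ j s) * ((P.K τ j s : ℝ) : ℂ))).re) :=
    fun j => continuousOn_const.mul (hS3 j)
  have hmono := Pgn.bint_mono hS1 (hS2.add hS4) (by
    intro j s hs
    have hk := P.K_nonneg hτ j s
    have hb := hf1 _ (P.σ_mem_bd j hs.1.le hs.2.le)
    set b := f (P.σ j s) with hbdef
    have e : (conj a * (b * ((P.K τ j s : ℝ) : ℂ))).re = (conj a * b).re * P.K τ j s := by
      rw [← mul_assoc, Complex.re_mul_ofReal]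
    rw [e]
    have h3 : ‖a + b‖ ^ 2 = ‖a‖ ^ 2 + 2 * (conj a * b).re + ‖b‖ ^ 2 := by
      rw [Complex.sq_norm, Complex.sq_norm, Complex.sq_norm, Complex.normSq_add]
      simp [Complex.normSq_apply]
      ring
    have h4 : ‖a‖ ^ 2 ≤ 1 := pow_le_one₀ (norm_nonneg _) ha1
    have h5 : ‖b‖ ^ 2 ≤ 1 := pow_le_one₀ (norm_nonneg _) hb
    rw [h3]
    have h6 : (‖a‖ ^ 2 + 2 * (conj a * b).re + ‖b‖ ^ 2) * P.K τ j s ≤
        (2 + 2 * (conj a * b).re) * P.K τ j s := by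
      apply mul_le_mul_of_nonneg_right _ hk
      linarith
    linarith)
  have e1 : P.bint (fun j s => 2 * P.K τ j s) = 2 := by
    rw [bint_const_mul, P.K_mass h0 h1, mul_one]
  have e2 : P.bint (fun j s => 2 * (conj a * (f (P.σ j s) * ((P.K τ j s : ℝ) : ℂ))).re) =
      2 * (conj a * P.TC f τ).re := by
    rw [bint_const_mul, TC_re_const_mul hfc hτ]
  have hadd := Pgn.bint_add hS2 hS4
  have hle : Fl P f τ ≤ P.bint (fun j s => 2 * P.K τ j s + 2 * (conj a * (f (P.σ j s) * ((P.K τ j s : ℝ) : ℂ))).re) := hmono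
  rw [hadd, e1, e2] at hle
  have e3 : P.TC f τ = conj (g τ) := by
    rw [hg]
    have hS5 : P.SC (fun j s => conj (f (P.σ j s)) * ((P.K τ j s : ℝ) : ℂ)) :=
      P.TC_SC (φ := fun w => conj (f w)) (Complex.continuous_conj.comp_continuousOn hfc) hτ
    have h6 := conj_bint hS5
    have h7 : P.TC (fun w => conj (f w)) τ = P.bint (fun j s => conj (f (P.σ j s)) * ((P.K τ j s : ℝ) : ℂ)) := rfl
    rw [h7, h6]
    unfold Pgn.TC
    congr 2
    ext j s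
    simp
  rw [e3] at hle
  have e4 : (conj a * conj (g τ)).re = (a * g τ).re := by
    rw [← map_mul, Complex.conj_re]
  rw [e4] at hle
  linarith

/-- A pointwise inequality for the averaged function. -/
theorem half_ineq {φ f : ℂ} (hφ : ‖φ‖ ≤ 1) (hf : ‖f‖ ≤ 1) :
    ‖(1 / 2 : ℂ) * ((1 + φ) * f)‖ ^ 2 ≤ (1 + φ.re) / 2 := by
  rw [norm_mul, norm_mul, mul_pow, mul_pow]
  have h1 : ‖f‖ ^ 2 ≤ 1 := pow_le_one₀ (norm_nonneg _) hf
  have h2 : ‖φ‖ ^ 2 ≤ 1 := pow_le_one₀ (norm_nonneg _) hφ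
  have e : ‖(1 : ℂ) + φ‖ ^ 2 = 1 + 2 * φ.re + ‖φ‖ ^ 2 := by
    rw [Complex.sq_norm, Complex.sq_norm, Complex.normSq_add]
    simp
    ring
  have e2 : ‖(1 / 2 : ℂ)‖ ^ 2 = 1 / 4 := by
    norm_num
  rw [e2, e]
  have h3 : 0 ≤ 1 + 2 * φ.re + ‖φ‖ ^ 2 := by
    rw [← e]; positivity
  have h4 : (1 + 2 * φ.re + ‖φ‖ ^ 2) * ‖f‖ ^ 2 ≤ (1 + 2 * φ.re + ‖φ‖ ^ 2) * 1 :=
    mul_le_mul_of_nonneg_left h1 h3
  nlinarith

/-- the transfer error -/
noncomputable def Dlt (K δ : ℝ) : ℝ :=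
  (1 / 2) * δ * (1 + K) + (1 / 2) * K * (K * (2 * Real.sqrt (Eta K δ) + Real.sqrt (2 * K * δ)) +
    |K - 2| * δ + |K ^ 2 - 2 * K - 1|)

/-- One step of the near extremal chain. -/
theorem Adm.step (hA : Adm P A c) {x y : H} (hx : ‖x‖ = 1) (hy : ‖y‖ = 1) {f : ℂ → ℂ} {T : H →L[ℂ] H}
    (hf : IsCalc P A f T) (hf1 : ∀ z ∈ P.Ob, ‖f z‖ ≤ 1) (hKpos : 0 < KK P A) {δ : ℝ}
    (hδ : ‖T y - ((KK P A : ℝ) : ℂ) • x‖ ≤ δ) :
    ∃ (f' : ℂ → ℂ) (T' : H →L[ℂ] H), IsCalc P A f' T' ∧ (∀ z ∈ P.Ob, ‖f' z‖ ≤ 1) ∧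
      ‖T' y - ((KK P A : ℝ) : ℂ) • x‖ ≤ Dlt (KK P A) δ ∧
      P.bint (fun j s => (1 - ‖f (P.σ j s)‖ ^ 2) * rho P A x j s) ≤ 2 * Eta (KK P A) δ ∧
      (KK P A) - 1 / (KK P A) ≤ 2 + δ + Real.sqrt (2 * (KK P A) * δ) + δ / (KK P A) ∧
      ∀ (i : ℤ) (s₀ : ℝ), 0 < s₀ → s₀ < P.ℓ i →
        Fl P f (P.σ i s₀) ≤ 4 * (1 - ‖f' (P.σ i s₀)‖ ^ 2) := by
  set K := KK P A with hK
  obtain ⟨g, T', hg, hg1, hgb, hform⟩ := hA.alpha hf hf1
  have hfc : ContinuousOn f P.bd := by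
    have := hf.1.continuousOn
    rw [P.closure_Om] at this
    exact this.mono P.bd_subset_Ob
  have hf1b : ∀ z ∈ P.bd, ‖f z‖ ≤ 1 := fun z hz => hf1 z (P.bd_subset_Ob hz)
  have hT : ‖T‖ ≤ K := hA.le_KK hf hf1
  have hT' : ‖T'‖ ≤ K := hA.le_KK hg hg1
  have hfg := hf.mul hg
  have hfg1 : ∀ z ∈ P.Ob, ‖f z * g z‖ ≤ 1 := fun z hz => norm_mul_le_one (hf1 z hz) (hg1 z hz)
  have hTT' : ‖T * T'‖ ≤ K := hA.le_KK hfg hfg1
  have hfgf := hfg.mul hf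
  have hTTT : ‖T * T' * T‖ ≤ K :=
    hA.le_KK hfgf (fun z hz => norm_mul_le_one (hfg1 z hz) (hf1 z hz))
  set S := T + ContinuousLinearMap.adjoint T' with hS
  have hform2 : ∀ v u : H, ⟪v, S u⟫_ℂ = P.bint (fun j s => f (P.σ j s) * mf P A v u j s) := by
    intro v u
    rw [← hform, hS, ContinuousLinearMap.add_apply, inner_add_right, ContinuousLinearMap.adjoint_inner_right,
      inner_conj_symm]
  have hS2 : ‖S‖ ≤ 2 := by
    apply opNorm_le_of_form S (by norm_num)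
    intro u v hu hv
    rw [hform2]
    exact hA.form_le hfc hf1b hu hv
  obtain ⟨hη, hlow, hb⟩ := core T T' S hx hy hKpos hT hT' hTT' hTTT hS hS2 hδ
  have hδ0 : 0 ≤ δ := (norm_nonneg _).trans hδ
  set η := Eta K δ with hηdef
  set a := Real.sqrt (2 * K * δ) with ha
  set b := 2 * Real.sqrt η + a with hbdef
  have hup : (⟪x, S y⟫_ℂ).re ≤ 2 := by
    refine (Complex.re_le_norm _).trans ((norm_inner_le_norm _ _).trans ?_)
    rw [hx, one_mul]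
    have := S.le_opNorm y
    rw [hy, mul_one] at this
    exact this.trans hS2
  have hKne : (K : ℂ) ≠ 0 := by exact_mod_cast hKpos.ne'
  -- the function phi
  set φ : ℂ → ℂ := fun z => - (f z * g z) with hφ
  set Tφ : H →L[ℂ] H := - (T * T') with hTφ
  have hφc : IsCalc P A φ Tφ := hfg.neg
  have hφ1 : ∀ z ∈ P.Ob, ‖φ z‖ ≤ 1 := fun z hz => by
    simp only [hφ, norm_neg]
    exact hfg1 z hz
  have hTφn : ‖Tφ‖ ≤ K := hA.le_KK hφc hφ1
  -- phi(A) x is close to x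
  set E := K * b + |K - 2| * δ + |K ^ 2 - 2 * K - 1| with hE
  have hφx : ‖Tφ x - x‖ ≤ E := by
    set w := T' x - ((2 - K : ℝ) : ℂ) • y with hw
    have hTx : T' x = w + ((2 - K : ℝ) : ℂ) • y := by rw [hw]; abel
    have e : Tφ x - x = - T w + (((K - 2 : ℝ) : ℂ)) • (T y - (K : ℂ) • x) + (((K ^ 2 - 2 * K - 1 : ℝ) : ℂ)) • x := by
      have e1 : Tφ x = - T (T' x) := rfl
      rw [e1, hTx, map_add, map_smul, smul_sub, smul_smul]
      have e2 : ((K - 2 : ℝ) : ℂ) * (K : ℂ) = ((K ^ 2 - 2 * K : ℝ) : ℂ) := by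
        push_cast; ring
      have e3 : ((K ^ 2 - 2 * K - 1 : ℝ) : ℂ) = ((K ^ 2 - 2 * K : ℝ) : ℂ) - 1 := by
        push_cast; ring
      have e4 : ((2 - K : ℝ) : ℂ) = - ((K - 2 : ℝ) : ℂ) := by
        push_cast; ring
      rw [e2, e3, e4, sub_smul, one_smul, neg_smul]
      abel
    rw [e]
    have n1 : ‖T w‖ ≤ K * b := by
      refine (T.le_opNorm w).trans ?_
      exact mul_le_mul hT hb (norm_nonneg _) hKpos.le
    have n2 : ‖((K - 2 : ℝ) : ℂ) • (T y - (K : ℂ) • x)‖ ≤ |K - 2| * δ := by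
      rw [norm_smul, Complex.norm_real, Real.norm_eq_abs]
      exact mul_le_mul_of_nonneg_left hδ (abs_nonneg _)
    have n3 : ‖((K ^ 2 - 2 * K - 1 : ℝ) : ℂ) • x‖ = |K ^ 2 - 2 * K - 1| := by
      rw [norm_smul, Complex.norm_real, Real.norm_eq_abs, hx, mul_one]
    have := norm_add₃_le (a := - T w) (b := ((K - 2 : ℝ) : ℂ) • (T y - (K : ℂ) • x))
      (c := ((K ^ 2 - 2 * K - 1 : ℝ) : ℂ) • x)
    rw [norm_neg, n3] at this
    linarith
  -- the new function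
  set f' : ℂ → ℂ := fun z => (1 / 2 : ℂ) * ((1 + φ z) * f z) with hf'
  set Tp : H →L[ℂ] H := (1 / 2 : ℂ) • ((1 + Tφ) * T) with hTp
  have hf'c : IsCalc P A f' Tp := by
    exact (((IsCalc.one (P := P) (A := A)).add hφc).mul hf).smul (1 / 2 : ℂ)
  have hf'1 : ∀ z ∈ P.Ob, ‖f' z‖ ≤ 1 := by
    intro z hz
    simp only [hf', norm_mul]
    have h1 := hφ1 z hz
    have h2 := hf1 z hz
    have h3 : ‖(1 : ℂ) + φ z‖ ≤ 2 := by
      refine (norm_add_le _ _).trans ?_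
      rw [norm_one]; linarith
    have h4 : ‖(1 / 2 : ℂ)‖ = 1 / 2 := by norm_num
    rw [h4]
    have h5 : ‖(1 : ℂ) + φ z‖ * ‖f z‖ ≤ 2 * 1 := mul_le_mul h3 h2 (norm_nonneg _) (by norm_num)
    linarith
  refine ⟨f', Tp, hf'c, hf'1, ?_, ?_, ?_, ?_⟩
  · have e : Tp y - (K : ℂ) • x = (1 / 2 : ℂ) • (T y - (K : ℂ) • x) + (1 / 2 : ℂ) • Tφ (T y - (K : ℂ) • x)
        + ((K / 2 : ℝ) : ℂ) • (Tφ x - x) := by
      have e1 : Tp y = (1 / 2 : ℂ) • (T y + Tφ (T y)) := rfl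
      rw [e1, map_sub, map_smul, smul_sub, smul_sub, smul_add, smul_sub, smul_smul, smul_smul]
      have e2 : ((K / 2 : ℝ) : ℂ) = (1 / 2 : ℂ) * K := by
        push_cast; ring
      rw [e2]
      have e3 : (K : ℂ) • x = ((1 / 2 : ℂ) * K) • x + ((1 / 2 : ℂ) * K) • x := by
        rw [← add_smul]
        congr 1
        ring
      conv_lhs => rw [e3]
      abel
    rw [e]
    have n1 : ‖(1 / 2 : ℂ) • (T y - (K : ℂ) • x)‖ ≤ (1 / 2) * δ := by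
      rw [norm_smul]
      have h4 : ‖(1 / 2 : ℂ)‖ = 1 / 2 := by norm_num
      rw [h4]
      exact mul_le_mul_of_nonneg_left hδ (by norm_num)
    have n2 : ‖(1 / 2 : ℂ) • Tφ (T y - (K : ℂ) • x)‖ ≤ (1 / 2) * (K * δ) := by
      rw [norm_smul]
      have h4 : ‖(1 / 2 : ℂ)‖ = 1 / 2 := by norm_num
      rw [h4]
      apply mul_le_mul_of_nonneg_left _ (by norm_num)
      refine (Tφ.le_opNorm _).trans ?_
      exact mul_le_mul hTφn hδ (norm_nonneg _) hKpos.le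
    have n3 : ‖((K / 2 : ℝ) : ℂ) • (Tφ x - x)‖ ≤ (K / 2) * E := by
      rw [norm_smul, Complex.norm_real, Real.norm_eq_abs, abs_of_pos (by positivity)]
      exact mul_le_mul_of_nonneg_left hφx (by positivity)
    have := norm_add₃_le (a := (1 / 2 : ℂ) • (T y - (K : ℂ) • x)) (b := (1 / 2 : ℂ) • Tφ (T y - (K : ℂ) • x))
      (c := ((K / 2 : ℝ) : ℂ) • (Tφ x - x))
    unfold Dlt
    rw [← hηdef, ← ha]
    rw [hE] at n3
    nlinarith
  · have h1 := hA.typ hfc hf1b hx hy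
    rw [← hform2] at h1
    linarith
  · have h2 : 2 - η ≤ 2 := by linarith
    have h3 : 0 ≤ η := hη
    have h4 := hlow.trans hup
    have e : η = 2 - K + 1 / K + δ + a + δ / K := rfl
    rw [e] at h3
    linarith
  · intro i s₀ h0 h1
    have hb1 := Fl_le hfc hf1b h0 h1 (hgb i s₀ h0 h1)
    set τ := P.σ i s₀ with hτdef
    have hτO : τ ∈ P.Ob := P.σ_mem_Ob' h0 h1
    have h2 := half_ineq (hφ1 τ hτO) (hf1 τ hτO)
    have e : (φ τ).re = - (f τ * g τ).re := by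
      simp [hφ]
    rw [e] at h2
    have e2 : f' τ = (1 / 2 : ℂ) * ((1 + φ τ) * f τ) := rfl
    rw [e2]
    linarith

end Vale.Agent.Lib.P123
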