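import Vale.Agent.Lib.P123.Rect

open Polynomial ComplexConjugate

namespace Vale.Agent.Lib.P123

variable {H : Type*} [NormedAddCommGroup H] [InnerProductSpace ℂ H]

/-- Scalar facts about the lobes of `|z² - 1| ≤ m`. -/
theorem lobe_scalar (z : ℂ) (m : ℝ) (hz : ‖z ^ 2 - 1‖ ≤ m) :
    1 - m ≤ z.re ^ 2 ∧ z.re ^ 2 ≤ 1 + m ∧ 4 * z.im ^ 2 ≤ m ^ 2 := by
  have hm : 0 ≤ m := (norm_nonneg _).trans hz
  have h1 : ‖z ^ 2 - 1‖ ^ 2 ≤ m ^ 2 := pow_le_pow_left₀ (norm_nonneg _) hz 2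
  rw [← Complex.normSq_eq_norm_sq, Complex.normSq_apply] at h1
  have hre : (z ^ 2 - 1).re = z.re ^ 2 - z.im ^ 2 - 1 := by
    simp [pow_two, Complex.mul_re]
  have him : (z ^ 2 - 1).im = 2 * z.re * z.im := by
    simp [pow_two, Complex.mul_im]; ring
  rw [hre, him] at h1
  have hid : (z.re ^ 2 - z.im ^ 2 - 1) * (z.re ^ 2 - z.im ^ 2 - 1)
      + 2 * z.re * z.im * (2 * z.re * z.im) = (z.re ^ 2 + z.im ^ 2 - 1) ^ 2 + 4 * z.im ^ 2 := by ring
  rw [hid] at h1
  refine ⟨?_, ?_, ?_⟩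
  · have h2 : (z.re ^ 2 - z.im ^ 2 - 1) ^ 2 ≤ m ^ 2 := by
      nlinarith [sq_nonneg (2 * z.re * z.im), hid, sq_nonneg (z.re ^ 2 + z.im ^ 2 - 1)]
    have h3 := abs_le_of_sq_le_sq h2 hm
    nlinarith [sq_nonneg z.im, (abs_le.1 h3).1]
  · have h2 : (z.re ^ 2 + z.im ^ 2 - 1) ^ 2 ≤ m ^ 2 := by
      nlinarith [sq_nonneg z.im]
    have h3 := abs_le_of_sq_le_sq h2 hm
    nlinarith [sq_nonneg z.im, (abs_le.1 h3).2]
  · nlinarith [sq_nonneg (z.re ^ 2 + z.im ^ 2 - 1)]

/-- Passage from unit vectors to all vectors in the numerical range. -/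
theorem exists_unit_inner (T : H →L[ℂ] H) (v : H) (hv : v ≠ 0) :
    ∃ u : H, ‖u‖ = 1 ∧ inner ℂ v (T v) = ((‖v‖ ^ 2 : ℝ) : ℂ) * inner ℂ u (T u) := by
  have hn : 0 < ‖v‖ := norm_pos_iff.2 hv
  have hne : ((‖v‖ : ℝ) : ℂ) ≠ 0 := by exact_mod_cast hn.ne'
  refine ⟨((‖v‖ : ℝ) : ℂ)⁻¹ • v, ?_, ?_⟩
  · rw [norm_smul, norm_inv, Complex.norm_real, norm_norm]
    exact inv_mul_cancel₀ hn.ne'
  · rw [map_smul, inner_smul_left, inner_smul_right, map_inv₀, Complex.conj_ofReal]
    push_cast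
    field_simp

/-- The real part of the numerical range has a constant sign when it avoids zero quantitatively. -/
theorem re_sign_const (B : H →L[ℂ] H) (c : ℝ) (hc : 0 < c)
    (h : ∀ v : H, c * ‖v‖ ^ 2 ≤ |(inner ℂ v (B v)).re|) (u v : H)
    (hu : 0 < (inner ℂ u (B u)).re) (hv : (inner ℂ v (B v)).re < 0) : False := by
  set qu := (inner ℂ u (B u)).re with hqu
  set qv := (inner ℂ v (B v)).re with hqv
  set bb := (inner ℂ u (B v)).re + (inner ℂ v (B u)).re with hbb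
  have hq : ∀ t : ℝ, (inner ℂ (u + (t : ℂ) • v) (B (u + (t : ℂ) • v))).re = qu + bb * t + qv * t ^ 2 := by
    intro t
    rw [map_add, map_smul, inner_add_left, inner_add_right, inner_add_right, inner_smul_left,
      inner_smul_right, inner_smul_left, inner_smul_right, Complex.conj_ofReal]
    simp only [Complex.add_re, Complex.re_ofReal_mul]
    rw [hqu, hqv, hbb]
    ring
  have hdisc : 0 ≤ bb ^ 2 - 4 * qv * qu := by nlinarith [mul_pos (neg_pos.2 hv) hu, sq_nonneg bb]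
  set t : ℝ := (-bb - √(bb ^ 2 - 4 * qv * qu)) / (2 * qv) with ht
  have hroot : qu + bb * t + qv * t ^ 2 = 0 := by
    have hs := Real.sq_sqrt hdisc
    have hqv0 : qv ≠ 0 := hv.ne
    have h2 : 2 * qv * t + bb + √(bb ^ 2 - 4 * qv * qu) = 0 := by
      rw [ht]
      field_simp
      ring
    have h3 : 4 * qv * (qu + bb * t + qv * t ^ 2) = 0 := by
      linear_combination (2 * qv * t + bb - √(bb ^ 2 - 4 * qv * qu)) * h2 + hs
    have h4 : (4 * qv) ≠ 0 := mul_ne_zero (by norm_num) hqv0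
    exact (mul_eq_zero.1 h3).resolve_left h4
  have hw := h (u + (t : ℂ) • v)
  rw [hq t, hroot, abs_zero] at hw
  have hw0 : ‖u + (t : ℂ) • v‖ ^ 2 ≤ 0 := by
    by_contra hcon
    push_neg at hcon
    have := mul_pos hc hcon
    linarith
  have hw1 : u + (t : ℂ) • v = 0 := by
    have : ‖u + (t : ℂ) • v‖ = 0 := by
      have h2 := sq_nonneg ‖u + (t : ℂ) • v‖
      exact pow_eq_zero_iff (two_ne_zero) |>.1 (le_antisymm hw0 h2)
    exact norm_eq_zero.1 this
  have hu' : u = -((t : ℂ) • v) := eq_neg_of_add_eq_zero_left hw1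
  have h5 : inner ℂ u (B u) = ((t ^ 2 : ℝ) : ℂ) * inner ℂ v (B v) := by
    rw [hu', map_neg, map_smul, inner_neg_left, inner_neg_right, neg_neg, inner_smul_left,
      inner_smul_right, Complex.conj_ofReal]
    push_cast
    ring
  have hquv : qu = t ^ 2 * qv := by
    rw [hqu, h5, Complex.re_ofReal_mul]
  nlinarith [sq_nonneg t]

section Complete

variable [CompleteSpace H]

/-- The lobe lemma in the right half-plane. -/
theorem lobe_pos (B : H →L[ℂ] H) (m : ℝ) (hm0 : 0 < m) (hm1 : m < 1)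
    (hW : ∀ v : H, ‖v‖ = 1 → ‖(inner ℂ v (B v)) ^ 2 - 1‖ ≤ m)
    (hpos : ∀ v : H, ‖v‖ = 1 → 0 < (inner ℂ v (B v)).re) :
    ‖B * B - 1‖ ≤ 2 * m := by
  -- the rectangle
  set sp : ℝ := √(1 + m) with hsp
  set sm : ℝ := √(1 - m) with hsm
  have hsp2 : sp ^ 2 = 1 + m := Real.sq_sqrt (by linarith)
  have hsm2 : sm ^ 2 = 1 - m := Real.sq_sqrt (by linarith)
  have hsp0 : 0 < sp := Real.sqrt_pos.2 (by linarith)
  have hsm0 : 0 < sm := Real.sqrt_pos.2 (by linarith)
  have hlt : sm < sp := by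
    apply Real.sqrt_lt_sqrt (by linarith) (by linarith)
  set c : ℝ := (sp + sm) / 2 with hc
  set w : ℝ := (sp - sm) / 2 with hw
  have hc0 : 0 < c := by rw [hc]; positivity
  have hw0 : 0 < w := by rw [hw]; linarith
  have hcw : w ≤ c := by rw [hc, hw]; linarith
  have hsq : c ^ 2 + w ^ 2 = 1 := by rw [hc, hw]; nlinarith
  have hprod : 2 * c * w = m := by rw [hc, hw]; nlinarith
  set S : H →L[ℂ] H := ((w⁻¹ : ℝ) : ℂ) • (B - (c : ℂ) • 1) with hS
  have hSinner : ∀ v : H, inner ℂ v (S v)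
      = ((w⁻¹ : ℝ) : ℂ) * (inner ℂ v (B v) - (c : ℂ) * inner ℂ v v) := by
    intro v
    have : S v = ((w⁻¹ : ℝ) : ℂ) • (B v - (c : ℂ) • v) := rfl
    rw [this, inner_smul_right, inner_sub_right, inner_smul_right]
  have hunit : ∀ v : H, ‖v‖ = 1 →
      |(inner ℂ v (S v)).re| ≤ 1 ∧ |(inner ℂ v (S v)).im| ≤ c := by
    intro v hv
    have hvv : inner ℂ v v = (1 : ℂ) := by
      rw [inner_self_eq_norm_sq_to_K, hv]; simp
    rw [hSinner v, hvv, mul_one, Complex.re_ofReal_mul, Complex.im_ofReal_mul]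
    obtain ⟨h1, h2, h3⟩ := lobe_scalar _ m (hW v hv)
    have hp := hpos v hv
    set z := inner ℂ v (B v) with hz
    have hre : (z - (c : ℂ)).re = z.re - c := by simp
    have him : (z - (c : ℂ)).im = z.im := by simp
    rw [hre, him, abs_mul, abs_mul, abs_of_pos (inv_pos.2 hw0)]
    constructor
    · rw [inv_mul_le_iff₀ hw0, mul_one, abs_le]
      have hlow : sm ≤ z.re := by
        have h4 : sm ^ 2 ≤ z.re ^ 2 := by rw [hsm2]; exact h1
        exact (sq_le_sq₀ hsm0.le hp.le).1 h4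
      have hhigh : z.re ≤ sp := by
        have h4 : z.re ^ 2 ≤ sp ^ 2 := by rw [hsp2]; exact h2
        exact (sq_le_sq₀ hp.le hsp0.le).1 h4
      constructor
      · rw [hc, hw]; linarith
      · rw [hc, hw]; linarith
    · rw [inv_mul_le_iff₀ hw0]
      have h4 : (2 * z.im) ^ 2 ≤ m ^ 2 := by nlinarith
      have h5 := abs_le_of_sq_le_sq h4 hm0.le
      rw [abs_mul, abs_of_pos (by norm_num : (0 : ℝ) < 2)] at h5
      nlinarith
  have hX : ∀ v : H, |(inner ℂ v (S v)).re| ≤ ‖v‖ ^ 2 := by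
    intro v
    by_cases hv : v = 0
    · simp [hv]
    obtain ⟨u, hu, he⟩ := exists_unit_inner S v hv
    rw [he, Complex.re_ofReal_mul, abs_mul, abs_of_nonneg (by positivity)]
    have := (hunit u hu).1
    nlinarith [sq_nonneg ‖v‖]
  have hY : ∀ v : H, |(inner ℂ v (S v)).im| ≤ c * ‖v‖ ^ 2 := by
    intro v
    by_cases hv : v = 0
    · simp [hv]
    obtain ⟨u, hu, he⟩ := exists_unit_inner S v hv
    rw [he, Complex.im_ofReal_mul, abs_mul, abs_of_nonneg (by positivity)]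
    have := (hunit u hu).2
    nlinarith [sq_nonneg ‖v‖]
  set δ : ℝ := w / (2 * c) with hδ
  have hδ0 : 0 ≤ δ := by positivity
  have hδ1 : δ ≤ 1 / 2 := by
    rw [hδ, div_le_iff₀ (by positivity)]
    linarith
  have hκ : c ^ 2 * (1 + 4 * δ ^ 2) ≤ 1 := by
    have : c ^ 2 * (1 + 4 * δ ^ 2) = c ^ 2 + w ^ 2 := by
      rw [hδ]; field_simp; ring
    rw [this, hsq]
  have hrect := rect_lemma S δ c hδ0 hδ1 hc0.le hκ hX hY
  -- the algebraic identity
  have hid : (m : ℂ) • (S + (δ : ℂ) • (S * S - 1)) = B * B - 1 := by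
    set r : ℂ := ((w⁻¹ : ℝ) : ℂ) with hr
    set cc : ℂ := (c : ℂ) with hcc
    set d : ℂ := (δ : ℂ) with hd
    set mm : ℂ := (m : ℂ) with hmm
    have hww : ((w : ℝ) : ℂ) ≠ 0 := by exact_mod_cast hw0.ne'
    have hcne : ((c : ℝ) : ℂ) ≠ 0 := by exact_mod_cast hc0.ne'
    have hrw : r * (w : ℂ) = 1 := by
      rw [hr]; push_cast; field_simp
    have hdd : d * (2 * cc) = (w : ℂ) := by
      rw [hd, hδ, hcc]; push_cast; field_simp
    have hmw : mm = 2 * cc * (w : ℂ) := by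
      rw [hmm, ← hprod, hcc]; push_cast; ring
    have hsq' : cc ^ 2 + (w : ℂ) ^ 2 = 1 := by
      rw [hcc]; exact_mod_cast hsq
    have hSS : S * S = r ^ 2 • (B * B) - (2 * r ^ 2 * cc) • B + (r ^ 2 * cc ^ 2) • 1 := by
      rw [hS]
      simp only [smul_mul_assoc, mul_smul_comm, sub_mul, mul_sub, one_mul, mul_one, smul_sub,
        smul_smul]
      module
    have e1 : mm * d * r ^ 2 = 1 := by
      calc mm * d * r ^ 2 = (d * (2 * cc)) * (w : ℂ) * r ^ 2 := by rw [hmw]; ring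
        _ = (r * (w : ℂ)) ^ 2 := by rw [hdd]; ring
        _ = 1 := by rw [hrw]; ring
    have e2 : mm * r = 2 * cc := by
      rw [hmw]
      calc 2 * cc * (w : ℂ) * r = 2 * cc * (r * (w : ℂ)) := by ring
        _ = _ := by rw [hrw]; ring
    have e3 : mm * d = (w : ℂ) ^ 2 := by
      rw [hmw]
      calc 2 * cc * (w : ℂ) * d = (d * (2 * cc)) * (w : ℂ) := by ring
        _ = _ := by rw [hdd]; ring
    rw [hSS, hS]
    have e4 : mm • (r • (B - cc • 1) + d • (r ^ 2 • (B * B) - (2 * r ^ 2 * cc) • B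
        + (r ^ 2 * cc ^ 2) • 1 - 1))
        = (mm * d * r ^ 2) • (B * B) + (mm * r - 2 * cc * (mm * d * r ^ 2)) • B
          + (cc ^ 2 * (mm * d * r ^ 2) - cc * (mm * r) - mm * d) • (1 : H →L[ℂ] H) := by
      module
    rw [e4, e1, e2, e3]
    have e5 : cc ^ 2 * 1 - cc * (2 * cc) - (w : ℂ) ^ 2 = -1 := by
      linear_combination -hsq'
    rw [e5]
    module
  calc ‖B * B - 1‖ = ‖(m : ℂ) • (S + (δ : ℂ) • (S * S - 1))‖ := by rw [hid]
    _ = m * ‖S + (δ : ℂ) • (S * S - 1)‖ := by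
      rw [norm_smul, Complex.norm_real, Real.norm_eq_abs, abs_of_pos hm0]
    _ ≤ m * 2 := mul_le_mul_of_nonneg_left hrect hm0.le
    _ = 2 * m := by ring

/-- The lobe lemma: if the numerical range of `B` lies in `{|z² - 1| ≤ m}` with `m < 1`, then
`‖B² - 1‖ ≤ 2 m`. -/
theorem lobe_bound (B : H →L[ℂ] H) (m : ℝ) (hm0 : 0 < m) (hm1 : m < 1)
    (hW : ∀ v : H, ‖v‖ = 1 → ‖(inner ℂ v (B v)) ^ 2 - 1‖ ≤ m) :
    ‖B * B - 1‖ ≤ 2 * m := by
  have hc : 0 < √(1 - m) := Real.sqrt_pos.2 (by linarith)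
  have hlow : ∀ v : H, √(1 - m) * ‖v‖ ^ 2 ≤ |(inner ℂ v (B v)).re| := by
    intro v
    by_cases hv : v = 0
    · simp [hv]
    obtain ⟨u, hu, he⟩ := exists_unit_inner B v hv
    rw [he, Complex.re_ofReal_mul, abs_mul, abs_of_nonneg (by positivity), mul_comm]
    apply mul_le_mul_of_nonneg_left _ (by positivity)
    have h1 := (lobe_scalar _ m (hW u hu)).1
    have h2 : √(1 - m) ^ 2 = 1 - m := Real.sq_sqrt (by linarith)
    calc √(1 - m) ≤ √((inner ℂ u (B u)).re ^ 2) := Real.sqrt_le_sqrt h1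
      _ = |(inner ℂ u (B u)).re| := Real.sqrt_sq_eq_abs _
  have hne : ∀ v : H, ‖v‖ = 1 → (inner ℂ v (B v)).re ≠ 0 := by
    intro v hv h0
    have h1 := hlow v
    rw [h0, abs_zero, hv] at h1
    simp at h1
    linarith
  by_cases hex : ∃ u₀ : H, ‖u₀‖ = 1 ∧ 0 < (inner ℂ u₀ (B u₀)).re
  · obtain ⟨u₀, -, hu₀⟩ := hex
    refine lobe_pos B m hm0 hm1 hW fun v hv => ?_
    by_contra hcon
    have h1 : (inner ℂ v (B v)).re < 0 := lt_of_le_of_ne (not_lt.1 hcon) (hne v hv)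
    exact re_sign_const B _ hc hlow u₀ v hu₀ h1
  · push_neg at hex
    have h1 := lobe_pos (-B) m hm0 hm1 (fun v hv => ?_) (fun v hv => ?_)
    · rwa [neg_mul_neg] at h1
    · have : inner ℂ v ((-B) v) = -inner ℂ v (B v) := by
        rw [ContinuousLinearMap.neg_apply, inner_neg_right]
      rw [this, neg_sq]
      exact hW v hv
    · have h2 : inner ℂ v ((-B) v) = -inner ℂ v (B v) := by
        rw [ContinuousLinearMap.neg_apply, inner_neg_right]
      rw [h2, Complex.neg_re]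
      have h3 := lt_of_le_of_ne (hex v hv) (hne v hv)
      linarith

/-- Crouzeix's inequality for quadratics whose lemniscate is disconnected. -/
theorem quad_disconnected (A : H →L[ℂ] H) (P : ℂ[X]) (z₀ : ℂ) (M : ℝ) (hP : P.natDegree = 2)
    (hc : P.derivative.eval z₀ = 0) (hM : 0 < M)
    (hW : ∀ x : H, ‖x‖ = 1 → ‖P.eval (inner ℂ x (A x))‖ ≤ M)
    (hv : M < ‖P.eval z₀‖) : ‖aeval A P‖ ≤ 2 * M := by
  obtain ⟨a, ha, hev, -⟩ := quad_form P hP z₀ hc
  set v := P.eval z₀ with hvdef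
  have hv0 : v ≠ 0 := by
    intro h0
    rw [h0, norm_zero] at hv
    linarith
  have hnv : 0 < ‖v‖ := norm_pos_iff.2 hv0
  obtain ⟨μ, hμ⟩ := IsAlgClosed.exists_pow_nat_eq (-v / a) (by norm_num : 0 < 2)
  have hμ0 : μ ≠ 0 := by
    intro h0
    rw [h0] at hμ
    have : -v / a ≠ 0 := div_ne_zero (neg_ne_zero.2 hv0) ha
    apply this
    rw [← hμ]
    ring
  have haμ : a * μ ^ 2 = -v := by
    rw [hμ]; field_simp
  set B : H →L[ℂ] H := μ⁻¹ • (A - z₀ • 1) with hB
  have hPoly : P = C a * (X - C z₀) ^ 2 + C v := by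
    apply Polynomial.funext
    intro z
    rw [hev z]
    simp
  have hPA : aeval A P = (-v) • (B * B - 1) := by
    have h1 : A - z₀ • 1 = μ • B := by
      rw [hB, smul_smul, mul_inv_cancel₀ hμ0, one_smul]
    have h2 : aeval A P = a • ((A - z₀ • 1) * (A - z₀ • 1)) + v • 1 := by
      rw [hPoly]
      simp only [map_add, map_mul, map_pow, map_sub, aeval_X, aeval_C]
      simp only [Algebra.algebraMap_eq_smul_one, smul_mul_assoc, one_mul, pow_two]
    rw [h2, h1]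
    simp only [smul_mul_assoc, mul_smul_comm, smul_smul]
    have h3 : a * (μ * μ) = -v := by rw [← haμ]; ring
    rw [h3]
    module
  set m : ℝ := M / ‖v‖ with hm
  have hm0 : 0 < m := by positivity
  have hm1 : m < 1 := by
    rw [hm, div_lt_one hnv]
    exact hv
  have hBW : ∀ u : H, ‖u‖ = 1 → ‖(inner ℂ u (B u)) ^ 2 - 1‖ ≤ m := by
    intro u hu
    have huu : inner ℂ u u = (1 : ℂ) := by
      rw [inner_self_eq_norm_sq_to_K, hu]; simp
    have hBu : B u = μ⁻¹ • (A u - z₀ • u) := rfl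
    have h1 : inner ℂ u (B u) = μ⁻¹ * (inner ℂ u (A u) - z₀) := by
      rw [hBu, inner_smul_right, inner_sub_right, inner_smul_right, huu, mul_one]
    have h2 : P.eval (inner ℂ u (A u)) = (-v) * ((inner ℂ u (B u)) ^ 2 - 1) := by
      rw [hev, h1]
      field_simp
      linear_combination (inner ℂ u (A u) - z₀) ^ 2 * haμ
    have h3 := hW u hu
    rw [h2, norm_mul, norm_neg] at h3
    rw [hm, le_div_iff₀ hnv, mul_comm]
    exact h3
  have h4 := lobe_bound B m hm0 hm1 hBW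
  rw [hPA, norm_smul, norm_neg]
  calc ‖v‖ * ‖B * B - 1‖ ≤ ‖v‖ * (2 * m) := mul_le_mul_of_nonneg_left h4 hnv.le
    _ = 2 * M := by rw [hm]; field_simp

/-- **Crouzeix's conjecture for every polynomial of degree at most two.** -/
theorem crouzeix_degree_two (A : H →L[ℂ] H) (P : ℂ[X]) (hP : P.natDegree ≤ 2) (M : ℝ) (hM : 0 ≤ M)
    (hW : ∀ x : H, ‖x‖ = 1 → ‖P.eval (inner ℂ x (A x))‖ ≤ M) : ‖aeval A P‖ ≤ 2 * M := by
  -- it suffices to treat all positive bounds
  suffices h : ∀ M' : ℝ, 0 < M' → (∀ x : H, ‖x‖ = 1 → ‖P.eval (inner ℂ x (A x))‖ ≤ M') →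
      ‖aeval A P‖ ≤ 2 * M' by
    refine le_of_forall_pos_le_add fun ε hε => ?_
    have h1 := h (M + ε / 2) (by positivity) (fun x hx => (hW x hx).trans (by linarith))
    linarith
  intro M' hM' hW'
  have hcases : P.natDegree = 2 ∨ P.natDegree ≤ 1 := by omega
  rcases hcases with h2 | h1
  · -- degree two
    have hdeg : P.degree ≤ 2 := by
      rw [degree_eq_natDegree (by rintro rfl; simp at h2), h2]; rfl
    have hq := eq_quadratic_of_degree_le_two hdeg
    have ha : P.coeff 2 ≠ 0 := by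
      rw [← h2]
      exact leadingCoeff_ne_zero.2 (by rintro rfl; simp at h2)
    set z₀ := -P.coeff 1 / (2 * P.coeff 2) with hz₀
    have hc : P.derivative.eval z₀ = 0 := by
      conv_lhs => rw [hq]
      simp [derivative_add, derivative_mul]
      rw [hz₀]
      field_simp
      ring
    by_cases hv : ‖P.eval z₀‖ ≤ M'
    · exact quad_norm A P z₀ M' h2 hc hM' hW' hv
    · exact quad_disconnected A P z₀ M' h2 hc hM' hW' (not_le.1 hv)
  · -- degree at most one: the value at the numerical range is the numerical range of the value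
    have hq : P = C (P.coeff 1) * X + C (P.coeff 0) := eq_X_add_C_of_natDegree_le_one h1
    obtain ⟨ω, hω, hω1, -, -⟩ := exists_omega
    refine opNorm_le_of_three_directions _ M' hM'.le 1 ω (ω ^ 2) (by simp) hω
      (by rw [norm_pow, hω]; simp) hω1 (by linear_combination (ω ^ 2 - ω + 1) * hω1) fun k x => ?_
    have hk : ‖![(1 : ℂ), ω, ω ^ 2] k‖ = 1 := by
      fin_cases k
      · simp
      · exact hω
      · simp [hω]
    have hT : ∀ u : H, ‖u‖ = 1 → ‖inner ℂ u ((aeval A P) u)‖ ≤ M' := by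
      intro u hu
      have huu : inner ℂ u u = (1 : ℂ) := by
        rw [inner_self_eq_norm_sq_to_K, hu]; simp
      have h2 : inner ℂ u ((aeval A P) u) = P.eval (inner ℂ u (A u)) := by
        conv_lhs => rw [hq]
        conv_rhs => rw [hq]
        simp only [map_add, map_mul, aeval_C, aeval_X, eval_add, eval_mul, eval_C, eval_X,
          Algebra.algebraMap_eq_smul_one, smul_mul_assoc, one_mul]
        have h3 : ((P.coeff 1 • A + P.coeff 0 • (1 : H →L[ℂ] H)) u)
            = P.coeff 1 • A u + P.coeff 0 • u := rfl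
        rw [h3, inner_add_right, inner_smul_right, inner_smul_right, huu, mul_one]
      rw [h2]
      exact hW' u hu
    calc _ ≤ ‖conj (![(1 : ℂ), ω, ω ^ 2] k) * inner ℂ x ((aeval A P) x)‖ := Complex.re_le_norm _
      _ = ‖inner ℂ x ((aeval A P) x)‖ := by rw [norm_mul, RCLike.norm_conj, hk, one_mul]
      _ ≤ _ := inner_bound_of_unit _ M' hT x

end Complete

end Vale.Agent.Lib.P123
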