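import Vale.Agent.Lib.P123.Main

open Polynomial ComplexConjugate

namespace Vale.Agent.Lib.P123

variable {H : Type*} [NormedAddCommGroup H] [InnerProductSpace ℂ H]

/-- The real inequality behind the rectangle lemma. -/
theorem rect_real (γ η p r δ κ : ℝ) (hγ : 0 ≤ γ) (hη : 0 ≤ η) (hp0 : 0 ≤ p) (hr0 : 0 ≤ r)
    (hp : p ≤ γ + κ * η) (hr : r ≤ η + κ * γ) (hδ0 : 0 ≤ δ) (hδ : δ ≤ 1 / 2) (hκ0 : 0 ≤ κ)
    (hκ : κ ^ 2 * (1 + 4 * δ ^ 2) ≤ 1) :
    γ * p + η * r + δ * (p ^ 2 - r ^ 2 - γ ^ 2 + η ^ 2) ≤ 2 * (γ ^ 2 + η ^ 2) := by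
  have hκ2 : κ ^ 2 ≤ 1 := by nlinarith [sq_nonneg δ, sq_nonneg κ]
  have hκ1 : κ ≤ 1 := by nlinarith
  -- the `p` part is monotone
  have hP : γ * p + δ * p ^ 2 ≤ γ * (γ + κ * η) + δ * (γ + κ * η) ^ 2 := by
    have h1 : γ * p ≤ γ * (γ + κ * η) := mul_le_mul_of_nonneg_left hp hγ
    have h2 : p ^ 2 ≤ (γ + κ * η) ^ 2 := pow_le_pow_left₀ hp0 hp 2
    have h3 := mul_le_mul_of_nonneg_left h2 hδ0
    linarith
  by_cases hcase : 2 * δ * (η + κ * γ) ≤ η
  · -- the `r` part is monotone up to the bound for `r`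
    have hR : η * r - δ * r ^ 2 ≤ η * (η + κ * γ) - δ * (η + κ * γ) ^ 2 := by
      have h1 : 0 ≤ ((η + κ * γ) - r) * (η - δ * ((η + κ * γ) + r)) := by
        apply mul_nonneg (by linarith)
        have : δ * r ≤ δ * (η + κ * γ) := mul_le_mul_of_nonneg_left hr hδ0
        nlinarith
      linarith
    have hfin : 0 ≤ (1 + δ * κ ^ 2) * γ ^ 2 + (1 - δ * κ ^ 2) * η ^ 2 - 2 * κ * γ * η := by
      have ha : 0 < 1 + δ * κ ^ 2 := by positivity
      have h2 : κ ^ 2 + δ ^ 2 * κ ^ 4 ≤ 1 := by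
        have h3 : δ ^ 2 * κ ^ 2 * κ ^ 2 ≤ δ ^ 2 * κ ^ 2 * 1 :=
          mul_le_mul_of_nonneg_left hκ2 (by positivity)
        have h5 : 0 ≤ δ ^ 2 * κ ^ 2 := by positivity
        nlinarith
      have h3 : 0 ≤ ((1 + δ * κ ^ 2) * γ - κ * η) ^ 2 + (1 - κ ^ 2 - δ ^ 2 * κ ^ 4) * η ^ 2 := by
        have : 0 ≤ (1 - κ ^ 2 - δ ^ 2 * κ ^ 4) * η ^ 2 :=
          mul_nonneg (by linarith) (sq_nonneg _)
        have h6 := sq_nonneg ((1 + δ * κ ^ 2) * γ - κ * η)
        linarith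
      have h4 : (1 + δ * κ ^ 2) * ((1 + δ * κ ^ 2) * γ ^ 2 + (1 - δ * κ ^ 2) * η ^ 2 - 2 * κ * γ * η)
          = ((1 + δ * κ ^ 2) * γ - κ * η) ^ 2 + (1 - κ ^ 2 - δ ^ 2 * κ ^ 4) * η ^ 2 := by ring
      rw [← h4] at h3
      exact nonneg_of_mul_nonneg_right h3 ha
    nlinarith
  · -- small `η`: the vertex of the parabola
    push_neg at hcase
    have hδpos : 0 < δ := by
      by_contra h
      have h0 : δ = 0 := le_antisymm (not_lt.1 h) hδ0
      rw [h0] at hcase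
      simp at hcase
      linarith
    have hvertex : η * r - δ * r ^ 2 ≤ η ^ 2 / (4 * δ) := by
      rw [le_div_iff₀ (by positivity)]
      nlinarith [sq_nonneg (η - 2 * δ * r)]
    by_cases hsplit : δ ≤ 1 / 4
    · have h1 : η ^ 2 / (4 * δ) ≤ η ^ 2 / 2 + κ * (γ * η) / 2 := by
        rw [div_le_iff₀ (by positivity)]
        have h2 := mul_le_mul_of_nonneg_left hcase.le hη
        nlinarith
      have h3 : (3 / 4 * κ + δ * κ) ^ 2 ≤ 1 := by
        have h5 : 3 / 4 * κ + δ * κ ≤ 1 := by nlinarith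
        have h0 : 0 ≤ 3 / 4 * κ + δ * κ := by positivity
        nlinarith
      have h6 : δ * κ ^ 2 ≤ δ := by nlinarith
      have h4 : 0 ≤ (3 / 2 - δ - δ * κ ^ 2 - (3 / 4 * κ + δ * κ) ^ 2) * η ^ 2 :=
        mul_nonneg (by linarith) (sq_nonneg _)
      have h2 := sq_nonneg (γ - 3 / 4 * κ * η - δ * κ * η)
      have hv := hvertex.trans h1
      nlinarith
    · push_neg at hsplit
      have h1 : η ^ 2 / (4 * δ) ≤ (3 / 2 - 2 * δ) * η ^ 2 := by
        rw [div_le_iff₀ (by positivity)]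
        have h2 : 1 ≤ (3 / 2 - 2 * δ) * (4 * δ) := by nlinarith
        have h3 := mul_le_mul_of_nonneg_right h2 (sq_nonneg η)
        nlinarith
      -- now a discriminant without side condition
      have hdisc : κ ^ 2 * (1 + 2 * δ) ^ 2 ≤ 4 * (1 / 2 + δ - δ * κ ^ 2) := by
        have h3 : κ ^ 2 * (1 + 4 * δ ^ 2) * ((1 + 2 * δ) ^ 2 + 4 * δ)
            ≤ 1 * ((1 + 2 * δ) ^ 2 + 4 * δ) :=
          mul_le_mul_of_nonneg_right hκ (by positivity)
        have h4 : (2 + 4 * δ) * (1 + 4 * δ ^ 2) - ((1 + 2 * δ) ^ 2 + 4 * δ)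
            = (1 - 2 * δ) ^ 2 + 16 * δ ^ 3 := by ring
        have h7 : 0 ≤ (1 - 2 * δ) ^ 2 + 16 * δ ^ 3 := by positivity
        have h5 : κ ^ 2 * ((1 + 2 * δ) ^ 2 + 4 * δ) ≤ 2 + 4 * δ := by
          have h6 : 0 < 1 + 4 * δ ^ 2 := by positivity
          have h8 : κ ^ 2 * ((1 + 2 * δ) ^ 2 + 4 * δ) * (1 + 4 * δ ^ 2)
              ≤ (2 + 4 * δ) * (1 + 4 * δ ^ 2) := by linarith
          exact le_of_mul_le_mul_right h8 h6
        linarith
      have h2 := sq_nonneg (γ - κ * (1 + 2 * δ) * η / 2)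
      have h3 : 0 ≤ (1 / 2 + δ - δ * κ ^ 2 - κ ^ 2 * (1 + 2 * δ) ^ 2 / 4) * η ^ 2 :=
        mul_nonneg (by linarith) (sq_nonneg _)
      have hv := hvertex.trans h1
      nlinarith

/-- Norm bound from a bound for the real part of the sesquilinear form. -/
theorem opNorm_le_of_re_inner (T : H →L[ℂ] H) (M : ℝ) (hM : 0 ≤ M)
    (key : ∀ x y : H, (inner ℂ x (T y)).re ≤ M * (‖x‖ ^ 2 + ‖y‖ ^ 2)) : ‖T‖ ≤ 2 * M := by
  refine ContinuousLinearMap.opNorm_le_bound _ (by positivity) fun y => ?_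
  by_cases hy : T y = 0
  · rw [hy, norm_zero]
    positivity
  by_cases hy0 : y = 0
  · rw [hy0, map_zero, norm_zero]
    simp
  have hTy : 0 < ‖T y‖ := norm_pos_iff.2 hy
  have hy' : 0 < ‖y‖ := norm_pos_iff.2 hy0
  have h3 := key (((‖y‖ / ‖T y‖ : ℝ) : ℂ) • T y) y
  rw [inner_smul_left, inner_self_eq_norm_sq_to_K, norm_smul] at h3
  simp only [Complex.conj_ofReal, Complex.norm_real, Real.norm_eq_abs] at h3
  rw [abs_of_nonneg (by positivity), div_mul_cancel₀ _ hTy.ne'] at h3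
  have h4 : (((‖y‖ / ‖T y‖ : ℝ) : ℂ) * ((‖T y‖ : ℝ) : ℂ) ^ 2).re = ‖y‖ * ‖T y‖ := by
    norm_cast
    field_simp
  simp only [Complex.coe_algebraMap] at h3
  rw [h4] at h3
  have h5 : ‖T y‖ * ‖y‖ ≤ (2 * M * ‖y‖) * ‖y‖ := by nlinarith
  exact le_of_mul_le_mul_right h5 hy'

section Complete

variable [CompleteSpace H]

/-- For a self-adjoint operator, a bound for the quadratic form bounds the operator. -/
theorem selfAdjoint_bound (Z : H →L[ℂ] H) (hZ : ∀ u v : H, inner ℂ u (Z v) = inner ℂ (Z u) v)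
    (C : ℝ) (hC : 0 ≤ C) (h : ∀ v : H, ‖inner ℂ v (Z v)‖ ≤ C * ‖v‖ ^ 2) (v : H) :
    ‖Z v‖ ≤ C * ‖v‖ := by
  by_cases hv : v = 0
  · simp [hv]
  by_cases hZv : Z v = 0
  · rw [hZv, norm_zero]; positivity
  have hnv : 0 < ‖v‖ := norm_pos_iff.2 hv
  have hnZ : 0 < ‖Z v‖ := norm_pos_iff.2 hZv
  set t : ℝ := ‖v‖ / ‖Z v‖ with ht
  set u : H := (t : ℂ) • Z v with hu
  have hnu : ‖u‖ = ‖v‖ := by
    rw [hu, norm_smul, Complex.norm_real, Real.norm_eq_abs, abs_of_pos (by positivity), ht]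
    field_simp
  have h1 : inner ℂ u (Z v) = ((‖v‖ * ‖Z v‖ : ℝ) : ℂ) := by
    rw [hu, inner_smul_left, Complex.conj_ofReal, inner_self_eq_norm_sq_to_K]
    rw [ht]
    push_cast
    have : ((‖Z v‖ : ℝ) : ℂ) ≠ 0 := by exact_mod_cast hnZ.ne'
    simp only [Complex.coe_algebraMap]
    field_simp
  -- polarization
  have hpol : ((4 : ℂ) * inner ℂ u (Z v)).re
      = (inner ℂ (u + v) (Z (u + v))).re - (inner ℂ (u - v) (Z (u - v))).re := by
    have h2 : inner ℂ v (Z u) = conj (inner ℂ u (Z v)) := by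
      rw [hZ, inner_conj_symm]
    simp only [map_add, map_sub, inner_add_left, inner_add_right, inner_sub_left, inner_sub_right,
      h2, Complex.add_re, Complex.sub_re, Complex.conj_re, Complex.mul_re]
    norm_num
    ring
  have h3 := (Complex.re_le_norm _).trans (h (u + v))
  have h4 := (Complex.neg_re _ ▸ (Complex.re_le_norm (-(inner ℂ (u - v) (Z (u - v))))).trans
    ((norm_neg _).le.trans (h (u - v))))
  have h5 : ‖u + v‖ ^ 2 + ‖u - v‖ ^ 2 = 2 * (‖u‖ ^ 2 + ‖v‖ ^ 2) := by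
    have := parallelogram_law_with_norm ℂ u v
    nlinarith
  have h6 : (4 : ℝ) * (‖v‖ * ‖Z v‖) ≤ C * (4 * ‖v‖ ^ 2) := by
    have h7 : ((4 : ℂ) * inner ℂ u (Z v)).re = 4 * (‖v‖ * ‖Z v‖) := by
      rw [h1]; norm_cast
    rw [h7] at hpol
    rw [hnu] at h5
    nlinarith
  have h8 : ‖v‖ * ‖Z v‖ ≤ ‖v‖ * (C * ‖v‖) := by nlinarith
  exact le_of_mul_le_mul_left h8 hnv

/-- The rectangle lemma: if the numerical range of `S` lies in the rectangle
`[-1, 1] × [-κ, κ]`, then `S + δ (S² - 1)` has norm at most `2`. -/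
theorem rect_lemma (S : H →L[ℂ] H) (δ κ : ℝ) (hδ0 : 0 ≤ δ) (hδ : δ ≤ 1 / 2) (hκ0 : 0 ≤ κ)
    (hκ : κ ^ 2 * (1 + 4 * δ ^ 2) ≤ 1)
    (hX : ∀ v : H, |(inner ℂ v (S v)).re| ≤ ‖v‖ ^ 2)
    (hY : ∀ v : H, |(inner ℂ v (S v)).im| ≤ κ * ‖v‖ ^ 2) :
    ‖S + (δ : ℂ) • (S * S - 1)‖ ≤ 2 := by
  set S' : H →L[ℂ] H := ContinuousLinearMap.adjoint S with hS'
  have hadjL : ∀ u v : H, inner ℂ (S' u) v = inner ℂ u (S v) := fun u v =>
    ContinuousLinearMap.adjoint_inner_left S v u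
  have hadjR : ∀ u v : H, inner ℂ u (S' v) = inner ℂ (S u) v := fun u v =>
    ContinuousLinearMap.adjoint_inner_right S u v
  -- the real and imaginary parts of `S`
  set X : H →L[ℂ] H := (1 / 2 : ℂ) • (S + S') with hXdef
  set W : H →L[ℂ] H := (1 / 2 : ℂ) • (S - S') with hWdef
  have hXapp : ∀ v, X v = (1 / 2 : ℂ) • (S v + S' v) := fun v => rfl
  have hWapp : ∀ v, W v = (1 / 2 : ℂ) • (S v - S' v) := fun v => rfl
  have hhalf : conj (1 / 2 : ℂ) = 1 / 2 := by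
    have h0 : (1 / 2 : ℂ) = ((1 / 2 : ℝ) : ℂ) := by push_cast; ring
    rw [h0, Complex.conj_ofReal]
  have hXbound : ∀ v, ‖X v‖ ≤ 1 * ‖v‖ := by
    refine selfAdjoint_bound X (fun u v => ?_) 1 zero_le_one fun v => ?_
    · rw [hXapp, hXapp, inner_smul_right, inner_smul_left, inner_add_left, inner_add_right, hadjL,
        hadjR, hhalf]
      ring
    · have h1 : inner ℂ v (X v) = (((inner ℂ v (S v)).re : ℝ) : ℂ) := by
        rw [hXapp, inner_smul_right, inner_add_right, hadjR]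
        have hw : inner ℂ (S v) v = conj (inner ℂ v (S v)) := (inner_conj_symm _ _).symm
        rw [hw, Complex.add_conj]
        push_cast
        ring
      rw [h1, Complex.norm_real, Real.norm_eq_abs, one_mul]
      exact hX v
  -- a self-adjoint multiple of `W`
  have hWbound : ∀ v, ‖W v‖ ≤ κ * ‖v‖ := by
    intro v
    set Z : H →L[ℂ] H := (-Complex.I) • W with hZ
    have hZapp : ∀ v, Z v = (-Complex.I) • W v := fun v => rfl
    have hb := selfAdjoint_bound Z (fun u v => ?_) κ hκ0 (fun v => ?_) v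
    · rw [hZapp, norm_smul] at hb
      simpa using hb
    · rw [hZapp, hZapp, hWapp, hWapp, inner_smul_right, inner_smul_right, inner_smul_left,
        inner_smul_left, inner_sub_left, inner_sub_right, hadjL, hadjR, hhalf]
      simp only [map_neg, Complex.conj_I]
      ring
    · have h1 : inner ℂ v (Z v) = (((inner ℂ v (S v)).im : ℝ) : ℂ) := by
        rw [hZapp, hWapp, inner_smul_right, inner_smul_right, inner_sub_right, hadjR]
        have hw : inner ℂ (S v) v = conj (inner ℂ v (S v)) := (inner_conj_symm _ _).symm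
        rw [hw, Complex.sub_conj]
        push_cast
        linear_combination (-((inner ℂ v (S v)).im : ℂ)) * Complex.I_sq
      rw [h1, Complex.norm_real, Real.norm_eq_abs]
      exact hY v
  rw [show (2 : ℝ) = 2 * 1 by norm_num]
  refine opNorm_le_of_re_inner _ 1 zero_le_one fun x y => ?_
  set a : H := S y with ha
  set b : H := S' x with hb
  set g : H := x + y with hg
  set h : H := x - y with hh
  have hP : ‖b + a‖ ≤ ‖g‖ + κ * ‖h‖ := by
    have h1 : b + a = X g - W h := by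
      rw [hXapp, hWapp, hg, hh, map_add, map_add, map_sub, map_sub, ← ha, ← hb]
      rw [← smul_sub]
      have h2 : (1 / 2 : ℂ) • ((2 : ℂ) • (a + b)) = a + b := by
        rw [smul_smul]; norm_num
      rw [add_comm b a, ← h2]
      congr 1
      rw [two_smul]
      abel
    rw [h1]
    calc _ ≤ ‖X g‖ + ‖W h‖ := norm_sub_le _ _
      _ ≤ 1 * ‖g‖ + κ * ‖h‖ := add_le_add (hXbound g) (hWbound h)
      _ = _ := by ring
  have hR : ‖b - a‖ ≤ ‖h‖ + κ * ‖g‖ := by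
    have h1 : b - a = X h - W g := by
      rw [hXapp, hWapp, hg, hh, map_add, map_add, map_sub, map_sub, ← ha, ← hb]
      rw [← smul_sub]
      have h2 : (1 / 2 : ℂ) • ((2 : ℂ) • (b - a)) = b - a := by
        rw [smul_smul]; norm_num
      rw [← h2]
      congr 1
      rw [two_smul]
      abel
    rw [h1]
    calc _ ≤ ‖X h‖ + ‖W g‖ := norm_sub_le _ _
      _ ≤ 1 * ‖h‖ + κ * ‖g‖ := add_le_add (hXbound h) (hWbound g)
      _ = _ := by ring
  -- the identities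
  have hT : inner ℂ x ((S + (δ : ℂ) • (S * S - 1)) y)
      = inner ℂ x a + (δ : ℂ) * (inner ℂ b a - inner ℂ x y) := by
    have h1 : (S + (δ : ℂ) • (S * S - 1)) y = a + (δ : ℂ) • (S a - y) := rfl
    rw [h1, inner_add_right, inner_smul_right, inner_sub_right, hadjL x a |>.symm]
  have hre : (inner ℂ x ((S + (δ : ℂ) • (S * S - 1)) y)).re
      = (inner ℂ x a).re + δ * ((inner ℂ b a).re - (inner ℂ x y).re) := by
    rw [hT, Complex.add_re, Complex.re_ofReal_mul, Complex.sub_re]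
  have h1 : 4 * (inner ℂ b a).re = ‖b + a‖ ^ 2 - ‖b - a‖ ^ 2 := by
    rw [@norm_add_sq ℂ, @norm_sub_sq ℂ]
    simp only [RCLike.re_to_complex]
    ring
  have h2 : 4 * (inner ℂ x y).re = ‖g‖ ^ 2 - ‖h‖ ^ 2 := by
    rw [hg, hh, @norm_add_sq ℂ, @norm_sub_sq ℂ]
    simp only [RCLike.re_to_complex]
    ring
  have h3 : (inner ℂ g (b + a)).re - (inner ℂ h (b - a)).re = 4 * (inner ℂ x a).re := by
    have h4 : (inner ℂ y b).re = (inner ℂ x a).re := by
      have : inner ℂ b y = inner ℂ x a := hadjL x y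
      rw [← this, ← inner_conj_symm y b, Complex.conj_re]
    rw [hg, hh]
    simp only [inner_add_left, inner_add_right, inner_sub_left, inner_sub_right, Complex.add_re,
      Complex.sub_re]
    rw [h4]
    ring
  have h4 : ‖g‖ ^ 2 + ‖h‖ ^ 2 = 2 * (‖x‖ ^ 2 + ‖y‖ ^ 2) := by
    have := parallelogram_law_with_norm ℂ x y
    rw [hg, hh]
    nlinarith
  have h5 : (inner ℂ g (b + a)).re ≤ ‖g‖ * ‖b + a‖ :=
    (Complex.re_le_norm _).trans (norm_inner_le_norm _ _)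
  have h6 : -(inner ℂ h (b - a)).re ≤ ‖h‖ * ‖b - a‖ := by
    have := Complex.abs_re_le_norm (inner ℂ h (b - a))
    have h7 := norm_inner_le_norm (𝕜 := ℂ) h (b - a)
    have h8 := neg_abs_le (inner ℂ h (b - a)).re
    linarith
  have hreal := rect_real ‖g‖ ‖h‖ ‖b + a‖ ‖b - a‖ δ κ (norm_nonneg _) (norm_nonneg _)
    (norm_nonneg _) (norm_nonneg _) hP hR hδ0 hδ hκ0 hκ
  rw [hre]
  have hmul : δ * (‖b + a‖ ^ 2 - ‖b - a‖ ^ 2 - ‖g‖ ^ 2 + ‖h‖ ^ 2)
      = 4 * (δ * ((inner ℂ b a).re - (inner ℂ x y).re)) := by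
    rw [mul_sub, mul_sub]
    nlinarith
  nlinarith

end Complete

end Vale.Agent.Lib.P123
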